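import Mathlib

section

open MeasureTheory Filter Topology Set
open scoped ENNReal RealInnerProductSpace

namespace Vale.Agent.P119

/-- Positions and velocities live in `ℝ³`. -/
abbrev E3 := EuclideanSpace ℝ (Fin 3)

/-- One-particle phase space, a point is `z = (x, v)`. -/
abbrev Ph := E3 × E3

/-- The point of `ℝ³` given by `k ∈ ℤ³`. -/
noncomputable def latPt (k : Fin 3 → ℤ) : E3 := WithLp.toLp 2 (fun i => (k i : ℝ))

/-- The norm `‖h‖_γ`, with value in `[0, ∞]`. -/
noncomputable def gnorm {F : Type*} [NormedAddCommGroup F] (γ : ℝ) (h : Ph → F) : ℝ≥0∞ :=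
  ∑' k : Fin 3 → ℤ, ⨆ z : Ph, ⨆ _ : ‖z.1 - latPt k‖ ≤ 1,
    ENNReal.ofReal (Real.exp (γ * ‖z.2‖ ^ 2) * ‖h z‖)

/-- The potentials of the problem (`Φ 0` is the value of the `C²` extension if there is one). -/
structure IsPotential (Φ : E3 → ℝ) : Prop where
  radial : ∀ x y : E3, x ≠ 0 → ‖x‖ = ‖y‖ → Φ x = Φ y
  vanishing : ∀ x : E3, 1 ≤ ‖x‖ → Φ x = 0
  regular : ContDiff ℝ 2 Φ ∨
    (ContDiffOn ℝ 2 Φ {0}ᶜ ∧ Tendsto Φ (𝓝[≠] 0) atTop ∧
      ∀ᶠ x in 𝓝[≠] (0 : E3), ⟪x, gradient Φ x⟫ ≤ 0)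

/-- Stability of a pair potential. -/
def IsStable (Φ : E3 → ℝ) : Prop :=
  ∃ B : ℝ, 0 ≤ B ∧ ∀ (n : ℕ) (x : Fin n → E3), Function.Injective x →
    -(B * n) ≤ ∑ i, ∑ j ∈ Finset.Ioi i, Φ (x i - x j)

/-- The data of the problem: `C¹` probability densities with `‖f₀‖_{2β} + ‖∇ₓ f₀‖_{2β} < ∞`. -/
structure IsDatum (β : ℝ) (f₀ : Ph → ℝ) : Prop where
  contDiff : ContDiff ℝ 1 f₀
  nonneg : ∀ z, 0 ≤ f₀ z
  integrable : Integrable f₀
  integral_eq : ∫ z, f₀ z = 1
  norm_lt : gnorm (2 * β) f₀ < ∞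
  grad_lt : gnorm (2 * β) (fun z : Ph => gradient (fun y => f₀ (y, z.2)) z.1) < ∞

/-- The acceleration of particle `i` in the configuration `Z`. -/
noncomputable def accel (Φ : E3 → ℝ) (ε : ℝ) {N : ℕ} (Z : Fin N → Ph) (i : Fin N) : E3 :=
  -(ε⁻¹ • ∑ j ∈ Finset.univ.erase i, gradient Φ (ε⁻¹ • ((Z i).1 - (Z j).1)))

/-- Global solutions of Newton's equations for `N` particles. -/
def IsNewton (Φ : E3 → ℝ) (ε : ℝ) {N : ℕ} (z : ℝ → Fin N → Ph) : Prop :=
  ∀ (t : ℝ) (i : Fin N), HasDerivAt (fun s => (z s i).1) (z t i).2 t ∧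
    HasDerivAt (fun s => (z s i).2) (accel Φ ε (z t) i) t

open Classical in
/-- The configuration at time `t` of the particles started at `Z`. -/
noncomputable def flow (Φ : E3 → ℝ) (ε t : ℝ) {N : ℕ} (Z : Fin N → Ph) : Fin N → Ph :=
  if h : ∃ z : ℝ → Fin N → Ph, IsNewton Φ ε z ∧ z 0 = Z then h.choose t else Z

/-- `μ_ε = ε⁻²`. -/
noncomputable def mu (ε : ℝ) : ℝ := (ε ^ 2)⁻¹

/-- Configurations in which all distances are `> ε`. -/
def excl (ε : ℝ) (N : ℕ) : Set (Fin N → Ph) :=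
  {Z | ∀ i j, i ≠ j → ε < ‖(Z i).1 - (Z j).1‖}

/-- `1{|x_i - x_j| > ε for all i ≠ j} ∏ f₀(z_i)`. -/
noncomputable def wt (f₀ : Ph → ℝ) (ε : ℝ) {N : ℕ} (Z : Fin N → Ph) : ℝ :=
  (excl ε N).indicator (fun Z => ∏ i, f₀ (Z i)) Z

/-- The normalizing constant `𝒵_ε`. -/
noncomputable def partitionFn (f₀ : Ph → ℝ) (ε : ℝ) : ℝ :=
  ∑' N : ℕ, mu ε ^ N / (N.factorial : ℝ) * ∫ Z : Fin N → Ph, wt f₀ ε Z

/-- Expectation of `g` under the grand-canonical initial law. -/
noncomputable def expect (f₀ : Ph → ℝ) (ε : ℝ) (g : (N : ℕ) → (Fin N → Ph) → ℝ) : ℝ :=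
  (partitionFn f₀ ε)⁻¹ *
    ∑' N : ℕ, mu ε ^ N / (N.factorial : ℝ) * ∫ Z : Fin N → Ph, wt f₀ ε Z * g N Z

/-- `F` is (a version of) the rescaled factorial marginal `F^ε_s(t)`. -/
def IsMarginal (Φ : E3 → ℝ) (f₀ : Ph → ℝ) (ε t : ℝ) (s : ℕ) (F : (Fin s → Ph) → ℝ) : Prop :=
  Integrable F ∧ ∀ a : (Fin s → Ph) → ℝ, Measurable a → (∃ C, ∀ z, |a z| ≤ C) →
    ∫ z, a z * F z = (mu ε ^ s)⁻¹ *
      expect f₀ ε (fun N Z => ∑ σ : Fin s ↪ Fin N, a (fun k => flow Φ ε t Z (σ k)))

/-- `V'` is the outgoing velocity of the relative motion entering along `ρ + t V`. -/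
def Scatters (Φ : E3 → ℝ) (V ρ V' : E3) : Prop :=
  ∃ r w : ℝ → E3, (∀ t, HasDerivAt r (w t) t ∧ HasDerivAt w (-((2 : ℝ) • gradient Φ (r t))) t) ∧
    (∀ᶠ t in atBot, r t = ρ + t • V) ∧ ∀ᶠ t in atTop, 1 ≤ ‖r t‖ ∧ w t = V'

open Classical in
/-- The outgoing velocity `V'`, where it is defined. -/
noncomputable def outVel (Φ : E3 → ℝ) (V ρ : E3) : E3 :=
  if h : ∃ V', Scatters Φ V ρ V' then h.choose else V

/-- The collision operator `Q_Φ(h, h)(v)` for a velocity profile `h`. -/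
noncomputable def collision (Φ : E3 → ℝ) (h : E3 → ℝ) (v : E3) : ℝ :=
  ∫ vs : E3, ∫ ρ : (ℝ ∙ (v - vs))ᗮ in Metric.ball 0 1,
    ‖v - vs‖ * (h ((2 : ℝ)⁻¹ • (v + vs + outVel Φ (v - vs) ρ)) *
      h ((2 : ℝ)⁻¹ • (v + vs - outVel Φ (v - vs) ρ)) - h v * h vs)

/-- `f` is a solution showing that `[0, T]` is a regular kinetic interval. -/
structure IsRegularSolution (Φ : E3 → ℝ) (β : ℝ) (f₀ : Ph → ℝ) (T : ℝ) (f : ℝ → Ph → ℝ) :
    Prop where
  init : f 0 = f₀
  nonneg : ∀ t ∈ Icc 0 T, ∀ z, 0 ≤ f t z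
  integral_eq : ∀ t ∈ Icc 0 T, Integrable (f t) ∧ ∫ z, f t z = 1
  contDiff : ContDiffOn ℝ 1 (fun p : ℝ × Ph => f p.1 p.2) (Icc 0 T ×ˢ univ)
  equation : ∀ t ∈ Icc 0 T, ∀ x v : E3,
    derivWithin (fun s => f s (x, v)) (Icc 0 T) t + ⟪v, gradient (fun y => f t (y, v)) x⟫ =
      collision Φ (fun w => f t (x, w)) v
  bound : ∃ C, ∀ t ∈ Icc 0 T, ∀ x v : E3, Real.exp (2 * β * ‖v‖ ^ 2) * f t (x, v) ≤ C

/-- The convergence asserted in the problem, for the kinetic solution `f` on `[0, T]`. -/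
def KineticLimit (Φ : E3 → ℝ) (f₀ : Ph → ℝ) (T : ℝ) (f : ℝ → Ph → ℝ) (s : ℕ) : Prop :=
  (∀ ε ∈ Ioo (0 : ℝ) 1, ∀ t ∈ Icc 0 T, ∃ F, IsMarginal Φ f₀ ε t s F) ∧
  ∀ F : ℝ → ℝ → (Fin s → Ph) → ℝ,
    (∀ ε ∈ Ioo (0 : ℝ) 1, ∀ t ∈ Icc 0 T, IsMarginal Φ f₀ ε t s (F ε t)) →
    Tendsto (fun ε => ⨆ t ∈ Icc 0 T, ∫⁻ z, ‖F ε t z - ∏ k, f t (z k)‖ₑ) (𝓝[>] 0) (𝓝 0)

/-- Gaussians in the collision invariants of the free expansion (`c ≥ 0`: not contracting). -/
def IsGlobalMaxwellian (f₀ : Ph → ℝ) : Prop :=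
  ∃ (a b c k : ℝ) (p q : E3) (Ω : E3 →L[ℝ] E3), 0 ≤ c ∧ (∀ x, ⟪x, Ω x⟫ = 0) ∧
    ∀ x v : E3, f₀ (x, v) =
      Real.exp (-(a * ‖x‖ ^ 2 + b * ‖v‖ ^ 2 - 2 * c * ⟪x, v⟫ + ⟪x, Ω v⟫ + ⟪p, x⟫ + ⟪q, v⟫ + k))

end Vale.Agent.P119
end

section

open MeasureTheory Filter Topology Set
open scoped ENNReal NNReal

noncomputable section

namespace Vale.Agent.P119

section glue

variable {Y : Type*} [NormedAddCommGroup Y] [NormedSpace ℝ Y]

theorem glue_solution {F : Y → Y} {K : ℝ≥0} (hF : LipschitzWith K F) (y₀ : Y)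
    (hloc : ∀ N : ℕ, ∃ α : ℝ → Y, α 0 = y₀ ∧
      ∀ t ∈ Ioo (-(N : ℝ)) N, HasDerivAt α (F (α t)) t) :
    ∃ β : ℝ → Y, β 0 = y₀ ∧ ∀ t, HasDerivAt β (F (β t)) t := by
  choose α hα0 hα using hloc
  have key : ∀ M N : ℕ, M ≤ N → ∀ s ∈ Ioo (-(M : ℝ)) M, α M s = α N s := by
    intro M N hMN s hs
    have hM : (0 : ℝ) < M := by
      have := hs.1; have := hs.2; linarith
    have hMN' : (M : ℝ) ≤ N := by exact_mod_cast hMN
    refine ODE_solution_unique_of_mem_Ioo (v := fun _ => F) (s := fun _ => univ) (K := K)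
      (t₀ := 0) (a := -(M : ℝ)) (b := M) (fun t _ => hF.lipschitzOnWith)
      ⟨by linarith, hM⟩ (fun t ht => ⟨hα M t ht, trivial⟩)
      (fun t ht => ⟨hα N t ⟨by linarith [ht.1], by linarith [ht.2]⟩, trivial⟩)
      (by rw [hα0, hα0]) hs
  let β : ℝ → Y := fun t => α (⌈|t|⌉₊ + 1) t
  have hβ : ∀ M : ℕ, ∀ s ∈ Ioo (-(M : ℝ)) M, β s = α M s := by
    intro M s hs
    have hs' : s ∈ Ioo (-((⌈|s|⌉₊ + 1 : ℕ) : ℝ)) ((⌈|s|⌉₊ + 1 : ℕ) : ℝ) := by
      have h1 : |s| ≤ ⌈|s|⌉₊ := Nat.le_ceil _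
      have h2 := neg_abs_le s
      have h3 := le_abs_self s
      push_cast
      constructor <;> linarith
    rcases le_total (⌈|s|⌉₊ + 1) M with h | h
    · exact key _ _ h s hs'
    · exact (key _ _ h s hs).symm
  refine ⟨β, ?_, ?_⟩
  · simp only [β]; exact hα0 _
  · intro t
    set N : ℕ := ⌈|t|⌉₊ + 1 with hN
    have ht : t ∈ Ioo (-(N : ℝ)) N := by
      have h1 : |t| ≤ ⌈|t|⌉₊ := Nat.le_ceil _
      have h2 := neg_abs_le t
      have h3 := le_abs_self t
      rw [hN]; push_cast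
      constructor <;> linarith
    have heq : β =ᶠ[𝓝 t] α N := by
      filter_upwards [Ioo_mem_nhds ht.1 ht.2] with s hs using hβ N s hs
    have := hα N t ht
    rw [hβ N t ht]
    exact this.congr_of_eventuallyEq heq

end glue

section second

variable {X : Type*} [NormedAddCommGroup X] [NormedSpace ℝ X] [CompleteSpace X]

/-- The first-order vector field of `x'' = G x`. -/
def field (G : X → X) (p : X × X) : X × X := (p.2, G p.1)

omit [NormedSpace ℝ X] [CompleteSpace X] in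
theorem field_lipschitz {G : X → X} {K : ℝ≥0} (hG : LipschitzWith K G) :
    LipschitzWith (max 1 K) (field G) := by
  have h1 : LipschitzWith 1 (fun p : X × X => p.2) := LipschitzWith.prod_snd
  have h2 : LipschitzWith (K * 1) (fun p : X × X => G p.1) := hG.comp LipschitzWith.prod_fst
  rw [mul_one] at h2
  exact h1.prodMk h2

theorem exists_local {G : X → X} {K M : ℝ≥0} (hG : LipschitzWith K G) (hM : ∀ x, ‖G x‖ ≤ M)
    (p₀ : X × X) (N : ℕ) :
    ∃ α : ℝ → X × X, α 0 = p₀ ∧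
      ∀ t ∈ Ioo (-(N : ℝ)) N, HasDerivAt α (field G (α t)) t := by
  -- the transformed field
  let f : ℝ → X × X → X × X := fun t q => (-(t • G (q.1 + t • q.2)), G (q.1 + t • q.2))
  have hlip_arg : ∀ t ∈ Icc (-(N : ℝ)) N,
      LipschitzWith (1 + N) (fun q : X × X => q.1 + t • q.2) := by
    intro t ht
    refine LipschitzWith.of_dist_le_mul fun p q => ?_
    rw [dist_eq_norm, dist_eq_norm]
    have e : p.1 + t • p.2 - (q.1 + t • q.2) = (p - q).1 + t • (p - q).2 := by
      simp only [Prod.fst_sub, Prod.snd_sub, smul_sub]; abel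
    rw [e]
    have ht' : |t| ≤ N := abs_le.2 ht
    calc ‖(p - q).1 + t • (p - q).2‖ ≤ ‖(p - q).1‖ + ‖t • (p - q).2‖ := norm_add_le _ _
      _ ≤ ‖p - q‖ + N * ‖p - q‖ := by
          gcongr
          · exact norm_fst_le _
          · rw [norm_smul, Real.norm_eq_abs]
            exact mul_le_mul ht' (norm_snd_le _) (norm_nonneg _) (by positivity)
      _ = ((1 + N : ℝ≥0) : ℝ) * ‖p - q‖ := by push_cast; ring
  have hlip : ∀ t ∈ Icc (-(N : ℝ)) N, LipschitzWith ((1 + N) * (K * (1 + N))) (f t) := by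
    intro t ht
    have ht' : |t| ≤ N := abs_le.2 ht
    have h2 : LipschitzWith (K * (1 + N)) (fun q : X × X => G (q.1 + t • q.2)) :=
      hG.comp (hlip_arg t ht)
    refine LipschitzWith.of_dist_le_mul fun p q => ?_
    have h3 := h2.dist_le_mul p q
    rw [Prod.dist_eq]
    have hd : 0 ≤ dist p q := dist_nonneg
    apply max_le
    · simp only [f]
      rw [dist_eq_norm] at *
      have e : -(t • G (p.1 + t • p.2)) - -(t • G (q.1 + t • q.2)) =
          -(t • (G (p.1 + t • p.2) - G (q.1 + t • q.2))) := by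
        rw [smul_sub]; abel
      rw [e, norm_neg, norm_smul, Real.norm_eq_abs]
      calc |t| * ‖G (p.1 + t • p.2) - G (q.1 + t • q.2)‖
          ≤ (1 + N) * (((K * (1 + N) : ℝ≥0) : ℝ) * dist p q) := by
            apply mul_le_mul _ h3 (norm_nonneg _) (by positivity)
            linarith
        _ = _ := by push_cast; ring
    · simp only [f]
      refine h3.trans ?_
      apply mul_le_mul_of_nonneg_right _ hd
      push_cast
      have h5 : 0 ≤ (N : ℝ) * ((K : ℝ) * (1 + N)) := by positivity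
      linarith
  have hcont : ∀ q : X × X, ContinuousOn (f · q) (Icc (-(N : ℝ)) N) := by
    intro q
    apply Continuous.continuousOn
    have hGc := hG.continuous
    fun_prop
  have hbound : ∀ t ∈ Icc (-(N : ℝ)) N, ∀ q : X × X, ‖f t q‖ ≤ ((1 + N) * M : ℝ≥0) := by
    intro t ht q
    have ht' : |t| ≤ N := abs_le.2 ht
    have hMq := hM (q.1 + t • q.2)
    rw [Prod.norm_def]
    apply max_le
    · simp only [f]
      rw [norm_neg, norm_smul, Real.norm_eq_abs]
      push_cast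
      apply mul_le_mul (by linarith) hMq (norm_nonneg _) (by positivity)
    · simp only [f]
      refine hMq.trans ?_
      push_cast
      nlinarith [M.2, mul_nonneg (Nat.cast_nonneg N : (0:ℝ) ≤ N) M.2]
  have h0mem : (0 : ℝ) ∈ Icc (-(N : ℝ)) N := ⟨by simp, by simp⟩
  have hPL : IsPicardLindelof f (⟨0, h0mem⟩ : Icc (-(N : ℝ)) N) p₀
      ((1 + N) * M * N) 0 ((1 + N) * M) ((1 + N) * (K * (1 + N))) := by
    refine ⟨fun t ht => (hlip t ht).lipschitzOnWith, fun q _ => hcont q,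
      fun t ht q _ => hbound t ht q, ?_⟩
    simp
  obtain ⟨α, hα0, hα⟩ := hPL.exists_eq_forall_mem_Icc_hasDerivWithinAt₀
  refine ⟨fun t => ((α t).1 + t • (α t).2, (α t).2), ?_, ?_⟩
  · have : α 0 = p₀ := hα0
    simp [this]
  · intro t ht
    have hd : HasDerivAt α (f t (α t)) t :=
      (hα t (Ioo_subset_Icc_self ht)).hasDerivAt (Icc_mem_nhds ht.1 ht.2)
    have hd1 : HasDerivAt (fun τ => (α τ).1) (f t (α t)).1 t := hd.fst
    have hd2 : HasDerivAt (fun τ => (α τ).2) (f t (α t)).2 t := hd.snd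
    have hd3 : HasDerivAt (fun τ : ℝ => τ • (α τ).2) (t • (f t (α t)).2 + (1 : ℝ) • (α t).2) t :=
      (hasDerivAt_id t).smul hd2
    have hd4 := (hd1.add hd3).prodMk hd2
    refine HasDerivAt.congr_deriv hd4 ?_
    ext1
    · simp [f, field]
    · simp [f, field]

/-- Global existence for `x'' = G x` with `G` bounded and Lipschitz. -/
theorem exists_global {G : X → X} {K M : ℝ≥0} (hG : LipschitzWith K G) (hM : ∀ x, ‖G x‖ ≤ M)
    (p₀ : X × X) :
    ∃ β : ℝ → X × X, β 0 = p₀ ∧ ∀ t, HasDerivAt β (field G (β t)) t :=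
  glue_solution (field_lipschitz hG) p₀ fun N => exists_local hG hM p₀ N

end second

end Vale.Agent.P119
end
end

section

open MeasureTheory Filter Topology Set
open scoped ENNReal NNReal

noncomputable section

namespace Vale.Agent.P119

/-! ### Euler scheme -/

section euler

variable {Y : Type*} [NormedAddCommGroup Y] [NormedSpace ℝ Y]

theorem exact_step {Fd : Y → Y} {K : ℝ≥0} (hF : LipschitzWith K Fd) {γ : ℝ → Y} {V : ℝ}
    (hγ : ∀ t, HasDerivAt γ (Fd (γ t)) t) {T : ℝ} (hV : ∀ t ∈ Icc (0 : ℝ) T, ‖Fd (γ t)‖ ≤ V)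
    {t h : ℝ} (ht : 0 ≤ t) (hh : 0 ≤ h) (hth : t + h ≤ T) :
    ‖γ (t + h) - γ t - h • Fd (γ t)‖ ≤ K * V * h ^ 2 := by
  have hV0 : 0 ≤ V := (norm_nonneg _).trans (hV t ⟨ht, by linarith⟩)
  -- first bound
  have h1 : ∀ τ ∈ Icc t (t + h), ‖γ τ - γ t‖ ≤ V * (τ - t) := by
    intro τ hτ
    refine norm_image_sub_le_of_norm_deriv_le_segment' (f := γ) (a := t) (b := t + h)
      (f' := fun s => Fd (γ s)) (fun s hs => (hγ s).hasDerivWithinAt) ?_ τ hτ
    intro s hs
    exact hV s ⟨by linarith [hs.1], by linarith [hs.2]⟩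
  have h2 := norm_image_sub_le_of_norm_deriv_le_segment'
    (f := fun τ => γ τ - (τ - t) • Fd (γ t)) (a := t) (b := t + h)
    (f' := fun s => Fd (γ s) - Fd (γ t)) (C := K * V * h) ?_ ?_ (t + h) ⟨by linarith, le_rfl⟩
  · have e : (fun τ => γ τ - (τ - t) • Fd (γ t)) (t + h) - (fun τ => γ τ - (τ - t) • Fd (γ t)) t
        = γ (t + h) - γ t - h • Fd (γ t) := by
      simp only [add_sub_cancel_left, sub_self, zero_smul, sub_zero]
      abel
    rw [e] at h2
    refine h2.trans (le_of_eq ?_)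
    ring
  · intro s _
    have h3 : HasDerivAt (fun τ : ℝ => (τ - t) • Fd (γ t)) ((1 : ℝ) • Fd (γ t)) s :=
      ((hasDerivAt_id s).sub_const t).smul_const _
    rw [one_smul] at h3
    exact ((hγ s).sub h3).hasDerivWithinAt
  · intro s hs
    have h4 := hF.dist_le_mul (γ s) (γ t)
    rw [dist_eq_norm, dist_eq_norm] at h4
    have h5 := h1 s ⟨hs.1, hs.2.le⟩
    calc ‖Fd (γ s) - Fd (γ t)‖ ≤ K * ‖γ s - γ t‖ := h4
      _ ≤ K * (V * h) := by
        apply mul_le_mul_of_nonneg_left _ K.2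
        refine h5.trans (mul_le_mul_of_nonneg_left ?_ hV0)
        linarith [hs.2]
      _ = K * V * h := by ring

theorem euler_error {Fd : Y → Y} {K : ℝ≥0} (hF : LipschitzWith K Fd) {γ : ℝ → Y} {V M : ℝ}
    (hM : 0 ≤ M) (hγ : ∀ t, HasDerivAt γ (Fd (γ t)) t) {T : ℝ}
    (hV : ∀ t ∈ Icc (0 : ℝ) T, ‖Fd (γ t)‖ ≤ V) {h : ℝ} (hh : 0 ≤ h) {Ψ : Y → Y}
    (hΨ : ∀ Z, ‖Ψ Z - Z - h • Fd Z‖ ≤ M * h ^ 2) (k : ℕ) (hk : k * h ≤ T) :
    ‖Ψ^[k] (γ 0) - γ (k * h)‖ ≤ (M + K * V) * h ^ 2 * k * (1 + K * h) ^ k := by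
  induction k with
  | zero => simp
  | succ k ih =>
    have hk' : (k : ℝ) * h ≤ T := by
      push_cast at hk; nlinarith
    have ih := ih hk'
    have hV0 : 0 ≤ V := (norm_nonneg _).trans (hV 0 ⟨le_rfl, by
      refine le_trans ?_ hk'; positivity⟩)
    rw [Function.iterate_succ_apply']
    set Zk := Ψ^[k] (γ 0) with hZk
    have e1 : ((k + 1 : ℕ) : ℝ) * h = k * h + h := by push_cast; ring
    rw [e1]
    have h2 := exact_step hF hγ hV (t := k * h) (h := h) (by positivity) hh (by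
      rw [← e1]; exact hk)
    have h3 := hF.dist_le_mul Zk (γ (k * h))
    rw [dist_eq_norm, dist_eq_norm] at h3
    have e2 : Ψ Zk - γ (k * h + h) = (Ψ Zk - Zk - h • Fd Zk) -
        (γ (k * h + h) - γ (k * h) - h • Fd (γ (k * h))) +
        (Zk - γ (k * h)) + h • (Fd Zk - Fd (γ (k * h))) := by
      rw [smul_sub]; abel
    have h4 : ‖Ψ Zk - γ (k * h + h)‖ ≤ M * h ^ 2 + K * V * h ^ 2 + ‖Zk - γ (k * h)‖ +
        h * (K * ‖Zk - γ (k * h)‖) := by
      rw [e2]
      refine (norm_add_le _ _).trans ?_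
      refine add_le_add ((norm_add_le _ _).trans (add_le_add ((norm_sub_le _ _).trans ?_) le_rfl)) ?_
      · exact add_le_add (hΨ _) h2
      · rw [norm_smul, Real.norm_eq_abs, abs_of_nonneg hh]
        exact mul_le_mul_of_nonneg_left h3 hh
    refine h4.trans ?_
    set D := (M + K * V) * h ^ 2 with hD
    have hD0 : 0 ≤ D := by positivity
    have hq : 1 ≤ (1 + (K : ℝ) * h) ^ k := one_le_pow₀ (by
      have : 0 ≤ (K : ℝ) * h := by positivity
      linarith)
    have hq' : 1 ≤ (1 + (K : ℝ) * h) := by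
      have : 0 ≤ (K : ℝ) * h := by positivity
      linarith
    have e3 : M * h ^ 2 + K * V * h ^ 2 = D := by rw [hD]; ring
    rw [e3]
    calc D + ‖Zk - γ (k * h)‖ + h * (K * ‖Zk - γ (k * h)‖)
        = D + (1 + K * h) * ‖Zk - γ (k * h)‖ := by ring
      _ ≤ D * (1 + K * h) ^ (k + 1) + (1 + K * h) * (D * k * (1 + K * h) ^ k) := by
          refine add_le_add ?_ (mul_le_mul_of_nonneg_left ih (by linarith))
          have : 1 ≤ (1 + (K : ℝ) * h) ^ (k + 1) := one_le_pow₀ hq'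
          nlinarith
      _ = D * ((k + 1 : ℕ) : ℝ) * (1 + K * h) ^ (k + 1) := by
          push_cast; ring

theorem euler_tendsto {Fd : Y → Y} {K : ℝ≥0} (hF : LipschitzWith K Fd) {γ : ℝ → Y} {M : ℝ}
    (hM : 0 ≤ M) (hγ : ∀ t, HasDerivAt γ (Fd (γ t)) t) {T : ℝ} (hT : 0 ≤ T)
    {Ψ : ℝ → Y → Y} (hΨ : ∀ h Z, 0 ≤ h → ‖Ψ h Z - Z - h • Fd Z‖ ≤ M * h ^ 2) :
    Tendsto (fun N : ℕ => (Ψ (T / N))^[N] (γ 0)) atTop (𝓝 (γ T)) := by
  -- bound of the speed on [0,T]
  have hcont : Continuous fun t => Fd (γ t) := hF.continuous.comp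
    (continuous_iff_continuousAt.2 fun t => (hγ t).continuousAt)
  obtain ⟨V, hV⟩ := (isCompact_Icc (a := (0 : ℝ)) (b := T)).exists_bound_of_continuousOn
    hcont.continuousOn
  have hV0 : 0 ≤ V := (norm_nonneg _).trans (hV 0 ⟨le_rfl, hT⟩)
  rw [tendsto_iff_norm_sub_tendsto_zero]
  refine squeeze_zero' (g := fun N : ℕ => ((M + K * V) * T ^ 2 * Real.exp (K * T)) / N)
    (Eventually.of_forall fun _ => norm_nonneg _) ?_ ?_
  · filter_upwards [eventually_gt_atTop 0] with N hN
    have hN' : (0 : ℝ) < N := by exact_mod_cast hN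
    have h1 := euler_error hF hM hγ hV (h := T / N) (by positivity) (Ψ := Ψ (T / N))
      (fun Z => hΨ _ Z (by positivity)) N (by rw [mul_div_cancel₀ _ hN'.ne'])
    rw [mul_div_cancel₀ _ hN'.ne'] at h1
    refine h1.trans ?_
    have h2 : (1 + (K : ℝ) * (T / N)) ^ N ≤ Real.exp (K * T) := by
      have h3 : 1 + (K : ℝ) * (T / N) ≤ Real.exp (K * (T / N)) := by
        rw [add_comm]; exact Real.add_one_le_exp _
      calc (1 + (K : ℝ) * (T / N)) ^ N ≤ (Real.exp (K * (T / N))) ^ N := by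
            apply pow_le_pow_left₀ (by positivity) h3
        _ = Real.exp (K * T) := by
            rw [← Real.exp_nat_mul]; congr 1; field_simp
    calc (M + K * V) * (T / N) ^ 2 * N * (1 + K * (T / N)) ^ N
        ≤ (M + K * V) * (T / N) ^ 2 * N * Real.exp (K * T) := by
          apply mul_le_mul_of_nonneg_left h2 (by positivity)
      _ = (M + K * V) * T ^ 2 * Real.exp (K * T) / N := by field_simp
  · exact tendsto_const_div_atTop_nhds_zero_nat _

end euler

/-! ### Limits of measure-preserving maps -/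

section limits

variable {Y : Type*} [TopologicalSpace Y] [MeasurableSpace Y] [BorelSpace Y]

theorem map_le_of_tendsto {μ : Measure Y} [μ.OuterRegular] {S : Y → Y} (hS : Measurable S)
    {Ψ : ℕ → Y → Y} (hΨ : ∀ N, MeasurePreserving (Ψ N) μ μ)
    (hlim : ∀ z, Tendsto (fun N => Ψ N z) atTop (𝓝 (S z))) : μ.map S ≤ μ := by
  have hopen : ∀ O : Set Y, IsOpen O → μ (S ⁻¹' O) ≤ μ O := by
    intro O hO
    have h1 : μ (S ⁻¹' O) = ∫⁻ z, (S ⁻¹' O).indicator 1 z ∂μ := by
      rw [lintegral_indicator_one (hS hO.measurableSet)]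
    rw [h1]
    have h2 : ∀ z, (S ⁻¹' O).indicator (1 : Y → ℝ≥0∞) z ≤
        liminf (fun N => (Ψ N ⁻¹' O).indicator (1 : Y → ℝ≥0∞) z) atTop := by
      intro z
      by_cases hz : S z ∈ O
      · have h3 : ∀ᶠ N in atTop, Ψ N z ∈ O := (hlim z).eventually (hO.mem_nhds hz)
        have h4 : ∀ᶠ N in atTop, (1 : ℝ≥0∞) ≤ (Ψ N ⁻¹' O).indicator (1 : Y → ℝ≥0∞) z := by
          filter_upwards [h3] with N hN
          have : z ∈ Ψ N ⁻¹' O := hN
          simp [this]
        have h5 : (S ⁻¹' O).indicator (1 : Y → ℝ≥0∞) z = 1 := by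
          have : z ∈ S ⁻¹' O := hz
          simp [this]
        rw [h5]
        exact le_liminf_of_le (by isBoundedDefault) h4
      · have h5 : (S ⁻¹' O).indicator (1 : Y → ℝ≥0∞) z = 0 := by
          have : z ∉ S ⁻¹' O := hz
          simp [this]
        rw [h5]; exact zero_le
    calc ∫⁻ z, (S ⁻¹' O).indicator 1 z ∂μ
        ≤ ∫⁻ z, liminf (fun N => (Ψ N ⁻¹' O).indicator (1 : Y → ℝ≥0∞) z) atTop ∂μ :=
          lintegral_mono h2
      _ ≤ liminf (fun N => ∫⁻ z, (Ψ N ⁻¹' O).indicator (1 : Y → ℝ≥0∞) z ∂μ) atTop := by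
          apply lintegral_liminf_le
          intro N
          exact measurable_one.indicator ((hΨ N).measurable hO.measurableSet)
      _ = liminf (fun _ : ℕ => μ O) atTop := by
          congr 1
          funext N
          rw [lintegral_indicator_one ((hΨ N).measurable hO.measurableSet)]
          exact (hΨ N).measure_preimage hO.measurableSet.nullMeasurableSet
      _ = μ O := by simp
  refine Measure.le_iff.2 fun A hA => ?_
  rw [Measure.map_apply hS hA]
  rw [Set.measure_eq_iInf_isOpen A μ]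
  refine le_iInf₂ fun O hAO => le_iInf fun hO => ?_
  exact (measure_mono (preimage_mono hAO)).trans (hopen O hO)

end limits

/-! ### The symplectic Euler scheme on configurations -/

instance instLocFinitePhase : IsLocallyFiniteMeasure (volume : Measure (Ph)) :=
  inferInstance

instance instLocFiniteConfig (n : ℕ) :
    IsLocallyFiniteMeasure (volume : Measure (Fin n → Ph)) :=
  Measure.pi.isLocallyFiniteMeasure

section config

variable {n : ℕ}

/-- Positions of a configuration. -/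
def posn (Z : Fin n → Ph) : Fin n → E3 := fun i => (Z i).1

theorem measurable_posn : Measurable (posn (n := n)) := by
  unfold posn; fun_prop

/-- The vector field on configurations for the acceleration `G`. -/
def cfield (G : (Fin n → E3) → (Fin n → E3)) (Z : Fin n → Ph) : Fin n → Ph :=
  fun i => ((Z i).2, G (posn Z) i)

theorem posn_lipschitz : LipschitzWith 1 (posn (n := n)) := by
  refine LipschitzWith.of_dist_le_mul fun Z W => ?_
  rw [NNReal.coe_one, one_mul]
  rw [dist_pi_le_iff dist_nonneg]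
  intro i
  exact (le_max_left _ _).trans (dist_le_pi_dist Z W i)

theorem cfield_lipschitz {G : (Fin n → E3) → (Fin n → E3)} {K : ℝ≥0} (hG : LipschitzWith K G) :
    LipschitzWith (max 1 K) (cfield G) := by
  refine LipschitzWith.of_dist_le_mul fun Z W => ?_
  rw [dist_pi_le_iff (by positivity)]
  intro i
  rw [Prod.dist_eq]
  apply max_le
  · have h1 : dist (Z i).2 (W i).2 ≤ dist Z W := (le_max_right _ _).trans (dist_le_pi_dist Z W i)
    calc dist (Z i).2 (W i).2 ≤ 1 * dist Z W := by rw [one_mul]; exact h1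
      _ ≤ _ := by
        apply mul_le_mul_of_nonneg_right _ dist_nonneg
        exact_mod_cast le_max_left 1 K
  · have h2 : dist (G (posn Z) i) (G (posn W) i) ≤ K * dist Z W := by
      refine (dist_le_pi_dist _ _ i).trans ((hG.dist_le_mul _ _).trans ?_)
      apply mul_le_mul_of_nonneg_left _ K.2
      have := posn_lipschitz.dist_le_mul Z W
      simpa using this
    refine h2.trans ?_
    apply mul_le_mul_of_nonneg_right _ dist_nonneg
    exact_mod_cast le_max_right 1 K

/-- Kick. -/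
def kick (G : (Fin n → E3) → (Fin n → E3)) (h : ℝ) (Z : Fin n → Ph) : Fin n → Ph :=
  fun i => ((Z i).1, (Z i).2 + h • G (posn Z) i)

/-- Drift. -/
def drift (h : ℝ) (Z : Fin n → Ph) : Fin n → Ph :=
  fun i => ((Z i).1 + h • (Z i).2, (Z i).2)

theorem shear_preserving (h : ℝ) :
    MeasurePreserving (fun p : Ph => (p.1 + h • p.2, p.2)) volume volume := by
  have h1 : MeasurePreserving (fun p : Ph => (p.1, p.2 + h • p.1)) volume volume := by
    refine MeasurePreserving.skew_product (f := fun x : E3 => x) (g := fun x y => y + h • x)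
      (MeasurePreserving.id _) (by fun_prop) ?_
    refine Eventually.of_forall fun x => ?_
    exact map_add_right_eq_self _ _
  have h2 : MeasurePreserving (Prod.swap : Ph → Ph) volume volume :=
    Measure.measurePreserving_swap
  exact (h2.comp (h1.comp h2))

theorem drift_preserving (h : ℝ) : MeasurePreserving (drift (n := n) h) volume volume :=
  volume_preserving_pi fun _ => shear_preserving h

theorem kick_preserving {G : (Fin n → E3) → (Fin n → E3)} (hG : Measurable G) (h : ℝ) :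
    MeasurePreserving (kick G h) volume volume := by
  have h1 : MeasurePreserving (fun p : (Fin n → E3) × (Fin n → E3) => (p.1, p.2 + h • G p.1))
      volume volume := by
    refine MeasurePreserving.skew_product (f := fun x : Fin n → E3 => x)
      (g := fun x y => y + h • G x)
      (MeasurePreserving.id _) (by fun_prop) ?_
    refine Eventually.of_forall fun x => ?_
    exact map_add_right_eq_self _ _
  have h2 : MeasurePreserving (MeasurableEquiv.arrowProdEquivProdArrow E3 E3 (Fin n)) volume volume :=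
    volume_measurePreserving_arrowProdEquivProdArrow E3 E3 (Fin n)
  have h3 := (h2.symm _).comp (h1.comp h2)
  exact h3

theorem step_error {G : (Fin n → E3) → (Fin n → E3)} {M : ℝ≥0} (hM : ∀ x, ‖G x‖ ≤ M) (h : ℝ)
    (Z : Fin n → Ph) :
    ‖drift h (kick G h Z) - Z - h • cfield G Z‖ ≤ M * h ^ 2 := by
  rw [pi_norm_le_iff_of_nonneg (by positivity)]
  intro i
  have e : (drift h (kick G h Z) - Z - h • cfield G Z) i = ((h ^ 2) • G (posn Z) i, 0) := by
    simp only [drift, kick, cfield, Pi.sub_apply, Pi.smul_apply]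
    ext1
    · simp only [Prod.fst_sub, Prod.smul_fst]
      rw [smul_add, smul_smul]
      rw [pow_two]
      abel
    · simp only [Prod.snd_sub, Prod.smul_snd]
      abel
  rw [e, Prod.norm_def, norm_zero, max_eq_left (norm_nonneg _), norm_smul]
  rw [mul_comm]
  have h1 : ‖G (posn Z) i‖ ≤ M := (norm_le_pi_norm _ i).trans (hM _)
  have h2 : ‖h ^ 2‖ = h ^ 2 := by rw [Real.norm_eq_abs]; exact abs_of_nonneg (sq_nonneg _)
  rw [h2]
  exact mul_le_mul_of_nonneg_right h1 (sq_nonneg _)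

/-- **Liouville**: a Newtonian flow does not increase volume. -/
theorem liouville {G : (Fin n → E3) → (Fin n → E3)} {K M : ℝ≥0} (hG : LipschitzWith K G)
    (hM : ∀ x, ‖G x‖ ≤ M) {S : ℝ → (Fin n → Ph) → (Fin n → Ph)}
    (hS0 : ∀ Z, S 0 Z = Z) (hS : ∀ Z t, HasDerivAt (fun τ => S τ Z) (cfield G (S t Z)) t)
    {T : ℝ} (hT : 0 ≤ T) (hmeas : Measurable (S T)) :
    (volume : Measure (Fin n → Ph)).map (S T) ≤ volume := by
  refine map_le_of_tendsto hmeas
    (Ψ := fun N => (fun Z => drift (T / N) (kick G (T / N) Z))^[N]) ?_ ?_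
  · intro N
    exact ((drift_preserving _).comp (kick_preserving hG.continuous.measurable _)).iterate N
  · intro Z
    have h := euler_tendsto (cfield_lipschitz hG) M.2 (hS Z) hT
      (Ψ := fun h Z => drift h (kick G h Z)) (fun h Z _ => step_error hM h Z)
    simpa only [hS0] using h

end config

end Vale.Agent.P119
end
end

section

open MeasureTheory Filter Topology Set
open scoped ENNReal NNReal

noncomputable section

namespace Vale.Agent.P119

variable {n : ℕ}

theorem sum_erase_eq (h : Fin n → Fin n → ℝ) :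
    ∑ i, ∑ j ∈ Finset.univ.erase i, h i j = ∑ i, ∑ j ∈ Finset.Ioi i, (h i j + h j i) := by
  have h1 : ∀ i : Fin n, Finset.univ.erase i = Finset.Ioi i ∪ Finset.Iio i := by
    intro i; ext j
    simp only [Finset.mem_erase, Finset.mem_univ, and_true, Finset.mem_union, Finset.mem_Ioi,
      Finset.mem_Iio]
    constructor
    · intro hj; rcases lt_or_gt_of_ne hj with h | h
      · exact Or.inr h
      · exact Or.inl h
    · rintro (h | h)
      · exact h.ne'
      · exact h.ne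
  have h2 : ∀ i : Fin n, Disjoint (Finset.Ioi i) (Finset.Iio i) := by
    intro i
    rw [Finset.disjoint_left]
    intro j hj hj'
    rw [Finset.mem_Ioi] at hj
    rw [Finset.mem_Iio] at hj'
    exact absurd hj (not_lt.2 hj'.le)
  have h3 : ∑ i, ∑ j ∈ Finset.Iio i, h i j = ∑ i, ∑ j ∈ Finset.Ioi i, h j i := by
    rw [Finset.sum_sigma', Finset.sum_sigma']
    refine Finset.sum_bij' (fun p _ => ⟨p.2, p.1⟩) (fun p _ => ⟨p.2, p.1⟩) ?_ ?_ ?_ ?_ ?_
    · rintro ⟨i, j⟩ hp
      simp only [Finset.mem_sigma, Finset.mem_univ, true_and, Finset.mem_Iio] at hp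
      simp [hp]
    · rintro ⟨i, j⟩ hp
      simp only [Finset.mem_sigma, Finset.mem_univ, true_and, Finset.mem_Ioi] at hp
      simp [hp]
    · rintro ⟨i, j⟩ _; rfl
    · rintro ⟨i, j⟩ _; rfl
    · rintro ⟨i, j⟩ _; rfl
  simp_rw [h1]
  rw [Finset.sum_congr rfl fun i _ => Finset.sum_union (h2 i)]
  rw [Finset.sum_add_distrib, h3, ← Finset.sum_add_distrib]
  refine Finset.sum_congr rfl fun i _ => ?_
  rw [Finset.sum_add_distrib]

/-- Summation by parts for antisymmetric pair forces. -/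
theorem sum_antisymm (g : Fin n → Fin n → E3) (hg : ∀ i j, g j i = -g i j) (a : Fin n → E3) :
    ∑ i, inner ℝ (∑ j ∈ Finset.univ.erase i, g i j) (a i) =
      ∑ i, ∑ j ∈ Finset.Ioi i, inner ℝ (g i j) (a i - a j) := by
  have h1 : ∀ i, inner ℝ (∑ j ∈ Finset.univ.erase i, g i j) (a i) =
      ∑ j ∈ Finset.univ.erase i, inner ℝ (g i j) (a i) := fun i => sum_inner _ _ _
  simp_rw [h1]
  rw [sum_erase_eq (fun i j => inner ℝ (g i j) (a i))]
  refine Finset.sum_congr rfl fun i _ => Finset.sum_congr rfl fun j _ => ?_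
  rw [hg i j, inner_neg_left, inner_sub_right]
  ring

section potential

variable {Φ : E3 → ℝ}

theorem even_of_radial (hr : ∀ x y : E3, ‖x‖ = ‖y‖ → Φ x = Φ y) (y : E3) : Φ (-y) = Φ y :=
  hr _ _ (norm_neg y)

theorem gradient_odd (hr : ∀ x y : E3, ‖x‖ = ‖y‖ → Φ x = Φ y) (y : E3) :
    gradient Φ (-y) = -gradient Φ y := by
  have h1 : Φ ∘ (ContinuousLinearEquiv.neg ℝ : E3 ≃L[ℝ] E3) = Φ :=
    funext fun x => even_of_radial hr x
  have h2 := (ContinuousLinearEquiv.neg ℝ : E3 ≃L[ℝ] E3).comp_right_fderiv (f := Φ) (x := y)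
  rw [h1] at h2
  have h3 : fderiv ℝ Φ y = -fderiv ℝ Φ (-y) := by
    rw [h2]; ext z; simp
  unfold gradient
  rw [h3, map_neg, neg_neg]

/-- For a radial function the gradient is radial: it is orthogonal to tangent vectors. -/
theorem gradient_inner_eq_zero (hr : ∀ x y : E3, ‖x‖ = ‖y‖ → Φ x = Φ y) {y w : E3}
    (hd : DifferentiableAt ℝ Φ y) (hw : inner ℝ y w = 0) : inner ℝ (gradient Φ y) w = 0 := by
  by_cases hw0 : w = 0
  · simp [hw0]
  have hwn : ‖w‖ ≠ 0 := norm_ne_zero_iff.2 hw0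
  -- the curve of constant norm
  let c : ℝ → E3 := fun s => Real.cos s • y + (Real.sin s * (‖y‖ / ‖w‖)) • w
  have hc : ∀ s, ‖c s‖ = ‖y‖ := by
    intro s
    have h1 : ‖c s‖ ^ 2 = ‖y‖ ^ 2 := by
      simp only [c]
      rw [norm_add_sq_real, norm_smul, norm_smul, real_inner_smul_left, real_inner_smul_right, hw]
      rw [Real.norm_eq_abs, Real.norm_eq_abs, mul_pow, mul_pow, sq_abs, sq_abs]
      have h2 := Real.sin_sq_add_cos_sq s
      have h3 : (‖y‖ / ‖w‖) ^ 2 * ‖w‖ ^ 2 = ‖y‖ ^ 2 := by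
        rw [div_pow, div_mul_cancel₀ _ (pow_ne_zero 2 hwn)]
      linear_combination ‖y‖ ^ 2 * h2 + Real.sin s ^ 2 * h3
    exact (sq_eq_sq₀ (norm_nonneg _) (norm_nonneg _)).1 h1
  have hc0 : c 0 = y := by simp [c]
  have hcd : HasDerivAt c ((‖y‖ / ‖w‖) • w) 0 := by
    have h1 : HasDerivAt (fun s : ℝ => Real.cos s • y) ((-Real.sin 0) • y) 0 :=
      (Real.hasDerivAt_cos 0).smul_const y
    have h2 : HasDerivAt (fun s : ℝ => (Real.sin s * (‖y‖ / ‖w‖)) • w)
        ((Real.cos 0 * (‖y‖ / ‖w‖)) • w) 0 :=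
      ((Real.hasDerivAt_sin 0).mul_const _).smul_const w
    refine HasDerivAt.congr_deriv (h1.add h2) ?_
    simp
  have hconst : (fun s => Φ (c s)) = fun _ => Φ y := funext fun s => hr _ _ (hc s)
  have hdd : HasDerivAt (fun s => Φ (c s)) (fderiv ℝ Φ y ((‖y‖ / ‖w‖) • w)) 0 := by
    have hF : HasFDerivAt Φ (fderiv ℝ Φ y) (c 0) := by rw [hc0]; exact hd.hasFDerivAt
    exact hF.comp_hasDerivAt 0 hcd
  rw [hconst] at hdd
  have h0 : fderiv ℝ Φ y ((‖y‖ / ‖w‖) • w) = 0 := hdd.unique (hasDerivAt_const _ _)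
  have hg : ∀ z, inner ℝ (gradient Φ y) z = fderiv ℝ Φ y z := by
    intro z
    unfold gradient
    exact InnerProductSpace.toDual_symm_apply
  by_cases hy : y = 0
  · -- at the origin Φ is even, so the derivative vanishes
    subst hy
    have h2 := gradient_odd hr (0 : E3)
    rw [neg_zero] at h2
    have h3 : gradient Φ (0 : E3) = 0 := by
      have h4 : (2 : ℝ) • gradient Φ (0 : E3) = 0 := by
        rw [two_smul]; nth_rw 1 [h2]; simp
      simpa using h4
    rw [h3, inner_zero_left]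
  · have hyn : ‖y‖ ≠ 0 := norm_ne_zero_iff.2 hy
    rw [map_smul, smul_eq_mul] at h0
    rw [hg]
    rcases mul_eq_zero.1 h0 with h | h
    · exact absurd h (div_ne_zero hyn hwn)
    · exact h

theorem inner_gradient_eq (y z : E3) : inner ℝ (gradient Φ y) z = fderiv ℝ Φ y z := by
  unfold gradient
  exact InnerProductSpace.toDual_symm_apply

end potential

/-- The pair sum `Σ_{i < j} Ψ(x_i - x_j)`. -/
def pairTot (Ψ : E3 → ℝ) {n : ℕ} (x : Fin n → E3) : ℝ :=
  ∑ i, ∑ j ∈ Finset.Ioi i, Ψ (x i - x j)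

/-- The scaled positions `x_i/ε`. -/
def scaled (ε : ℝ) (Z : Fin n → Ph) : Fin n → E3 := fun i => ε⁻¹ • (Z i).1

/-- Potential energy. -/
def potE (Φ : E3 → ℝ) (ε : ℝ) (Z : Fin n → Ph) : ℝ := pairTot Φ (scaled ε Z)

/-- Kinetic energy. -/
def kinE (Z : Fin n → Ph) : ℝ := ∑ i, ‖(Z i).2‖ ^ 2 / 2

/-- Virial sum `Σ_{i<j} y_ij · ∇Φ(y_ij)`. -/
def virial (Φ : E3 → ℝ) (ε : ℝ) (Z : Fin n → Ph) : ℝ :=
  pairTot (fun y => inner ℝ y (gradient Φ y)) (scaled ε Z)

section dynamics

variable {Φ : E3 → ℝ} {ε : ℝ}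

/-- Work of the forces against a field of vectors `a_i`. -/
theorem sum_force (hr : ∀ x y : E3, ‖x‖ = ‖y‖ → Φ x = Φ y) (Z : Fin n → Ph) (a : Fin n → E3) :
    ∑ i, inner ℝ (accel Φ ε Z i) (a i) =
      -∑ i, ∑ j ∈ Finset.Ioi i, inner ℝ (gradient Φ (ε⁻¹ • ((Z i).1 - (Z j).1)))
        (ε⁻¹ • (a i - a j)) := by
  have h1 : ∀ i, accel Φ ε Z i = ∑ j ∈ Finset.univ.erase i,
      -(ε⁻¹ • gradient Φ (ε⁻¹ • ((Z i).1 - (Z j).1))) := by
    intro i
    unfold accel
    rw [Finset.smul_sum, Finset.sum_neg_distrib]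
  simp_rw [h1]
  rw [sum_antisymm (fun i j => -(ε⁻¹ • gradient Φ (ε⁻¹ • ((Z i).1 - (Z j).1))))]
  · rw [← Finset.sum_neg_distrib]
    refine Finset.sum_congr rfl fun i _ => ?_
    rw [← Finset.sum_neg_distrib]
    refine Finset.sum_congr rfl fun j _ => ?_
    rw [inner_neg_left, real_inner_smul_left, real_inner_smul_right]
  · intro i j
    have e : ε⁻¹ • ((Z j).1 - (Z i).1) = -(ε⁻¹ • ((Z i).1 - (Z j).1)) := by
      rw [← smul_neg, neg_sub]
    rw [e, gradient_odd hr, smul_neg]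

theorem sum_force_const (hr : ∀ x y : E3, ‖x‖ = ‖y‖ → Φ x = Φ y) (Z : Fin n → Ph) (a : E3) :
    ∑ i, inner ℝ (accel Φ ε Z i) a = 0 := by
  rw [sum_force hr Z (fun _ => a)]
  simp

theorem sum_force_pos (hr : ∀ x y : E3, ‖x‖ = ‖y‖ → Φ x = Φ y) (Z : Fin n → Ph) :
    ∑ i, inner ℝ (accel Φ ε Z i) (Z i).1 = -virial Φ ε Z := by
  rw [sum_force hr Z (fun i => (Z i).1)]
  unfold virial pairTot scaled
  congr 1
  refine Finset.sum_congr rfl fun i _ => Finset.sum_congr rfl fun j _ => ?_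
  rw [← smul_sub, real_inner_comm]

theorem sum_force_rot (hr : ∀ x y : E3, ‖x‖ = ‖y‖ → Φ x = Φ y) (Z : Fin n → Ph)
    (hd : ∀ i j, i ≠ j → DifferentiableAt ℝ Φ (ε⁻¹ • ((Z i).1 - (Z j).1)))
    (Ω : E3 →L[ℝ] E3) (hΩ : ∀ w, inner ℝ w (Ω w) = 0) :
    ∑ i, inner ℝ (accel Φ ε Z i) (Ω (Z i).1) = 0 := by
  rw [sum_force hr Z (fun i => Ω (Z i).1)]
  rw [neg_eq_zero]
  refine Finset.sum_eq_zero fun i _ => Finset.sum_eq_zero fun j hj => ?_
  have hij : i ≠ j := (Finset.mem_Ioi.1 hj).ne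
  rw [← map_sub, ← map_smul]
  exact gradient_inner_eq_zero hr (hd i j hij) (hΩ _)

/-- A trajectory along which the potential is differentiable at all interparticle distances. -/
structure IsTraj (Φ : E3 → ℝ) (ε : ℝ) (γ : ℝ → Fin n → Ph) : Prop where
  pos : ∀ t i, HasDerivAt (fun τ => (γ τ i).1) (γ t i).2 t
  vel : ∀ t i, HasDerivAt (fun τ => (γ τ i).2) (accel Φ ε (γ t) i) t
  diff : ∀ t i j, i ≠ j → DifferentiableAt ℝ Φ (ε⁻¹ • ((γ t i).1 - (γ t j).1))

variable {γ : ℝ → Fin n → Ph}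

theorem IsTraj.hasDerivAt_potE (hr : ∀ x y : E3, ‖x‖ = ‖y‖ → Φ x = Φ y) (h : IsTraj Φ ε γ)
    (t : ℝ) :
    HasDerivAt (fun τ => potE Φ ε (γ τ))
      (-∑ i, inner ℝ (accel Φ ε (γ t) i) (γ t i).2) t := by
  rw [sum_force hr (γ t) (fun i => (γ t i).2), neg_neg]
  unfold potE pairTot scaled
  refine HasDerivAt.fun_sum fun i _ => HasDerivAt.fun_sum fun j hj => ?_
  have hij : i ≠ j := (Finset.mem_Ioi.1 hj).ne
  have hy : HasDerivAt (fun τ => ε⁻¹ • (γ τ i).1 - ε⁻¹ • (γ τ j).1)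
      (ε⁻¹ • (γ t i).2 - ε⁻¹ • (γ t j).2) t :=
    ((h.pos t i).const_smul ε⁻¹).sub ((h.pos t j).const_smul ε⁻¹)
  have hF : HasFDerivAt Φ (fderiv ℝ Φ (ε⁻¹ • (γ t i).1 - ε⁻¹ • (γ t j).1))
      (ε⁻¹ • (γ t i).1 - ε⁻¹ • (γ t j).1) := by
    have := h.diff t i j hij
    rw [smul_sub] at this
    exact this.hasFDerivAt
  have h2 := hF.comp_hasDerivAt t hy
  rw [inner_gradient_eq, smul_sub, smul_sub]
  exact h2

theorem IsTraj.hasDerivAt_kinE (h : IsTraj Φ ε γ) (t : ℝ) :
    HasDerivAt (fun τ => kinE (γ τ)) (∑ i, inner ℝ (accel Φ ε (γ t) i) (γ t i).2) t := by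
  unfold kinE
  refine HasDerivAt.fun_sum fun i _ => ?_
  refine HasDerivAt.congr_deriv (((h.vel t i).norm_sq).div_const 2) ?_
  rw [real_inner_comm]; ring

/-- Energy conservation. -/
theorem IsTraj.energy (hr : ∀ x y : E3, ‖x‖ = ‖y‖ → Φ x = Φ y) (h : IsTraj Φ ε γ) (t : ℝ) :
    kinE (γ t) + potE Φ ε (γ t) = kinE (γ 0) + potE Φ ε (γ 0) := by
  have h1 : ∀ s, HasDerivAt (fun τ => kinE (γ τ) + potE Φ ε (γ τ)) 0 s := by
    intro s
    exact HasDerivAt.congr_deriv ((h.hasDerivAt_kinE s).add (h.hasDerivAt_potE hr s)) (by ring)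
  exact is_const_of_deriv_eq_zero (fun s => (h1 s).differentiableAt)
    (fun s => (h1 s).deriv) t 0

/-- The quadratic form `q`. -/
def quad (a b c k : ℝ) (p q : E3) (Ω : E3 →L[ℝ] E3) (x v : E3) : ℝ :=
  a * ‖x‖ ^ 2 + b * ‖v‖ ^ 2 - 2 * c * inner ℝ x v + inner ℝ x (Ω v) + inner ℝ p x +
    inner ℝ q v + k

/-- `Σ_i q(x_i - t v_i, v_i)`. -/
def quadSum (a b c k : ℝ) (p q : E3) (Ω : E3 →L[ℝ] E3) (t : ℝ) (Z : Fin n → Ph) : ℝ :=
  ∑ i, quad a b c k p q Ω ((Z i).1 - t • (Z i).2) (Z i).2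

theorem omega_skew {Ω : E3 →L[ℝ] E3} (hΩ : ∀ w, inner ℝ w (Ω w) = 0) (x y : E3) :
    inner ℝ x (Ω y) = -inner ℝ (Ω x) y := by
  have h := hΩ (x + y)
  rw [map_add, inner_add_left, inner_add_right, inner_add_right, hΩ x, hΩ y] at h
  have h2 : inner ℝ y (Ω x) = inner ℝ (Ω x) y := real_inner_comm _ _
  linarith

/-- Derivative of one summand along a trajectory. -/
theorem hasDerivAt_quad {a b c k : ℝ} {p q : E3} {Ω : E3 →L[ℝ] E3}
    (hΩ : ∀ w, inner ℝ w (Ω w) = 0)
    {x v : ℝ → E3} {f : E3} {t : ℝ} (hx : HasDerivAt x (v t) t) (hv : HasDerivAt v f t) :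
    HasDerivAt (fun τ => quad a b c k p q Ω (x τ - τ • v τ) (v τ))
      (-(2 * (a * t + c)) * inner ℝ f (x t) +
        2 * (a * t ^ 2 + 2 * c * t + b) * inner ℝ f (v t) - inner ℝ f (Ω (x t)) +
        inner ℝ f (q - t • p)) t := by
  have hxv : HasDerivAt (fun τ => x τ - τ • v τ) (-(t • f)) t := by
    have h1 : HasDerivAt (fun τ : ℝ => τ • v τ) (t • f + (1 : ℝ) • v t) t :=
      (hasDerivAt_id t).smul hv
    refine HasDerivAt.congr_deriv (hx.sub h1) ?_
    rw [one_smul]; abel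
  have hOm : HasDerivAt (fun τ => Ω (v τ)) (Ω f) t := Ω.hasFDerivAt.comp_hasDerivAt t hv
  have h1 := (hxv.norm_sq).const_mul a
  have h2 := (hv.norm_sq).const_mul b
  have h3 := (hxv.inner ℝ hv).const_mul (2 * c)
  have h4 := hxv.inner ℝ hOm
  have h5 := (hasDerivAt_const t p).inner ℝ hxv
  have h6 := (hasDerivAt_const t q).inner ℝ hv
  have h7 := ((((((h1.add h2).sub h3).add h4).add h5).add h6)).add_const k
  unfold quad
  refine HasDerivAt.congr_deriv h7 ?_
  simp only [inner_sub_left, inner_sub_right, inner_neg_left, inner_zero_left,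
    inner_neg_right, real_inner_smul_left, real_inner_smul_right]
  have e1 : inner ℝ (x t) f = inner ℝ f (x t) := real_inner_comm _ _
  have e2 : inner ℝ (v t) f = inner ℝ f (v t) := real_inner_comm _ _
  have e3 : inner ℝ p f = inner ℝ f p := real_inner_comm _ _
  have e4 : inner ℝ q f = inner ℝ f q := real_inner_comm _ _
  have e5 : inner ℝ (x t) (Ω f) = -inner ℝ f (Ω (x t)) := by
    rw [omega_skew hΩ, real_inner_comm]
  have e6 : inner ℝ (v t) (Ω f) = -inner ℝ f (Ω (v t)) := by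
    rw [omega_skew hΩ, real_inner_comm]
  rw [e1, e2, e3, e4, e5, e6]
  ring

/-- The Lyapunov functional `L_t(Z) = Σ_i q_t(z_i) + 2 b_t U(Z)`. -/
def lyap (Φ : E3 → ℝ) (ε : ℝ) (a b c k : ℝ) (p q : E3) (Ω : E3 →L[ℝ] E3) (t : ℝ)
    (Z : Fin n → Ph) : ℝ :=
  quadSum a b c k p q Ω t Z + 2 * (a * t ^ 2 + 2 * c * t + b) * potE Φ ε Z

/-- The pseudo-conformal identity. -/
theorem IsTraj.hasDerivAt_lyap (hr : ∀ x y : E3, ‖x‖ = ‖y‖ → Φ x = Φ y) (h : IsTraj Φ ε γ)
    {a b c k : ℝ} {p q : E3} {Ω : E3 →L[ℝ] E3} (hΩ : ∀ w, inner ℝ w (Ω w) = 0) (t : ℝ) :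
    HasDerivAt (fun τ => lyap Φ ε a b c k p q Ω τ (γ τ))
      (2 * (a * t + c) * (virial Φ ε (γ t) + 2 * potE Φ ε (γ t))) t := by
  have h1 : HasDerivAt (fun τ => quadSum a b c k p q Ω τ (γ τ))
      (∑ i, (-(2 * (a * t + c)) * inner ℝ (accel Φ ε (γ t) i) (γ t i).1 +
        2 * (a * t ^ 2 + 2 * c * t + b) * inner ℝ (accel Φ ε (γ t) i) (γ t i).2
        - inner ℝ (accel Φ ε (γ t) i) (Ω (γ t i).1) +
        inner ℝ (accel Φ ε (γ t) i) (q - t • p))) t := by
    unfold quadSum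
    exact HasDerivAt.fun_sum fun i _ => hasDerivAt_quad hΩ (h.pos t i) (h.vel t i)
  have h2 : HasDerivAt (fun τ : ℝ => 2 * (a * τ ^ 2 + 2 * c * τ + b))
      (2 * (a * (2 * t) + 2 * c)) t := by
    have h3 : HasDerivAt (fun τ : ℝ => 2 * c * τ) (2 * c * 1) t := (hasDerivAt_id t).const_mul _
    have h4 : HasDerivAt (fun τ : ℝ => a * τ ^ 2) (a * (2 * t)) t := by
      refine HasDerivAt.congr_deriv ((hasDerivAt_pow 2 t).const_mul a) ?_
      simp
    have h5 := ((h4.add h3).add_const b).const_mul 2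
    refine HasDerivAt.congr_deriv h5 ?_
    ring
  have h3 := h1.add (h2.mul (h.hasDerivAt_potE hr t))
  unfold lyap
  refine HasDerivAt.congr_deriv h3 ?_
  rw [Finset.sum_add_distrib, Finset.sum_sub_distrib, Finset.sum_add_distrib,
    ← Finset.mul_sum, ← Finset.mul_sum, sum_force_const hr,
    sum_force_rot hr (γ t) (h.diff t) Ω hΩ, sum_force_pos hr]
  ring

end dynamics

end Vale.Agent.P119
end
end

section

open MeasureTheory Filter Topology Set
open scoped ENNReal NNReal RealInnerProductSpace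

noncomputable section

namespace Vale.Agent.P119

variable {n : ℕ}

/-! ### Smooth compactly supported potentials -/

theorem IsPotential.radial' {Φ : E3 → ℝ} (h : IsPotential Φ) : ∀ x y : E3, ‖x‖ = ‖y‖ → Φ x = Φ y := by
  intro x y hxy
  by_cases hx : x = 0
  · subst hx
    rw [norm_zero] at hxy
    rw [norm_eq_zero.1 hxy.symm]
  · exact h.radial x y hx hxy

theorem compactSupport_of_vanishing {Φ : E3 → ℝ} (hv : ∀ x : E3, 1 ≤ ‖x‖ → Φ x = 0) :
    HasCompactSupport Φ := by
  apply HasCompactSupport.of_support_subset_isCompact (isCompact_closedBall (0 : E3) 1)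
  intro x hx
  rw [mem_closedBall_zero_iff]
  by_contra h
  exact hx (hv x (not_le.1 h).le)

theorem gradient_lipschitz_bounded {Φ : E3 → ℝ} (hΦ : ContDiff ℝ 2 Φ)
    (hv : ∀ x : E3, 1 ≤ ‖x‖ → Φ x = 0) :
    ∃ K M : ℝ≥0, LipschitzWith K (gradient Φ) ∧ ∀ x, ‖gradient Φ x‖ ≤ M := by
  have hc := compactSupport_of_vanishing hv
  have h1 : ContDiff ℝ 1 (fderiv ℝ Φ) := hΦ.fderiv_right (by norm_num)
  have h2 : HasCompactSupport (fderiv ℝ Φ) := hc.fderiv ℝ
  obtain ⟨K, hK⟩ := h1.lipschitzWith_of_hasCompactSupport h2 one_ne_zero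
  obtain ⟨M, hM⟩ := h1.continuous.bounded_above_of_compact_support h2
  refine ⟨K, ⟨max M 0, le_max_right _ _⟩, ?_, ?_⟩
  · refine LipschitzWith.of_dist_le_mul fun x y => ?_
    have h3 := hK.dist_le_mul x y
    unfold gradient
    rw [LinearIsometryEquiv.dist_map]
    exact h3
  · intro x
    unfold gradient
    rw [LinearIsometryEquiv.norm_map]
    exact (hM x).trans (le_max_left _ _)

/-- The acceleration as a function of the positions. -/
def accG (Φ : E3 → ℝ) (ε : ℝ) (x : Fin n → E3) : Fin n → E3 := fun i =>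
  -(ε⁻¹ • ∑ j ∈ Finset.univ.erase i, gradient Φ (ε⁻¹ • (x i - x j)))

theorem accG_posn (Φ : E3 → ℝ) (ε : ℝ) (Z : Fin n → Ph) (i : Fin n) :
    accG Φ ε (posn Z) i = accel Φ ε Z i := rfl

theorem accG_lipschitz {Φ : E3 → ℝ} {K : ℝ≥0} (hK : LipschitzWith K (gradient Φ)) (ε : ℝ) :
    ∃ K' : ℝ≥0, LipschitzWith K' (accG (n := n) Φ ε) := by
  refine ⟨‖ε⁻¹‖₊ * (n * (K * (‖ε⁻¹‖₊ * 2))), LipschitzWith.of_dist_le_mul fun x y => ?_⟩
  rw [dist_pi_le_iff (by positivity)]
  intro i
  unfold accG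
  rw [dist_neg_neg, dist_smul₀, NNReal.coe_mul, coe_nnnorm, mul_assoc]
  refine mul_le_mul_of_nonneg_left ?_ (norm_nonneg _)
  refine (dist_sum_sum_le _ _ _).trans ?_
  have h1 : ∀ j ∈ Finset.univ.erase i,
      dist (gradient Φ (ε⁻¹ • (x i - x j))) (gradient Φ (ε⁻¹ • (y i - y j))) ≤
        K * (‖ε⁻¹‖ * 2) * dist x y := by
    intro j _
    refine (hK.dist_le_mul _ _).trans ?_
    rw [mul_assoc]
    refine mul_le_mul_of_nonneg_left ?_ K.2
    rw [dist_smul₀, mul_assoc]
    refine mul_le_mul_of_nonneg_left ?_ (norm_nonneg _)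
    refine (dist_sub_sub_le _ _ _ _).trans ?_
    have h2 := dist_le_pi_dist x y i
    have h3 := dist_le_pi_dist x y j
    linarith
  refine (Finset.sum_le_card_nsmul _ _ _ h1).trans ?_
  rw [nsmul_eq_mul]
  have h2 : ((Finset.univ.erase i).card : ℝ) ≤ n := by
    have h3 := Finset.card_erase_le (s := (Finset.univ : Finset (Fin n))) (a := i)
    rw [Finset.card_univ, Fintype.card_fin] at h3
    exact_mod_cast h3
  have h4 : 0 ≤ (K : ℝ) * (‖ε⁻¹‖ * 2) * dist x y := by positivity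
  calc ((Finset.univ.erase i).card : ℝ) * (K * (‖ε⁻¹‖ * 2) * dist x y)
      ≤ n * (K * (‖ε⁻¹‖ * 2) * dist x y) := mul_le_mul_of_nonneg_right h2 h4
    _ = _ := by push_cast; ring

theorem accG_bounded {Φ : E3 → ℝ} {M : ℝ≥0} (hM : ∀ x, ‖gradient Φ x‖ ≤ M) (ε : ℝ) :
    ∃ M' : ℝ≥0, ∀ x : Fin n → E3, ‖accG Φ ε x‖ ≤ M' := by
  refine ⟨‖ε⁻¹‖₊ * (n * M), fun x => ?_⟩
  rw [pi_norm_le_iff_of_nonneg (by positivity)]
  intro i
  unfold accG
  rw [norm_neg, norm_smul, NNReal.coe_mul, coe_nnnorm]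
  refine mul_le_mul_of_nonneg_left ?_ (norm_nonneg _)
  refine (norm_sum_le_of_le _ (fun j _ => hM _)).trans ?_
  rw [Finset.sum_const, nsmul_eq_mul]
  have h2 : ((Finset.univ.erase i).card : ℝ) ≤ n := by
    have h3 := Finset.card_erase_le (s := (Finset.univ : Finset (Fin n))) (a := i)
    rw [Finset.card_univ, Fintype.card_fin] at h3
    exact_mod_cast h3
  push_cast
  exact mul_le_mul_of_nonneg_right h2 M.2

/-! ### The flow of a bounded Lipschitz acceleration -/

theorem exists_config_flow {G : (Fin n → E3) → (Fin n → E3)} {K M : ℝ≥0}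
    (hG : LipschitzWith K G) (hM : ∀ x, ‖G x‖ ≤ M) :
    ∃ S : ℝ → (Fin n → Ph) → (Fin n → Ph), (∀ Z, S 0 Z = Z) ∧
      (∀ Z t, HasDerivAt (fun τ => S τ Z) (cfield G (S t Z)) t) ∧
      ∀ t, Continuous (S t) := by
  have h1 : ∀ Z : Fin n → Ph, ∃ γ : ℝ → Fin n → Ph, γ 0 = Z ∧
      ∀ t, HasDerivAt γ (cfield G (γ t)) t := by
    intro Z
    obtain ⟨β, hβ0, hβ⟩ := exists_global hG hM (posn Z, fun i => (Z i).2)
    refine ⟨fun t i => ((β t).1 i, (β t).2 i), ?_, fun t => ?_⟩
    · funext i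
      change ((β 0).1 i, (β 0).2 i) = Z i
      rw [hβ0]
      rfl
    · rw [hasDerivAt_pi]
      intro i
      have hd1 : HasDerivAt (fun τ => (β τ).1) (β t).2 t := (hβ t).fst
      have hd2 : HasDerivAt (fun τ => (β τ).2) (G (β t).1) t := (hβ t).snd
      exact (hasDerivAt_pi.1 hd1 i).prodMk (hasDerivAt_pi.1 hd2 i)
  choose γ hγ0 hγ using h1
  refine ⟨fun t Z => γ Z t, hγ0, hγ, fun t => ?_⟩
  have hL := cfield_lipschitz hG
  rcases le_total 0 t with ht | ht
  · have h2 : LipschitzWith (Real.toNNReal (Real.exp (((max 1 K : ℝ≥0) : ℝ) * t)))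
        (fun Z => γ Z t) := by
      refine LipschitzWith.of_dist_le_mul fun Z W => ?_
      have h3 := dist_le_of_trajectories_ODE (v := fun _ => cfield G) (K := max 1 K)
        (f := γ Z) (g := γ W) (a := 0) (b := t) (δ := dist Z W) (fun _ => hL)
        (fun s _ => (hγ Z s).continuousAt.continuousWithinAt)
        (fun s _ => (hγ Z s).hasDerivWithinAt)
        (fun s _ => (hγ W s).continuousAt.continuousWithinAt)
        (fun s _ => (hγ W s).hasDerivWithinAt) (by rw [hγ0, hγ0]) t ⟨ht, le_rfl⟩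
      rw [Real.coe_toNNReal _ (Real.exp_pos _).le, mul_comm]
      simpa using h3
    exact h2.continuous
  · have hL' : LipschitzWith (max 1 K) (fun z => -cfield G z) := hL.neg
    have hd : ∀ Z s, HasDerivAt (fun τ => γ Z (-τ)) (-cfield G (γ Z (-s))) s := by
      intro Z s
      have h4 := HasDerivAt.scomp s (hγ Z (-s)) (hasDerivAt_neg s)
      rw [neg_one_smul] at h4
      exact h4
    have h2 : LipschitzWith (Real.toNNReal (Real.exp (((max 1 K : ℝ≥0) : ℝ) * (-t))))
        (fun Z => γ Z t) := by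
      refine LipschitzWith.of_dist_le_mul fun Z W => ?_
      have h3 := dist_le_of_trajectories_ODE (v := fun _ z => -cfield G z) (K := max 1 K)
        (f := fun τ => γ Z (-τ)) (g := fun τ => γ W (-τ)) (a := 0) (b := -t)
        (δ := dist Z W) (fun _ => hL')
        (fun s _ => (hd Z s).continuousAt.continuousWithinAt)
        (fun s _ => (hd Z s).hasDerivWithinAt)
        (fun s _ => (hd W s).continuousAt.continuousWithinAt)
        (fun s _ => (hd W s).hasDerivWithinAt)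
        (by simp only [neg_zero]; rw [hγ0, hγ0]) (-t) ⟨by linarith, le_rfl⟩
      rw [Real.coe_toNNReal _ (Real.exp_pos _).le, mul_comm]
      simpa using h3
    exact h2.continuous

/-! ### Truncation of singular potentials -/

/-- Truncation function. -/
def hcut (M s : ℝ) : ℝ := s + (M + 1 - s) * Real.smoothTransition (s - M)

theorem hcut_of_le {M s : ℝ} (h : s ≤ M) : hcut M s = s := by
  unfold hcut
  rw [Real.smoothTransition.zero_of_nonpos (by linarith)]
  ring

theorem hcut_of_ge {M s : ℝ} (h : M + 1 ≤ s) : hcut M s = M + 1 := by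
  unfold hcut
  rw [Real.smoothTransition.one_of_one_le (by linarith)]
  ring

theorem le_hcut {M s : ℝ} (h : M ≤ s) : M ≤ hcut M s := by
  rcases le_total s (M + 1) with h1 | h1
  · unfold hcut
    have h2 := Real.smoothTransition.nonneg (s - M)
    nlinarith [mul_nonneg (by linarith : 0 ≤ M + 1 - s) h2]
  · rw [hcut_of_ge h1]; linarith

theorem hcut_contDiff (M : ℝ) : ContDiff ℝ 2 (hcut M) := by
  unfold hcut
  have h : ContDiff ℝ 2 Real.smoothTransition := Real.smoothTransition.contDiff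
  exact contDiff_id.add ((contDiff_const.sub contDiff_id).mul
    (h.comp (contDiff_id.sub contDiff_const)))

open Classical in
/-- The truncated potential; it equals `Φ` if `Φ` is already smooth. -/
def trunc (Φ : E3 → ℝ) (M : ℝ) : E3 → ℝ :=
  if ContDiff ℝ 2 Φ then Φ else fun x => if x = 0 then M + 1 else hcut M (Φ x)

theorem trunc_smooth {Φ : E3 → ℝ} (hΦ : IsPotential Φ) (M : ℝ) : ContDiff ℝ 2 (trunc Φ M) := by
  classical
  unfold trunc
  split_ifs with h
  · exact h
  · obtain ⟨h1, h2, -⟩ := hΦ.regular.resolve_left h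
    rw [contDiff_iff_contDiffAt]
    intro x
    by_cases hx : x = 0
    · subst hx
      have h3 : ∀ᶠ y in 𝓝[≠] (0 : E3), M + 1 ≤ Φ y := h2.eventually_ge_atTop _
      have h4 : (fun x : E3 => if x = 0 then M + 1 else hcut M (Φ x)) =ᶠ[𝓝 0]
          fun _ => M + 1 := by
        rw [eventually_nhdsWithin_iff] at h3
        filter_upwards [h3] with y hy
        by_cases hy0 : y = 0
        · simp [hy0]
        · simp only [hy0, if_false]
          exact hcut_of_ge (hy hy0)
      exact contDiffAt_const.congr_of_eventuallyEq h4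
    · have h3 : ContDiffAt ℝ 2 Φ x := h1.contDiffAt (isOpen_compl_singleton.mem_nhds hx)
      have h4 : (fun x : E3 => if x = 0 then M + 1 else hcut M (Φ x)) =ᶠ[𝓝 x]
          fun y => hcut M (Φ y) := by
        filter_upwards [isOpen_compl_singleton.mem_nhds hx] with y hy
        have : y ≠ 0 := hy
        simp [this]
      exact ((hcut_contDiff M).contDiffAt.comp x h3).congr_of_eventuallyEq h4

theorem trunc_isPotential {Φ : E3 → ℝ} (hΦ : IsPotential Φ) {M : ℝ} (hM : 0 ≤ M) :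
    IsPotential (trunc Φ M) := by
  classical
  refine ⟨fun x y hx hxy => ?_, fun x hx => ?_, Or.inl (trunc_smooth hΦ M)⟩
  · unfold trunc
    split_ifs with h
    · exact hΦ.radial' x y hxy
    · have hy : y ≠ 0 := by
        intro h0
        rw [h0, norm_zero, norm_eq_zero] at hxy
        exact hx hxy
      simp only [hx, hy, if_false]
      rw [hΦ.radial' x y hxy]
  · unfold trunc
    split_ifs with h
    · exact hΦ.vanishing x hx
    · have hx0 : x ≠ 0 := by
        intro h0; rw [h0, norm_zero] at hx; linarith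
      simp only [hx0, if_false]
      rw [hΦ.vanishing x hx, hcut_of_le hM]

/-- A singular potential is bounded below. -/
theorem IsPotential.bddBelow {Φ : E3 → ℝ} (hΦ : IsPotential Φ) :
    ∃ m : ℝ, 0 ≤ m ∧ ∀ x, x ≠ 0 → -m ≤ Φ x := by
  rcases hΦ.regular with h | ⟨h1, h2, -⟩
  · obtain ⟨C, hC⟩ := h.continuous.bounded_above_of_compact_support
      (compactSupport_of_vanishing hΦ.vanishing)
    refine ⟨|C|, abs_nonneg _, fun x _ => ?_⟩
    have h2 := hC x
    rw [Real.norm_eq_abs] at h2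
    have h3 := neg_abs_le (Φ x)
    have h4 := le_abs_self C
    linarith
  · have h3 : ∀ᶠ y in 𝓝[≠] (0 : E3), 0 ≤ Φ y := h2.eventually_ge_atTop _
    rw [eventually_nhdsWithin_iff, Metric.eventually_nhds_iff] at h3
    obtain ⟨δ, hδ, h3⟩ := h3
    have hK : IsCompact (Metric.closedBall (0 : E3) 1 \ Metric.ball 0 δ) :=
      (isCompact_closedBall _ _).diff Metric.isOpen_ball
    have hcont : ContinuousOn Φ (Metric.closedBall (0 : E3) 1 \ Metric.ball 0 δ) := by
      refine h1.continuousOn.mono fun x hx => ?_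
      have : x ∉ Metric.ball (0 : E3) δ := hx.2
      intro h0
      rw [mem_singleton_iff] at h0
      rw [h0] at this
      exact this (Metric.mem_ball_self hδ)
    obtain ⟨C, hC⟩ := hK.exists_bound_of_continuousOn hcont
    refine ⟨|C|, abs_nonneg _, fun x hx => ?_⟩
    by_cases hxδ : dist x 0 < δ
    · have := h3 hxδ hx
      have := abs_nonneg C
      linarith
    · by_cases hx1 : 1 ≤ ‖x‖
      · rw [hΦ.vanishing x hx1]
        have := abs_nonneg C
        linarith
      · have h4 := hC x ⟨by rw [mem_closedBall_zero_iff]; exact (not_le.1 hx1).le, hxδ⟩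
        rw [Real.norm_eq_abs] at h4
        have h5 := neg_abs_le (Φ x)
        have h6 := le_abs_self C
        linarith

/-- The set of configurations with kinetic energy below a threshold. -/
def shell (n : ℕ) (m k : ℝ) : Set (Fin n → Ph) := {Z | kinE Z + (n : ℝ) ^ 2 * m < k}

theorem continuous_kinE : Continuous (kinE (n := n)) := by
  unfold kinE; fun_prop

theorem isOpen_shell (m k : ℝ) : IsOpen (shell n m k) :=
  isOpen_lt (by have := continuous_kinE (n := n); fun_prop) continuous_const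

theorem potE_eq_zero_of_excl {Φ : E3 → ℝ} (hv : ∀ x : E3, 1 ≤ ‖x‖ → Φ x = 0) {ε : ℝ}
    (hε : 0 < ε) {Z : Fin n → Ph} (hZ : Z ∈ excl ε n) : potE Φ ε Z = 0 := by
  unfold potE pairTot scaled
  refine Finset.sum_eq_zero fun i _ => Finset.sum_eq_zero fun j hj => ?_
  have hij : i ≠ j := (Finset.mem_Ioi.1 hj).ne
  apply hv
  rw [← smul_sub, norm_smul, norm_inv, Real.norm_eq_abs, abs_of_pos hε]
  have h1 := hZ i j hij
  rw [inv_mul_eq_div, le_div_iff₀ hε, one_mul]
  exact h1.le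

theorem isTraj_of_cfield {Ψ : E3 → ℝ} (hΨ : ContDiff ℝ 2 Ψ) {ε : ℝ} {γ : ℝ → Fin n → Ph}
    (h : ∀ t, HasDerivAt γ (cfield (accG Ψ ε) (γ t)) t) : IsTraj Ψ ε γ := by
  refine ⟨fun t i => ?_, fun t i => ?_, fun t i j _ => ?_⟩
  · exact (hasDerivAt_pi.1 (h t) i).fst
  · exact (hasDerivAt_pi.1 (h t) i).snd
  · exact (hΨ.differentiable (by norm_num)).differentiableAt

/-- Trajectories of the truncated potential started in the shell stay in the region where the
truncated potential and the potential coincide. -/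
theorem trunc_eventuallyEq {Φ : E3 → ℝ} (hΦ : IsPotential Φ) {m k ε : ℝ} (hm : 0 ≤ m)
    (hk : 0 ≤ k) (hΦm : ∀ x, x ≠ 0 → -m ≤ Φ x) (hε : 0 < ε) {γ : ℝ → Fin n → Ph}
    (h : ∀ t, HasDerivAt γ (cfield (accG (trunc Φ k) ε) (γ t)) t)
    (h0 : γ 0 ∈ excl ε n) (h0k : γ 0 ∈ shell n m k) (t : ℝ) (i j : Fin n) (hij : i ≠ j) :
    trunc Φ k =ᶠ[𝓝 (ε⁻¹ • ((γ t i).1 - (γ t j).1))] Φ := by
  classical
  by_cases hs : ContDiff ℝ 2 Φ
  · have : trunc Φ k = Φ := by unfold trunc; rw [if_pos hs]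
    rw [this]
  have htr : trunc Φ k = fun x => if x = 0 then k + 1 else hcut k (Φ x) := by
    unfold trunc; rw [if_neg hs]
  obtain ⟨h1, h2, -⟩ := hΦ.regular.resolve_left hs
  have hT := trunc_isPotential hΦ hk
  have htraj := isTraj_of_cfield (trunc_smooth hΦ k) h
  have hen := htraj.energy hT.radial' t
  rw [potE_eq_zero_of_excl hT.vanishing hε h0, add_zero] at hen
  -- lower bound of the truncated potential
  have hTm : ∀ x, -m ≤ trunc Φ k x := by
    intro x
    rw [htr]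
    simp only
    split_ifs with hx
    · linarith
    · rcases le_total (Φ x) k with h3 | h3
      · rw [hcut_of_le h3]; exact hΦm x hx
      · have := le_hcut h3; linarith
  have hkin : 0 ≤ kinE (γ t) := Finset.sum_nonneg fun i _ => by positivity
  -- a single pair
  have hpair : ∀ i j : Fin n, i < j →
      trunc Φ k (ε⁻¹ • ((γ t i).1 - (γ t j).1)) < k := by
    intro i j hij
    have h3 : trunc Φ k (ε⁻¹ • ((γ t i).1 - (γ t j).1)) + m ≤
        ∑ i, ∑ j ∈ Finset.Ioi i, (trunc Φ k (ε⁻¹ • ((γ t i).1 - (γ t j).1)) + m) := by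
      have h4 : ∀ i : Fin n, 0 ≤ ∑ j ∈ Finset.Ioi i,
          (trunc Φ k (ε⁻¹ • ((γ t i).1 - (γ t j).1)) + m) :=
        fun i => Finset.sum_nonneg fun j _ => by linarith [hTm (ε⁻¹ • ((γ t i).1 - (γ t j).1))]
      refine le_trans ?_ (Finset.single_le_sum (fun i _ => h4 i) (Finset.mem_univ i))
      exact Finset.single_le_sum
        (f := fun j => trunc Φ k (ε⁻¹ • ((γ t i).1 - (γ t j).1)) + m)
        (fun j _ => by linarith [hTm (ε⁻¹ • ((γ t i).1 - (γ t j).1))]) (Finset.mem_Ioi.2 hij)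
    have h5 : ∑ i, ∑ j ∈ Finset.Ioi i, (trunc Φ k (ε⁻¹ • ((γ t i).1 - (γ t j).1)) + m) ≤
        potE (trunc Φ k) ε (γ t) + (n : ℝ) ^ 2 * m := by
      unfold potE pairTot scaled
      simp_rw [Finset.sum_add_distrib, smul_sub]
      gcongr
      have h6 : ∀ i : Fin n, ∑ _j ∈ Finset.Ioi i, m ≤ n * m := by
        intro i
        rw [Finset.sum_const, nsmul_eq_mul]
        apply mul_le_mul_of_nonneg_right _ hm
        have h7 := Finset.card_le_univ (Finset.Ioi i)
        rw [Fintype.card_fin] at h7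
        exact_mod_cast h7
      refine (Finset.sum_le_sum fun i _ => h6 i).trans ?_
      rw [Finset.sum_const, nsmul_eq_mul, Finset.card_univ, Fintype.card_fin]
      apply le_of_eq; ring
    have h8 : kinE (γ 0) + (n : ℝ) ^ 2 * m < k := h0k
    linarith
  have hlt : trunc Φ k (ε⁻¹ • ((γ t i).1 - (γ t j).1)) < k := by
    rcases lt_or_gt_of_ne hij with h3 | h3
    · exact hpair i j h3
    · have h4 := hpair j i h3
      rw [hT.radial' (ε⁻¹ • ((γ t i).1 - (γ t j).1)) (ε⁻¹ • ((γ t j).1 - (γ t i).1))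
        (by rw [norm_smul, norm_smul, norm_sub_rev])]
      exact h4
  set y := ε⁻¹ • ((γ t i).1 - (γ t j).1) with hy
  have hy0 : y ≠ 0 := by
    intro h0
    rw [htr] at hlt
    simp only [h0, if_true] at hlt
    linarith
  have hΦy : Φ y < k := by
    by_contra hcon
    rw [htr] at hlt
    simp only [hy0, if_false] at hlt
    have := le_hcut (not_lt.1 hcon)
    linarith
  have hcont : ContinuousAt Φ y :=
    h1.continuousOn.continuousAt (isOpen_compl_singleton.mem_nhds hy0)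
  filter_upwards [hcont.eventually (gt_mem_nhds hΦy), isOpen_compl_singleton.mem_nhds hy0]
    with z hz hz0
  have hz0' : z ≠ 0 := hz0
  rw [htr]
  simp only [hz0', if_false]
  exact hcut_of_le (le_of_lt hz)

/-! ### Identification of the flow -/

theorem isNewton_of_eventuallyEq {Φ Ψ : E3 → ℝ} {ε : ℝ} {γ : ℝ → Fin n → Ph}
    (h : ∀ t, HasDerivAt γ (cfield (accG Ψ ε) (γ t)) t)
    (heq : ∀ t i j, i ≠ j → Ψ =ᶠ[𝓝 (ε⁻¹ • ((γ t i).1 - (γ t j).1))] Φ) : IsNewton Φ ε γ := by
  intro t i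
  have h1 := hasDerivAt_pi.1 (h t) i
  refine ⟨h1.fst, ?_⟩
  have h2 : accel Φ ε (γ t) i = accel Ψ ε (γ t) i := by
    unfold accel
    congr 2
    refine Finset.sum_congr rfl fun j hj => ?_
    exact ((heq t i j (Finset.ne_of_mem_erase hj).symm).gradient_eq).symm
  rw [h2]
  exact h1.snd

theorem newton_unique {Φ Ψ : E3 → ℝ} {ε : ℝ} {K : ℝ≥0} {γ z : ℝ → Fin n → Ph}
    (hK : LipschitzWith K (accG (n := n) Ψ ε))
    (h : ∀ t, HasDerivAt γ (cfield (accG Ψ ε) (γ t)) t)
    (heq : ∀ t i j, i ≠ j → Ψ =ᶠ[𝓝 (ε⁻¹ • ((γ t i).1 - (γ t j).1))] Φ)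
    (hz : IsNewton Φ ε z) (h0 : z 0 = γ 0) : z = γ := by
  have hzc : Continuous z := by
    refine continuous_pi fun i => ?_
    refine continuous_iff_continuousAt.2 fun t => ?_
    exact ((hz t i).1.continuousAt).prodMk ((hz t i).2.continuousAt)
  have hγc : Continuous γ := continuous_iff_continuousAt.2 fun t => (h t).continuousAt
  have hclosed : IsClosed {t | z t = γ t} := isClosed_eq hzc hγc
  have hopen : IsOpen {t | z t = γ t} := by
    rw [isOpen_iff_mem_nhds]
    intro t₀ ht₀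
    have ht₀ : z t₀ = γ t₀ := ht₀
    -- near t₀ the trajectory z solves the truncated equation
    have h1 : ∀ i j, i ≠ j → ∀ᶠ t in 𝓝 t₀,
        Ψ =ᶠ[𝓝 (ε⁻¹ • ((z t i).1 - (z t j).1))] Φ := by
      intro i j hij
      have h2 := (heq t₀ i j hij).eventuallyEq_nhds
      rw [← ht₀] at h2
      have h3 : ContinuousAt (fun t => ε⁻¹ • ((z t i).1 - (z t j).1)) t₀ := by fun_prop
      exact h3.eventually h2
    have h4 : ∀ᶠ t in 𝓝 t₀, ∀ i j, i ≠ j →
        Ψ =ᶠ[𝓝 (ε⁻¹ • ((z t i).1 - (z t j).1))] Φ := by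
      rw [eventually_all]; intro i
      rw [eventually_all]; intro j
      by_cases hij : i = j
      · exact Eventually.of_forall fun t h => absurd hij h
      · filter_upwards [h1 i j hij] with t ht _ using ht
    have h5 : ∀ᶠ t in 𝓝 t₀, HasDerivAt z (cfield (accG Ψ ε) (z t)) t ∧ z t ∈ (univ : Set _) := by
      filter_upwards [h4] with t ht
      refine ⟨?_, trivial⟩
      rw [hasDerivAt_pi]
      intro i
      have h6 : accel Φ ε (z t) i = accel Ψ ε (z t) i := by
        unfold accel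
        congr 2
        refine Finset.sum_congr rfl fun j hj => ?_
        exact ((ht i j (Finset.ne_of_mem_erase hj).symm).gradient_eq).symm
      have h7 := (hz t i).1.prodMk (hz t i).2
      rw [h6] at h7
      exact h7
    exact ODE_solution_unique_of_eventually (v := fun _ => cfield (accG Ψ ε))
      (s := fun _ => univ) (K := max 1 K)
      (Eventually.of_forall fun t => (cfield_lipschitz hK).lipschitzOnWith) h5
      (Eventually.of_forall fun t => ⟨h t, trivial⟩) ht₀
  have huniv : {t | z t = γ t} = univ :=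
    IsClopen.eq_univ ⟨hclosed, hopen⟩ ⟨0, h0⟩
  funext t
  have : t ∈ {t | z t = γ t} := by rw [huniv]; trivial
  exact this

theorem flow_eq_of {Φ Ψ : E3 → ℝ} {ε : ℝ} {K : ℝ≥0} {γ : ℝ → Fin n → Ph}
    (hK : LipschitzWith K (accG (n := n) Ψ ε))
    (h : ∀ t, HasDerivAt γ (cfield (accG Ψ ε) (γ t)) t)
    (heq : ∀ t i j, i ≠ j → Ψ =ᶠ[𝓝 (ε⁻¹ • ((γ t i).1 - (γ t j).1))] Φ) (t : ℝ) :
    flow Φ ε t (γ 0) = γ t := by
  classical
  have hex : ∃ z : ℝ → Fin n → Ph, IsNewton Φ ε z ∧ z 0 = γ 0 :=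
    ⟨γ, isNewton_of_eventuallyEq h heq, rfl⟩
  unfold flow
  rw [dif_pos hex]
  have := hex.choose_spec
  rw [newton_unique hK h heq this.1 this.2]

/-- The package: on each energy shell the Newton flow from the exclusion set coincides with a
globally defined regular flow. -/
theorem exists_shell_flow {Φ : E3 → ℝ} (hΦ : IsPotential Φ) {m k ε : ℝ} (hm : 0 ≤ m)
    (hk : 0 ≤ k) (hΦm : ∀ x, x ≠ 0 → -m ≤ Φ x) (hε : 0 < ε) :
    ∃ S : ℝ → (Fin n → Ph) → (Fin n → Ph),
      (∀ Z, S 0 Z = Z) ∧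
      (∀ Z, Continuous fun t => S t Z) ∧
      (∀ t, Continuous (S t)) ∧
      (∀ t, 0 ≤ t → (volume : Measure (Fin n → Ph)).map (S t) ≤ volume) ∧
      (∀ Z, IsTraj (trunc Φ k) ε (fun t => S t Z)) ∧
      ∀ Z ∈ excl ε n, Z ∈ shell n m k → ∀ t, flow Φ ε t Z = S t Z ∧
          ∀ i j, i ≠ j → trunc Φ k =ᶠ[𝓝 (ε⁻¹ • ((S t Z i).1 - (S t Z j).1))] Φ := by
  have hT := trunc_isPotential hΦ hk
  obtain ⟨K, M, hK, hM⟩ := gradient_lipschitz_bounded (trunc_smooth hΦ k) hT.vanishing
  obtain ⟨K', hK'⟩ := accG_lipschitz (n := n) hK ε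
  obtain ⟨M', hM'⟩ := accG_bounded (n := n) hM ε
  obtain ⟨S, hS0, hS, hSc⟩ := exists_config_flow hK' hM'
  refine ⟨S, hS0, fun Z => continuous_iff_continuousAt.2 fun t => (hS Z t).continuousAt, hSc,
    fun t ht => liouville hK' hM' hS0 hS ht (hSc t).measurable,
    fun Z => isTraj_of_cfield (trunc_smooth hΦ k) (hS Z), fun Z hZ hZk => ?_⟩
  have heq := fun t i j hij => trunc_eventuallyEq hΦ hm hk hΦm hε (γ := fun t => S t Z) (hS Z)
    (by simpa only [hS0] using hZ) (by simpa only [hS0] using hZk) t i j hij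
  refine fun t => ⟨?_, heq t⟩
  have := flow_eq_of hK' (hS Z) heq t
  rw [hS0] at this
  exact this

end Vale.Agent.P119
end
end

section

open MeasureTheory Filter Topology Set
open scoped ENNReal RealInnerProductSpace

namespace Vale.Agent.P119

/-- Particle `i` is not isolated at scale `ε`. -/
def Near (ε : ℝ) {N : ℕ} (Z : Fin N → Ph) (i : Fin N) : Prop :=
  ∃ j, j ≠ i ∧ ‖(Z i).1 - (Z j).1‖ < ε

open Classical in
/-- Number of non-isolated particles. -/
noncomputable def clustered (ε : ℝ) {N : ℕ} (Z : Fin N → Ph) : ℕ :=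
  (Finset.univ.filter (Near ε Z)).card

theorem clustered_le {ε : ℝ} {N : ℕ} (Z : Fin N → Ph) : clustered ε Z ≤ N := by
  classical
  unfold clustered
  calc _ ≤ (Finset.univ : Finset (Fin N)).card := Finset.card_filter_le _ _
    _ = N := by simp

theorem near_cons_succ {ε : ℝ} {N : ℕ} (z : Ph) (Z : Fin N → Ph) (j : Fin N) :
    Near ε (Fin.cons z Z : Fin (N + 1) → Ph) j.succ ↔
      (‖(Z j).1 - z.1‖ < ε ∨ Near ε Z j) := by
  unfold Near
  rw [Fin.exists_fin_succ]
  simp only [Fin.cons_zero, Fin.cons_succ, ne_eq, Fin.succ_inj]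
  constructor
  · rintro (⟨_, h⟩ | h)
    · exact Or.inl h
    · exact Or.inr h
  · rintro (h | h)
    · exact Or.inl ⟨(Fin.succ_ne_zero j).symm, h⟩
    · exact Or.inr h

open Classical in
theorem card_isolated_near {ε : ℝ} (hε : 0 < ε) {N : ℕ} (z : Ph) (Z : Fin N → Ph) :
    (Finset.univ.filter (fun j : Fin N => ¬ Near ε Z j ∧ ‖(Z j).1 - z.1‖ < ε)).card ≤ 125 := by
  set S := Finset.univ.filter (fun j : Fin N => ¬ Near ε Z j ∧ ‖(Z j).1 - z.1‖ < ε) with hS
  let φ : Fin N → E3 := fun j => ε⁻¹ • ((Z j).1 - z.1)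
  have hsep : ∀ i ∈ S, ∀ j ∈ S, i ≠ j → 1 ≤ ‖φ i - φ j‖ := by
    intro i hi j hj hij
    have hi' : ¬ Near ε Z i := (Finset.mem_filter.1 hi).2.1
    have h1 : ε ≤ ‖(Z i).1 - (Z j).1‖ := by
      by_contra hlt
      exact hi' ⟨j, hij.symm, not_le.1 hlt⟩
    have h2 : φ i - φ j = ε⁻¹ • ((Z i).1 - (Z j).1) := by
      simp only [φ, ← smul_sub]
      congr 1
      abel
    rw [h2, norm_smul, norm_inv, Real.norm_of_nonneg hε.le]
    rw [inv_mul_eq_div, le_div_iff₀ hε]
    linarith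
  have hinj : Set.InjOn φ S := by
    intro i hi j hj hij
    by_contra hne
    have := hsep i hi j hj hne
    rw [hij, sub_self, norm_zero] at this
    linarith
  have hcard : (S.image φ).card = S.card := Finset.card_image_of_injOn hinj
  rw [← hcard]
  have h5 : (125 : ℕ) = 5 ^ Module.finrank ℝ E3 := by simp
  rw [h5]
  apply Besicovitch.card_le_of_separated
  · intro c hc
    obtain ⟨j, hj, rfl⟩ := Finset.mem_image.1 hc
    have hj2 := (Finset.mem_filter.1 hj).2.2
    simp only [φ]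
    rw [norm_smul, norm_inv, Real.norm_of_nonneg hε.le, inv_mul_eq_div, div_le_iff₀ hε]
    linarith
  · intro c hc d hd hcd
    obtain ⟨i, hi, rfl⟩ := Finset.mem_image.1 hc
    obtain ⟨j, hj, rfl⟩ := Finset.mem_image.1 hd
    exact hsep i hi j hj (fun h => hcd (by rw [h]))

open Classical in
theorem clustered_cons_le {ε : ℝ} (hε : 0 < ε) {N : ℕ} (z : Ph) (Z : Fin N → Ph) :
    clustered ε (Fin.cons z Z : Fin (N + 1) → Ph) ≤
      clustered ε Z + if ∃ j, ‖(Z j).1 - z.1‖ < ε then 126 else 0 := by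
  have key : clustered ε (Fin.cons z Z : Fin (N + 1) → Ph) =
      (if Near ε (Fin.cons z Z : Fin (N + 1) → Ph) 0 then 1 else 0) +
        (Finset.univ.filter
          (fun j : Fin N => Near ε (Fin.cons z Z : Fin (N + 1) → Ph) j.succ)).card := by
    unfold clustered
    rw [Finset.card_filter, Fin.sum_univ_succ, Finset.card_filter]
  rw [key]
  have h0 : Near ε (Fin.cons z Z : Fin (N + 1) → Ph) 0 ↔ ∃ j, ‖(Z j).1 - z.1‖ < ε := by
    unfold Near
    rw [Fin.exists_fin_succ]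
    simp only [Fin.cons_zero, Fin.cons_succ, ne_eq, not_true_eq_false, false_and, false_or]
    constructor
    · rintro ⟨j, _, h⟩
      exact ⟨j, by rwa [norm_sub_rev]⟩
    · rintro ⟨j, h⟩
      exact ⟨j, Fin.succ_ne_zero j, by rwa [norm_sub_rev]⟩
  by_cases hex : ∃ j, ‖(Z j).1 - z.1‖ < ε
  · rw [if_pos (h0.2 hex), if_pos hex]
    have hsub : (Finset.univ.filter
          (fun j : Fin N => Near ε (Fin.cons z Z : Fin (N + 1) → Ph) j.succ)) ⊆
        Finset.univ.filter (Near ε Z) ∪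
          Finset.univ.filter (fun j : Fin N => ¬ Near ε Z j ∧ ‖(Z j).1 - z.1‖ < ε) := by
      intro j hj
      have hj' := (near_cons_succ z Z j).1 (Finset.mem_filter.1 hj).2
      rw [Finset.mem_union, Finset.mem_filter, Finset.mem_filter]
      by_cases hn : Near ε Z j
      · exact Or.inl ⟨Finset.mem_univ _, hn⟩
      · refine Or.inr ⟨Finset.mem_univ _, hn, ?_⟩
        rcases hj' with h | h
        · exact h
        · exact absurd h hn
    have h1 := Finset.card_le_card hsub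
    have h2 := Finset.card_union_le (Finset.univ.filter (Near ε Z))
      (Finset.univ.filter (fun j : Fin N => ¬ Near ε Z j ∧ ‖(Z j).1 - z.1‖ < ε))
    have h3 := card_isolated_near hε z Z
    unfold clustered
    omega
  · rw [if_neg (fun h => hex (h0.1 h)), if_neg hex]
    have hsub : (Finset.univ.filter
          (fun j : Fin N => Near ε (Fin.cons z Z : Fin (N + 1) → Ph) j.succ)) ⊆
        Finset.univ.filter (Near ε Z) := by
      intro j hj
      have hj' := (near_cons_succ z Z j).1 (Finset.mem_filter.1 hj).2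
      rw [Finset.mem_filter]
      refine ⟨Finset.mem_univ _, ?_⟩
      rcases hj' with h | h
      · exact absurd ⟨j, h⟩ hex
      · exact h
    have h1 := Finset.card_le_card hsub
    unfold clustered
    omega

theorem measurable_clustered {ε : ℝ} {N : ℕ} :
    Measurable (fun Z : Fin N → Ph => clustered ε Z) := by
  classical
  unfold clustered
  simp_rw [Finset.card_filter]
  refine Finset.measurable_sum _ fun i _ => ?_
  refine Measurable.ite ?_ measurable_const measurable_const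
  have : {Z : Fin N → Ph | Near ε Z i} =
      ⋃ j : Fin N, {Z : Fin N → Ph | j ≠ i ∧ ‖(Z i).1 - (Z j).1‖ < ε} := by
    ext Z
    simp [Near]
  rw [this]
  refine MeasurableSet.iUnion fun j => ?_
  by_cases hj : j = i
  · simp [hj]
  · simp only [ne_eq, hj, not_false_eq_true, true_and]
    exact measurableSet_lt (by fun_prop) measurable_const

theorem lintegral_pi_succ (ν : Measure Ph) [SigmaFinite ν] {N : ℕ}
    (g : (Fin (N + 1) → Ph) → ℝ≥0∞) (hg : Measurable g) :
    ∫⁻ Z, g Z ∂(Measure.pi fun _ : Fin (N + 1) => ν) =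
      ∫⁻ Z, ∫⁻ z, g (Fin.cons z Z) ∂ν ∂(Measure.pi fun _ : Fin N => ν) := by
  have h := (measurePreserving_piFinSuccAbove (fun _ : Fin (N + 1) => ν) 0).symm
  rw [← h.lintegral_comp hg]
  rw [lintegral_prod_symm]
  · refine lintegral_congr fun Z => lintegral_congr fun z => ?_
    simp [MeasurableEquiv.piFinSuccAbove_symm_apply, Fin.consEquiv]
  · exact (hg.comp h.measurable).aemeasurable


theorem measure_exists_near_le (ν : Measure Ph) {ε p : ℝ}
    (hp : ∀ y : E3, ν {z | ‖y - z.1‖ ≤ ε} ≤ ENNReal.ofReal p) {N : ℕ} (Z : Fin N → Ph) :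
    ν {z | ∃ j, ‖(Z j).1 - z.1‖ ≤ ε} ≤ N * ENNReal.ofReal p := by
  have : {z : Ph | ∃ j, ‖(Z j).1 - z.1‖ ≤ ε} = ⋃ j, {z : Ph | ‖(Z j).1 - z.1‖ ≤ ε} := by
    ext z
    simp
  rw [this]
  calc ν (⋃ j, {z : Ph | ‖(Z j).1 - z.1‖ ≤ ε})
      ≤ ∑ j, ν {z : Ph | ‖(Z j).1 - z.1‖ ≤ ε} := measure_iUnion_fintype_le _ _
    _ ≤ ∑ _j : Fin N, ENNReal.ofReal p := Finset.sum_le_sum fun j _ => hp _
    _ = N * ENNReal.ofReal p := by simp

theorem lintegral_exp_clustered (ν : Measure Ph) [IsProbabilityMeasure ν] {ε p θ : ℝ}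
    (hε : 0 < ε) (hp0 : 0 ≤ p) (hp : ∀ y : E3, ν {z | ‖y - z.1‖ ≤ ε} ≤ ENNReal.ofReal p)
    (hθ : 0 ≤ θ) (N : ℕ) :
    ∫⁻ Z, ENNReal.ofReal (Real.exp (θ * clustered ε Z)) ∂(Measure.pi fun _ : Fin N => ν) ≤
      ENNReal.ofReal (Real.exp (p * Real.exp (126 * θ) * (N : ℝ) ^ 2)) := by
  classical
  induction N with
  | zero =>
    have : ∀ Z : Fin 0 → Ph, clustered ε Z = 0 := fun Z => Nat.le_zero.1 (clustered_le Z)
    simp [this]
  | succ N ih =>
    have hmeas : ∀ M : ℕ, Measurable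
        (fun Z : Fin M → Ph => ENNReal.ofReal (Real.exp (θ * clustered ε Z))) := by
      intro M
      have h1 : Measurable (fun Z : Fin M → Ph => ((clustered ε Z : ℕ) : ℝ)) :=
        (measurable_from_top (f := fun n : ℕ => (n : ℝ))).comp measurable_clustered
      exact (Real.measurable_exp.comp (h1.const_mul θ)).ennreal_ofReal
    rw [lintegral_pi_succ ν _ (hmeas _)]
    set K : ℝ := Real.exp (126 * θ) with hK
    have hK0 : 0 ≤ K := (Real.exp_pos _).le
    have hinner : ∀ Z : Fin N → Ph,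
        ∫⁻ z, ENNReal.ofReal (Real.exp (θ * clustered ε (Fin.cons z Z : Fin (N + 1) → Ph))) ∂ν ≤
          ENNReal.ofReal (Real.exp (θ * clustered ε Z)) * ENNReal.ofReal (1 + K * (N * p)) := by
      intro Z
      set A : Set Ph := {z | ∃ j, ‖(Z j).1 - z.1‖ ≤ ε} with hA
      have hAm : MeasurableSet A := by
        have : A = ⋃ j, {z : Ph | ‖(Z j).1 - z.1‖ ≤ ε} := by
          ext z
          simp [hA]
        rw [this]
        exact MeasurableSet.iUnion fun j => measurableSet_le (by fun_prop) measurable_const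
      have hpt : ∀ z, ENNReal.ofReal
          (Real.exp (θ * clustered ε (Fin.cons z Z : Fin (N + 1) → Ph))) ≤
          ENNReal.ofReal (Real.exp (θ * clustered ε Z)) *
            (1 + A.indicator (fun _ => ENNReal.ofReal K) z) := by
        intro z
        have hc := clustered_cons_le hε z Z
        by_cases hex : ∃ j, ‖(Z j).1 - z.1‖ < ε
        · rw [if_pos hex] at hc
          have hzA : z ∈ A := by
            obtain ⟨j, hj⟩ := hex
            exact ⟨j, hj.le⟩
          rw [Set.indicator_of_mem hzA]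
          have h1 : Real.exp (θ * clustered ε (Fin.cons z Z : Fin (N + 1) → Ph)) ≤
              Real.exp (θ * clustered ε Z) * K := by
            rw [hK, ← Real.exp_add]
            apply Real.exp_le_exp.2
            have : (clustered ε (Fin.cons z Z : Fin (N + 1) → Ph) : ℝ) ≤ clustered ε Z + 126 := by
              exact_mod_cast hc
            nlinarith
          calc _ ≤ ENNReal.ofReal (Real.exp (θ * clustered ε Z) * K) :=
                ENNReal.ofReal_le_ofReal h1
            _ = ENNReal.ofReal (Real.exp (θ * clustered ε Z)) * ENNReal.ofReal K :=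
                ENNReal.ofReal_mul (Real.exp_pos _).le
            _ ≤ _ := by
                gcongr
                exact le_add_self
        · rw [if_neg hex, add_zero] at hc
          have h1 : Real.exp (θ * clustered ε (Fin.cons z Z : Fin (N + 1) → Ph)) ≤
              Real.exp (θ * clustered ε Z) := by
            apply Real.exp_le_exp.2
            have : (clustered ε (Fin.cons z Z : Fin (N + 1) → Ph) : ℝ) ≤ clustered ε Z := by
              exact_mod_cast hc
            nlinarith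
          calc _ ≤ ENNReal.ofReal (Real.exp (θ * clustered ε Z)) * 1 := by
                rw [mul_one]
                exact ENNReal.ofReal_le_ofReal h1
            _ ≤ _ := by
                gcongr
                exact le_self_add
      calc _ ≤ ∫⁻ z, ENNReal.ofReal (Real.exp (θ * clustered ε Z)) *
            (1 + A.indicator (fun _ => ENNReal.ofReal K) z) ∂ν := lintegral_mono hpt
        _ = ENNReal.ofReal (Real.exp (θ * clustered ε Z)) *
            (1 + ENNReal.ofReal K * ν A) := by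
            have hm1 : Measurable (fun z : Ph => (1 : ℝ≥0∞) +
                A.indicator (fun _ => ENNReal.ofReal K) z) := by
              have h : Measurable (A.indicator (fun _ : Ph => ENNReal.ofReal K)) :=
                measurable_const.indicator hAm
              exact h.const_add 1
            rw [lintegral_const_mul _ hm1]
            rw [lintegral_add_left measurable_const, lintegral_indicator_const hAm]
            simp
        _ ≤ ENNReal.ofReal (Real.exp (θ * clustered ε Z)) *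
            (1 + ENNReal.ofReal K * (N * ENNReal.ofReal p)) := by
            gcongr
            exact measure_exists_near_le ν hp Z
        _ = _ := by
            congr 1
            have hNp : (0 : ℝ) ≤ N * p := mul_nonneg (Nat.cast_nonneg N) hp0
            rw [ENNReal.ofReal_add zero_le_one (mul_nonneg hK0 hNp), ENNReal.ofReal_mul hK0,
              ENNReal.ofReal_mul (Nat.cast_nonneg N), ENNReal.ofReal_natCast, ENNReal.ofReal_one]
    calc _ ≤ ∫⁻ Z, ENNReal.ofReal (Real.exp (θ * clustered ε Z)) *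
          ENNReal.ofReal (1 + K * (N * p)) ∂(Measure.pi fun _ : Fin N => ν) :=
          lintegral_mono hinner
      _ = (∫⁻ Z, ENNReal.ofReal (Real.exp (θ * clustered ε Z))
            ∂(Measure.pi fun _ : Fin N => ν)) * ENNReal.ofReal (1 + K * (N * p)) :=
          lintegral_mul_const _ (hmeas _)
      _ ≤ ENNReal.ofReal (Real.exp (p * K * (N : ℝ) ^ 2)) *
            ENNReal.ofReal (Real.exp (K * (N * p))) := by
          gcongr
          have := Real.add_one_le_exp (K * (N * p))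
          linarith
      _ = ENNReal.ofReal (Real.exp (p * K * (N : ℝ) ^ 2 + K * (N * p))) := by
          rw [← ENNReal.ofReal_mul (Real.exp_pos _).le, ← Real.exp_add]
      _ ≤ _ := by
          apply ENNReal.ofReal_le_ofReal
          apply Real.exp_le_exp.2
          push_cast
          have h1 : 0 ≤ p * K := mul_nonneg hp0 hK0
          have h2 : (0 : ℝ) ≤ N := Nat.cast_nonneg N
          nlinarith [mul_nonneg h1 h2]

/-- The sum over pairs `i < j` of `V ((x_i - x_j) / ε)`. -/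
noncomputable def pairSum (V : E3 → ℝ) (ε : ℝ) {N : ℕ} (Z : Fin N → Ph) : ℝ :=
  ∑ i, ∑ j ∈ Finset.Ioi i, V (ε⁻¹ • ((Z i).1 - (Z j).1))

theorem sum_pairs_restrict {N : ℕ} (S : Finset (Fin N)) (w : Fin N → Fin N → ℝ)
    (hw : ∀ i j, ¬ (i ∈ S ∧ j ∈ S) → i ≠ j → w i j = 0) :
    ∑ i, ∑ j ∈ Finset.Ioi i, w i j =
      ∑ i : Fin S.card, ∑ j ∈ Finset.Ioi i,
        w (S.orderEmbOfFin rfl i) (S.orderEmbOfFin rfl j) := by
  classical
  have h1 : ∀ (M : ℕ) (u : Fin M → Fin M → ℝ), ∑ i, ∑ j ∈ Finset.Ioi i, u i j =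
      ∑ i, ∑ j, if i < j then u i j else 0 := by
    intro M u
    refine Finset.sum_congr rfl fun i _ => ?_
    rw [← Finset.sum_filter]
    congr 1
    ext j
    simp
  rw [h1, h1]
  have h2 : ∀ g : Fin N → ℝ, (∀ i, i ∉ S → g i = 0) → ∑ i, g i =
      ∑ i : Fin S.card, g (S.orderEmbOfFin rfl i) := by
    intro g hg
    rw [← Finset.sum_subset (Finset.subset_univ S) (fun i _ hi => hg i hi)]
    conv_lhs => rw [← Finset.map_orderEmbOfFin_univ S rfl]
    rw [Finset.sum_map]
    rfl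
  rw [h2]
  · refine Finset.sum_congr rfl fun i _ => ?_
    rw [h2]
    · refine Finset.sum_congr rfl fun j _ => ?_
      simp only [OrderEmbedding.lt_iff_lt]
    · intro j hj
      split_ifs with hlt
      · exact hw _ _ (fun h => hj h.2) hlt.ne
      · rfl
  · intro i hi
    refine Finset.sum_eq_zero fun j _ => ?_
    split_ifs with hlt
    · exact hw _ _ (fun h => hi h.1) hlt.ne
    · rfl

theorem pairSum_ge {V : E3 → ℝ} {B ε : ℝ} (hV : ∀ x : E3, 1 ≤ ‖x‖ → V x = 0)
    (hB : ∀ (n : ℕ) (x : Fin n → E3), Function.Injective x →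
      -(B * n) ≤ ∑ i, ∑ j ∈ Finset.Ioi i, V (x i - x j))
    (hε : 0 < ε) {N : ℕ} (Z : Fin N → Ph) (hinj : Function.Injective (fun i => (Z i).1)) :
    -(B * clustered ε Z) ≤ pairSum V ε Z := by
  classical
  unfold pairSum clustered
  set S := Finset.univ.filter (Near ε Z) with hS
  have hz : ∀ i j : Fin N, i ≠ j → ε ≤ ‖(Z i).1 - (Z j).1‖ →
      V (ε⁻¹ • ((Z i).1 - (Z j).1)) = 0 := by
    intro i j hij hd
    apply hV
    rw [norm_smul, norm_inv, Real.norm_of_nonneg hε.le, inv_mul_eq_div, le_div_iff₀ hε]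
    linarith
  rw [sum_pairs_restrict S]
  · have := hB S.card (fun i => ε⁻¹ • (Z (S.orderEmbOfFin rfl i)).1) (by
      intro i j hij
      have h1 : (Z (S.orderEmbOfFin rfl i)).1 = (Z (S.orderEmbOfFin rfl j)).1 :=
        smul_right_injective E3 (inv_ne_zero hε.ne') hij
      exact (S.orderEmbOfFin rfl).injective (hinj h1))
    simpa only [smul_sub] using this
  · intro i j hnot hij
    apply hz i j hij
    by_contra hlt
    push Not at hlt
    apply hnot
    constructor
    · exact Finset.mem_filter.2 ⟨Finset.mem_univ _, j, hij.symm, hlt⟩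
    · exact Finset.mem_filter.2 ⟨Finset.mem_univ _, i, hij, by rwa [norm_sub_rev]⟩

theorem ae_injective_pos (ν : Measure Ph) [IsProbabilityMeasure ν]
    (hν : ∀ y : E3, ν {z | z.1 = y} = 0) (N : ℕ) :
    ∀ᵐ Z ∂(Measure.pi fun _ : Fin N => ν), Function.Injective (fun i => (Z i).1) := by
  have hmeas : ∀ M : ℕ, MeasurableSet {Z : Fin M → Ph | ¬ Function.Injective (fun i => (Z i).1)} := by
    intro M
    have : {Z : Fin M → Ph | ¬ Function.Injective (fun i => (Z i).1)} =
        ⋃ i, ⋃ j, ⋃ _ : i ≠ j, {Z : Fin M → Ph | (Z i).1 = (Z j).1} := by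
      ext Z
      simp [Function.Injective]
      constructor
      · rintro ⟨i, j, h, h'⟩
        exact ⟨i, j, h', h⟩
      · rintro ⟨i, j, h', h⟩
        exact ⟨i, j, h, h'⟩
    rw [this]
    exact MeasurableSet.iUnion fun i => MeasurableSet.iUnion fun j => MeasurableSet.iUnion fun _ =>
      measurableSet_eq_fun (by fun_prop) (by fun_prop)
  induction N with
  | zero =>
    exact Eventually.of_forall fun Z i => i.elim0
  | succ N ih =>
    rw [ae_iff, ← lintegral_indicator_one (hmeas _),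
      lintegral_pi_succ ν _ (measurable_one.indicator (hmeas _))]
    have h0 : ∀ᵐ Z ∂(Measure.pi fun _ : Fin N => ν),
        ∫⁻ z, ({Z : Fin (N + 1) → Ph | ¬ Function.Injective (fun i => (Z i).1)}).indicator 1
          (Fin.cons z Z : Fin (N + 1) → Ph) ∂ν = 0 := by
      filter_upwards [ih] with Z hZ
      have hnull : ν {z | ∃ j, z.1 = (Z j).1} = 0 := by
        have : {z : Ph | ∃ j, z.1 = (Z j).1} = ⋃ j, {z : Ph | z.1 = (Z j).1} := by
          ext z
          simp
        rw [this]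
        exact measure_iUnion_null fun j => hν _
      have hae : ∀ᵐ z ∂ν, ¬ ∃ j, z.1 = (Z j).1 := by
        rw [ae_iff]
        simpa using hnull
      rw [lintegral_eq_zero_iff' ]
      · filter_upwards [hae] with z hz
        rw [Set.indicator_of_notMem]
        · rfl
        · simp only [mem_ofPred_eq, not_not]
          intro i j hij
          simp only at hij
          revert hij
          refine Fin.cases ?_ (fun i' => ?_) i <;> refine Fin.cases ?_ (fun j' => ?_) j
          · intro _; rfl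
          · intro h
            simp only [Fin.cons_zero, Fin.cons_succ] at h
            exact absurd ⟨j', h⟩ hz
          · intro h
            simp only [Fin.cons_zero, Fin.cons_succ] at h
            exact absurd ⟨i', h.symm⟩ hz
          · intro h
            simp only [Fin.cons_succ] at h
            exact congrArg Fin.succ (hZ h)
      · have hm : Measurable (fun z : Ph => (Fin.cons z Z : Fin (N + 1) → Ph)) := by
          rw [measurable_pi_iff]
          intro i
          refine Fin.cases ?_ (fun i' => ?_) i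
          · simpa using measurable_id'
          · simp
        exact ((measurable_one.indicator (hmeas _)).comp hm).aemeasurable
    rw [lintegral_congr_ae h0]
    simp

/-- Upper bound on canonical configuration integrals of a stable pair potential. -/
theorem lintegral_exp_neg_pairSum {V : E3 → ℝ} {B : ℝ} (hB0 : 0 ≤ B)
    (hV : ∀ x : E3, 1 ≤ ‖x‖ → V x = 0)
    (hB : ∀ (n : ℕ) (x : Fin n → E3), Function.Injective x →
      -(B * n) ≤ ∑ i, ∑ j ∈ Finset.Ioi i, V (x i - x j))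
    (ν : Measure Ph) [IsProbabilityMeasure ν] {ε p : ℝ}
    (hν : ∀ y : E3, ν {z | z.1 = y} = 0)
    (hε : 0 < ε) (hp0 : 0 ≤ p) (hp : ∀ y : E3, ν {z | ‖y - z.1‖ ≤ ε} ≤ ENNReal.ofReal p)
    (N : ℕ) :
    ∫⁻ Z, ENNReal.ofReal (Real.exp (-pairSum V ε Z)) ∂(Measure.pi fun _ : Fin N => ν) ≤
      ENNReal.ofReal (Real.exp (p * Real.exp (126 * B) * (N : ℝ) ^ 2)) := by
  refine le_trans (lintegral_mono_ae ?_) (lintegral_exp_clustered ν hε hp0 hp hB0 N)
  filter_upwards [ae_injective_pos ν hν N] with Z hZ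
  apply ENNReal.ofReal_le_ofReal
  apply Real.exp_le_exp.2
  have := pairSum_ge hV hB hε Z hZ
  linarith

end Vale.Agent.P119
end

section

open MeasureTheory Filter Topology Set
open scoped ENNReal RealInnerProductSpace

namespace Vale.Agent.P119

instance sigmaFinite_volume_config (N : ℕ) : SigmaFinite (volume : Measure (Fin N → Ph)) :=
  Measure.pi.sigmaFinite _

theorem lintegral_prod_pi {α : Type*} [MeasurableSpace α] (ν : Measure α) [SigmaFinite ν] {N : ℕ}
    (g : Fin N → α → ℝ≥0∞) (hg : ∀ i, Measurable (g i)) :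
    ∫⁻ Z, ∏ i, g i (Z i) ∂(Measure.pi fun _ : Fin N => ν) = ∏ i, ∫⁻ z, g i z ∂ν := by
  induction N with
  | zero => simp
  | succ N ih =>
    have h := (measurePreserving_piFinSuccAbove (fun _ : Fin (N + 1) => ν) 0).symm
    have hm : Measurable (fun Z : Fin (N + 1) → α => ∏ i, g i (Z i)) :=
      Finset.measurable_prod _ fun i _ => (hg i).comp (measurable_pi_apply i)
    rw [← h.lintegral_comp hm]
    have hm2 : Measurable (fun Z : Fin N → α => ∏ i : Fin N, g i.succ (Z i)) :=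
      Finset.measurable_prod _ fun i _ => (hg i.succ).comp (measurable_pi_apply i)
    have heq : ∀ y : α × (Fin N → α),
        ∏ i, g i ((MeasurableEquiv.piFinSuccAbove (fun _ : Fin (N + 1) => α) 0).symm y i) =
          g 0 y.1 * ∏ i : Fin N, g i.succ (y.2 i) := by
      intro y
      rw [Fin.prod_univ_succ]
      simp [MeasurableEquiv.piFinSuccAbove_symm_apply, Fin.consEquiv]
    simp_rw [heq]
    rw [lintegral_prod_mul (hg 0).aemeasurable hm2.aemeasurable, Fin.prod_univ_succ]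
    congr 1
    exact ih (fun i => g i.succ) (fun i => hg i.succ)

theorem pi_withDensity {α : Type*} [MeasurableSpace α] (ν : Measure α) [SigmaFinite ν]
    (g : α → ℝ≥0∞) (hg : Measurable g) (hfin : ∫⁻ z, g z ∂ν ≠ ∞) (N : ℕ) :
    (Measure.pi fun _ : Fin N => ν.withDensity g) =
      (Measure.pi fun _ : Fin N => ν).withDensity (fun Z => ∏ i, g (Z i)) := by
  have : IsFiniteMeasure (ν.withDensity g) := isFiniteMeasure_withDensity hfin
  refine Measure.pi_eq fun s hs => ?_
  rw [withDensity_apply _ (MeasurableSet.univ_pi hs)]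
  rw [← lintegral_indicator (MeasurableSet.univ_pi hs)]
  have : ∀ Z : Fin N → α, (univ.pi s).indicator (fun Z => ∏ i, g (Z i)) Z =
      ∏ i, (s i).indicator g (Z i) := by
    intro Z
    by_cases hZ : Z ∈ univ.pi s
    · rw [indicator_of_mem hZ]
      refine Finset.prod_congr rfl fun i _ => ?_
      rw [indicator_of_mem (hZ i (mem_univ i))]
    · rw [indicator_of_notMem hZ]
      simp only [mem_univ_pi, not_forall] at hZ
      obtain ⟨i, hi⟩ := hZ
      rw [Finset.prod_eq_zero (Finset.mem_univ i)]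
      rw [indicator_of_notMem hi]
  simp_rw [this]
  rw [lintegral_prod_pi ν (fun i => (s i).indicator g) (fun i => hg.indicator (hs i))]
  refine Finset.prod_congr rfl fun i _ => ?_
  rw [withDensity_apply _ (hs i), lintegral_indicator (hs i)]

/-- The law with density `f₀`. -/
noncomputable def law (f₀ : Ph → ℝ) : Measure Ph :=
  volume.withDensity (fun z => ENNReal.ofReal (f₀ z))

theorem lintegral_ofReal_density {f₀ : Ph → ℝ} (h0 : ∀ z, 0 ≤ f₀ z) (hi : Integrable f₀)
    (h1 : ∫ z, f₀ z = 1) : ∫⁻ z, ENNReal.ofReal (f₀ z) = 1 := by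
  rw [← ofReal_integral_eq_lintegral_ofReal hi (Eventually.of_forall h0), h1, ENNReal.ofReal_one]

theorem isProbabilityMeasure_law {f₀ : Ph → ℝ} (h0 : ∀ z, 0 ≤ f₀ z) (hi : Integrable f₀)
    (h1 : ∫ z, f₀ z = 1) : IsProbabilityMeasure (law f₀) := by
  constructor
  rw [law, withDensity_apply _ MeasurableSet.univ, setLIntegral_univ]
  exact lintegral_ofReal_density h0 hi h1

theorem measurableSet_excl (ε : ℝ) (N : ℕ) : MeasurableSet (excl ε N) := by
  have : excl ε N = ⋂ i, ⋂ j, ⋂ _ : i ≠ j, {Z : Fin N → Ph | ε < ‖(Z i).1 - (Z j).1‖} := by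
    ext Z
    simp [excl]
  rw [this]
  exact MeasurableSet.iInter fun i => MeasurableSet.iInter fun j => MeasurableSet.iInter fun _ =>
    measurableSet_lt measurable_const (by fun_prop)

theorem measurable_wt {f₀ : Ph → ℝ} (hm : Measurable f₀) (ε : ℝ) {N : ℕ} :
    Measurable (fun Z : Fin N → Ph => wt f₀ ε Z) := by
  unfold wt
  exact (Finset.measurable_prod _ fun i _ => hm.comp (measurable_pi_apply i)).indicator
    (measurableSet_excl ε N)

theorem wt_nonneg {f₀ : Ph → ℝ} (h0 : ∀ z, 0 ≤ f₀ z) (ε : ℝ) {N : ℕ} (Z : Fin N → Ph) :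
    0 ≤ wt f₀ ε Z :=
  indicator_nonneg (fun _ _ => Finset.prod_nonneg fun _ _ => h0 _) Z

theorem ofReal_wt {f₀ : Ph → ℝ} (h0 : ∀ z, 0 ≤ f₀ z) (ε : ℝ) {N : ℕ} (Z : Fin N → Ph) :
    ENNReal.ofReal (wt f₀ ε Z) =
      (excl ε N).indicator (fun Z => ∏ i, ENNReal.ofReal (f₀ (Z i))) Z := by
  unfold wt
  by_cases hZ : Z ∈ excl ε N
  · rw [indicator_of_mem hZ, indicator_of_mem hZ, ENNReal.ofReal_prod_of_nonneg fun i _ => h0 _]
  · rw [indicator_of_notMem hZ, indicator_of_notMem hZ, ENNReal.ofReal_zero]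

theorem withDensity_wt {f₀ : Ph → ℝ} (hm : Measurable f₀) (h0 : ∀ z, 0 ≤ f₀ z)
    (hi : Integrable f₀) (ε : ℝ) (N : ℕ) :
    (volume : Measure (Fin N → Ph)).withDensity (fun Z => ENNReal.ofReal (wt f₀ ε Z)) =
      (Measure.pi fun _ : Fin N => law f₀).restrict (excl ε N) := by
  have hg : Measurable (fun z => ENNReal.ofReal (f₀ z)) := hm.ennreal_ofReal
  have hfin : ∫⁻ z, ENNReal.ofReal (f₀ z) ≠ ∞ := by
    rw [← ofReal_integral_eq_lintegral_ofReal hi (Eventually.of_forall h0)]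
    exact ENNReal.ofReal_ne_top
  unfold law
  rw [pi_withDensity volume _ hg hfin N]
  have : (fun Z : Fin N → Ph => ENNReal.ofReal (wt f₀ ε Z)) =
      (excl ε N).indicator (fun Z => ∏ i, ENNReal.ofReal (f₀ (Z i))) := by
    funext Z
    exact ofReal_wt h0 ε Z
  rw [this, withDensity_indicator (measurableSet_excl ε N)]
  rw [restrict_withDensity (measurableSet_excl ε N)]
  rfl

/-- Integrals against the weight are integrals against the product law on the exclusion set. -/
theorem integral_wt_mul {f₀ : Ph → ℝ} (hm : Measurable f₀) (h0 : ∀ z, 0 ≤ f₀ z)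
    (hi : Integrable f₀) (ε : ℝ) {N : ℕ} (g : (Fin N → Ph) → ℝ) :
    ∫ Z : Fin N → Ph, wt f₀ ε Z * g Z =
      ∫ Z in excl ε N, g Z ∂(Measure.pi fun _ : Fin N => law f₀) := by
  rw [← withDensity_wt hm h0 hi ε N]
  rw [integral_withDensity_eq_integral_toReal_smul (measurable_wt hm ε).ennreal_ofReal
    (Eventually.of_forall fun Z => ENNReal.ofReal_lt_top)]
  refine integral_congr_ae (Eventually.of_forall fun Z => ?_)
  simp only [smul_eq_mul]
  rw [ENNReal.toReal_ofReal (wt_nonneg h0 ε Z)]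

theorem integral_wt {f₀ : Ph → ℝ} (hm : Measurable f₀) (h0 : ∀ z, 0 ≤ f₀ z)
    (hi : Integrable f₀) (ε : ℝ) {N : ℕ} :
    ∫ Z : Fin N → Ph, wt f₀ ε Z = (Measure.pi fun _ : Fin N => law f₀).real (excl ε N) := by
  have := integral_wt_mul hm h0 hi ε (N := N) (fun _ => 1)
  simpa using this

end Vale.Agent.P119
end
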