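import Mathlib
import Vale.Agent.P119.Bdl.B1

section

open Filter Topology Set

namespace Vale.Agent.P119

/-- `μ^N / N!`. -/
noncomputable def aw (μ : ℝ) (N : ℕ) : ℝ := μ ^ N / (N.factorial : ℝ)

theorem aw_nonneg {μ : ℝ} (hμ : 0 ≤ μ) (N : ℕ) : 0 ≤ aw μ N := by
  unfold aw
  positivity

theorem summable_aw (μ : ℝ) : Summable (aw μ) := Real.summable_pow_div_factorial μ

theorem aw_shift {μ : ℝ} (M s : ℕ) :
    aw μ (M + s) * ((M + s).descFactorial s : ℝ) = μ ^ s * aw μ M := by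
  unfold aw
  have h : ((M + s).descFactorial s : ℝ) = ((M + s).factorial : ℝ) / (M.factorial : ℝ) := by
    rw [eq_div_iff (by positivity)]
    have := Nat.factorial_mul_descFactorial (Nat.le_add_left s M)
    rw [Nat.add_sub_cancel] at this
    rw [mul_comm]
    exact_mod_cast this
  rw [h, pow_add]
  have h1 : ((M + s).factorial : ℝ) ≠ 0 := by positivity
  have h2 : (M.factorial : ℝ) ≠ 0 := by positivity
  field_simp

theorem summable_aw_desc {μ : ℝ} (s : ℕ) (u : ℕ → ℝ) (C : ℝ) (hμ : 0 ≤ μ)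
    (hu : ∀ N, |u N| ≤ C) :
    Summable (fun N => aw μ N * (N.descFactorial s : ℝ) * u N) := by
  rw [← summable_nat_add_iff s]
  have : (fun M => aw μ (M + s) * ((M + s).descFactorial s : ℝ) * u (M + s)) =
      fun M => μ ^ s * aw μ M * u (M + s) := by
    funext M
    rw [aw_shift]
  rw [this]
  have h1 : Summable (fun M => μ ^ s * aw μ M * C) :=
    ((summable_aw μ).mul_left _).mul_right _
  refine Summable.of_norm_bounded h1 fun M => ?_
  rw [norm_mul, Real.norm_of_nonneg (mul_nonneg (pow_nonneg hμ s) (aw_nonneg hμ M))]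
  exact mul_le_mul_of_nonneg_left (hu _) (mul_nonneg (pow_nonneg hμ s) (aw_nonneg hμ M))

theorem tsum_aw_desc {μ : ℝ} (s : ℕ) (u : ℕ → ℝ) (C : ℝ) (hμ : 0 ≤ μ)
    (hu : ∀ N, |u N| ≤ C) :
    ∑' N, aw μ N * (N.descFactorial s : ℝ) * u N = μ ^ s * ∑' M, aw μ M * u (M + s) := by
  have hs := summable_aw_desc s u C hμ hu
  rw [← hs.sum_add_tsum_nat_add s]
  have h0 : ∑ N ∈ Finset.range s, aw μ N * (N.descFactorial s : ℝ) * u N = 0 := by
    refine Finset.sum_eq_zero fun N hN => ?_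
    rw [Nat.descFactorial_eq_zero_iff_lt.2 (Finset.mem_range.1 hN)]
    simp
  rw [h0, zero_add, ← tsum_mul_left]
  refine tsum_congr fun M => ?_
  rw [aw_shift]
  ring

/-- A decreasing sequence of canonical partition functions. -/
structure CanSeq (z : ℕ → ℝ) (p : ℝ) : Prop where
  zero : z 0 = 1
  nonneg : ∀ N, 0 ≤ z N
  succ_le : ∀ N, z (N + 1) ≤ z N
  le_succ : ∀ N : ℕ, (1 - N * p) * z N ≤ z (N + 1)

namespace CanSeq

variable {z : ℕ → ℝ} {p : ℝ}

theorem antitone (h : CanSeq z p) : Antitone z := antitone_nat_of_succ_le h.succ_le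

theorem le_one (h : CanSeq z p) (N : ℕ) : z N ≤ 1 := by
  rw [← h.zero]
  exact h.antitone (Nat.zero_le N)

theorem abs_le (h : CanSeq z p) (N : ℕ) : |z N| ≤ 1 := by
  rw [abs_of_nonneg (h.nonneg N)]
  exact h.le_one N

theorem sub_le (h : CanSeq z p) (hp : 0 ≤ p) (M s : ℕ) :
    z M - z (M + s) ≤ s * ((M + s : ℕ) * p) * z M := by
  induction s with
  | zero => simp
  | succ s ih =>
    have h1 := h.le_succ (M + s)
    have h2 : z (M + s) ≤ z M := h.antitone (Nat.le_add_right M s)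
    have h3 : z (M + s) - z (M + (s + 1)) ≤ ((M + s : ℕ) * p) * z M := by
      have : z (M + s) - z (M + s + 1) ≤ ((M + s : ℕ) * p) * z (M + s) := by linarith
      calc _ ≤ ((M + s : ℕ) * p) * z (M + s) := this
        _ ≤ _ := mul_le_mul_of_nonneg_left h2 (by positivity)
    have h4 : (s : ℝ) * ((M + s : ℕ) * p) * z M ≤ s * ((M + (s + 1) : ℕ) * p) * z M := by
      have hz := h.nonneg M
      gcongr
      omega
    have h5 : ((M + s : ℕ) * p) * z M ≤ ((M + (s + 1) : ℕ) * p) * z M := by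
      have hz := h.nonneg M
      gcongr
      omega
    push_cast at *
    nlinarith

theorem partition_pos (h : CanSeq z p) {μ : ℝ} (hμ : 0 < μ) : 0 < ∑' N, aw μ N * z N := by
  have hs : Summable (fun N => aw μ N * z N) := by
    have := summable_aw_desc (μ := μ) 0 z 1 hμ.le h.abs_le
    simpa using this
  refine hs.tsum_pos (fun N => mul_nonneg (aw_nonneg hμ.le N) (h.nonneg N)) 0 ?_
  simp [aw, h.zero]

theorem factorial_moment_le (h : CanSeq z p) {μ : ℝ} (hμ : 0 < μ) (s : ℕ) :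
    ∑' N, aw μ N * (N.descFactorial s : ℝ) * z N ≤ μ ^ s * ∑' N, aw μ N * z N := by
  rw [tsum_aw_desc s z 1 hμ.le h.abs_le]
  refine mul_le_mul_of_nonneg_left ?_ (pow_nonneg hμ.le s)
  refine Summable.tsum_le_tsum (fun N => ?_) ?_ ?_
  · exact mul_le_mul_of_nonneg_left (h.antitone (Nat.le_add_right N s)) (aw_nonneg hμ.le N)
  · have := summable_aw_desc (μ := μ) 0 (fun N => z (N + s)) 1 hμ.le (fun N => h.abs_le _)
    simpa using this
  · have := summable_aw_desc (μ := μ) 0 z 1 hμ.le h.abs_le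
    simpa using this

theorem le_factorial_moment (h : CanSeq z p) (hp : 0 ≤ p) {μ : ℝ} (hμ : 0 < μ) (s : ℕ) :
    μ ^ s * ((1 - s * p * (μ + s)) * ∑' N, aw μ N * z N) ≤
      ∑' N, aw μ N * (N.descFactorial s : ℝ) * z N := by
  rw [tsum_aw_desc s z 1 hμ.le h.abs_le]
  refine mul_le_mul_of_nonneg_left ?_ (pow_nonneg hμ.le s)
  have hs0 : Summable (fun N => aw μ N * z N) := by
    have := summable_aw_desc (μ := μ) 0 z 1 hμ.le h.abs_le
    simpa using this
  have hs1 : Summable (fun N => aw μ N * (N : ℝ) * z N) := by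
    have := summable_aw_desc (μ := μ) 1 z 1 hμ.le h.abs_le
    simpa using this
  have hss : Summable (fun N => aw μ N * z (N + s)) := by
    have := summable_aw_desc (μ := μ) 0 (fun N => z (N + s)) 1 hμ.le (fun N => h.abs_le _)
    simpa using this
  have h1 : ∑' N, aw μ N * (N : ℝ) * z N ≤ μ * ∑' N, aw μ N * z N := by
    have := h.factorial_moment_le hμ 1
    simpa using this
  have hlow : ∑' N, (aw μ N * z N - s * p * (aw μ N * (N : ℝ) * z N) -
      s * p * s * (aw μ N * z N)) ≤ ∑' N, aw μ N * z (N + s) := by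
    refine Summable.tsum_le_tsum (fun N => ?_) ?_ hss
    · have h2 := h.sub_le hp N s
      have h3 := aw_nonneg hμ.le N
      have h4 : aw μ N * (z N - s * ((N + s : ℕ) * p) * z N) ≤ aw μ N * z (N + s) :=
        mul_le_mul_of_nonneg_left (by linarith) h3
      push_cast at h4
      linarith
    · exact (hs0.sub (hs1.mul_left _)).sub (hs0.mul_left _)
  refine le_trans ?_ hlow
  rw [Summable.tsum_sub (hs0.sub (hs1.mul_left _)) (hs0.mul_left _),
    Summable.tsum_sub hs0 (hs1.mul_left _), tsum_mul_left, tsum_mul_left]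
  have h5 : 0 ≤ s * p := by positivity
  nlinarith [mul_le_mul_of_nonneg_left h1 h5]

/-- The grand-canonical average of canonical averages which are close to `A`. -/
theorem average_close (h : CanSeq z p) (hp : 0 ≤ p) {μ δ A : ℝ} (hμ : 0 < μ) (hδ : 0 ≤ δ)
    (s : ℕ) (hA : |A| ≤ 1) (I : ℕ → ℝ)
    (hI : ∀ N : ℕ, |I N - (N.descFactorial s : ℝ) * z N * A| ≤
      (N.descFactorial s : ℝ) * z N * (δ * (1 + N / μ))) :
    |(μ ^ s)⁻¹ * ((∑' N, aw μ N * z N)⁻¹ * ∑' N, aw μ N * I N) - A| ≤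
      δ * (2 + s / μ) + s * p * (μ + s) := by
  set Ξ := ∑' N, aw μ N * z N with hΞ
  have hΞpos : 0 < Ξ := h.partition_pos hμ
  have hs0 : Summable (fun N => aw μ N * (N.descFactorial s : ℝ) * z N) :=
    summable_aw_desc (μ := μ) s z 1 hμ.le h.abs_le
  have hs1 : Summable (fun N => aw μ N * (N.descFactorial (s + 1) : ℝ) * z N) :=
    summable_aw_desc (μ := μ) (s + 1) z 1 hμ.le h.abs_le
  have hdesc : ∀ N : ℕ, (N.descFactorial s : ℝ) * N =
      (N.descFactorial (s + 1) : ℝ) + s * (N.descFactorial s : ℝ) := by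
    intro N
    rw [Nat.descFactorial_succ]
    rcases le_or_gt s N with hle | hlt
    · rw [Nat.cast_mul, Nat.cast_sub hle]
      ring
    · rw [Nat.descFactorial_eq_zero_iff_lt.2 hlt]
      simp
  set S := ∑' N, aw μ N * (N.descFactorial s : ℝ) * z N with hS
  set S1 := ∑' N, aw μ N * (N.descFactorial (s + 1) : ℝ) * z N with hS1
  have hSle : S ≤ μ ^ s * Ξ := h.factorial_moment_le hμ s
  have hS1le : S1 ≤ μ ^ (s + 1) * Ξ := h.factorial_moment_le hμ (s + 1)
  have hSge : μ ^ s * ((1 - s * p * (μ + s)) * Ξ) ≤ S := h.le_factorial_moment hp hμ s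
  -- the bound series
  have hb : ∀ N, aw μ N * ((N.descFactorial s : ℝ) * z N * (δ * (1 + N / μ))) =
      δ * (1 + s / μ) * (aw μ N * (N.descFactorial s : ℝ) * z N) +
        δ / μ * (aw μ N * (N.descFactorial (s + 1) : ℝ) * z N) := by
    intro N
    have h1 := hdesc N
    have : (N.descFactorial s : ℝ) * (N / μ) =
        ((N.descFactorial (s + 1) : ℝ) + s * (N.descFactorial s : ℝ)) / μ := by
      rw [← h1]
      ring
    calc _ = δ * aw μ N * z N * ((N.descFactorial s : ℝ) + (N.descFactorial s : ℝ) * (N / μ)) := by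
          ring
      _ = _ := by
          rw [this]
          ring
  have hbs : Summable (fun N => aw μ N * ((N.descFactorial s : ℝ) * z N * (δ * (1 + N / μ)))) := by
    simp_rw [hb]
    exact (hs0.mul_left _).add (hs1.mul_left _)
  have hdiffs : Summable (fun N => aw μ N * (I N - (N.descFactorial s : ℝ) * z N * A)) := by
    refine Summable.of_norm_bounded hbs fun N => ?_
    rw [norm_mul, Real.norm_of_nonneg (aw_nonneg hμ.le N)]
    exact mul_le_mul_of_nonneg_left (hI N) (aw_nonneg hμ.le N)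
  have hsplit : ∑' N, aw μ N * I N =
      ∑' N, aw μ N * (I N - (N.descFactorial s : ℝ) * z N * A) + A * S := by
    rw [hS, ← tsum_mul_left, ← Summable.tsum_add hdiffs (hs0.mul_left A)]
    refine tsum_congr fun N => ?_
    ring
  have hdiff : |∑' N, aw μ N * (I N - (N.descFactorial s : ℝ) * z N * A)| ≤
      δ * (2 + s / μ) * (μ ^ s * Ξ) := by
    have h1 : |∑' N, aw μ N * (I N - (N.descFactorial s : ℝ) * z N * A)| ≤
        ∑' N, aw μ N * ((N.descFactorial s : ℝ) * z N * (δ * (1 + N / μ))) := by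
      rw [← Real.norm_eq_abs]
      refine tsum_of_norm_bounded hbs.hasSum fun N => ?_
      rw [norm_mul, Real.norm_of_nonneg (aw_nonneg hμ.le N)]
      exact mul_le_mul_of_nonneg_left (hI N) (aw_nonneg hμ.le N)
    refine h1.trans ?_
    simp_rw [hb]
    rw [Summable.tsum_add (hs0.mul_left _) (hs1.mul_left _), tsum_mul_left, tsum_mul_left]
    have h2 : δ * (1 + s / μ) * S ≤ δ * (1 + s / μ) * (μ ^ s * Ξ) :=
      mul_le_mul_of_nonneg_left hSle (by positivity)
    have h3 : δ / μ * S1 ≤ δ / μ * (μ ^ (s + 1) * Ξ) :=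
      mul_le_mul_of_nonneg_left hS1le (by positivity)
    have h4 : δ / μ * (μ ^ (s + 1) * Ξ) = δ * (μ ^ s * Ξ) := by
      rw [pow_succ]
      field_simp
    calc _ ≤ δ * (1 + s / μ) * (μ ^ s * Ξ) + δ / μ * (μ ^ (s + 1) * Ξ) := add_le_add h2 h3
      _ = _ := by rw [h4]; ring
  have hμs : 0 < μ ^ s := pow_pos hμ s
  have hprod : 0 < μ ^ s * Ξ := mul_pos hμs hΞpos
  have hrew : (μ ^ s)⁻¹ * (Ξ⁻¹ * ∑' N, aw μ N * I N) - A =
      (μ ^ s * Ξ)⁻¹ * ∑' N, aw μ N * (I N - (N.descFactorial s : ℝ) * z N * A) +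
        A * ((μ ^ s * Ξ)⁻¹ * S - 1) := by
    rw [hsplit]
    generalize ∑' N, aw μ N * (I N - (N.descFactorial s : ℝ) * z N * A) = D
    field_simp
    ring
  rw [hrew]
  have hfirst : |(μ ^ s * Ξ)⁻¹ * ∑' N, aw μ N * (I N - (N.descFactorial s : ℝ) * z N * A)| ≤
      δ * (2 + s / μ) := by
    rw [abs_mul, abs_of_pos (inv_pos.2 hprod), inv_mul_le_iff₀ hprod]
    linarith
  have hsecond : |A * ((μ ^ s * Ξ)⁻¹ * S - 1)| ≤ s * p * (μ + s) := by
    rw [abs_mul]
    have h1 : (μ ^ s * Ξ)⁻¹ * S ≤ 1 := by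
      rw [inv_mul_le_iff₀ hprod]
      linarith
    have h2 : 1 - s * p * (μ + s) ≤ (μ ^ s * Ξ)⁻¹ * S := by
      rw [le_inv_mul_iff₀ hprod]
      calc μ ^ s * Ξ * (1 - s * p * (μ + s)) = μ ^ s * ((1 - s * p * (μ + s)) * Ξ) := by ring
        _ ≤ S := hSge
    have h3 : |(μ ^ s * Ξ)⁻¹ * S - 1| ≤ s * p * (μ + s) := by
      rw [_root_.abs_le]
      constructor <;> linarith
    calc |A| * |(μ ^ s * Ξ)⁻¹ * S - 1| ≤ 1 * |(μ ^ s * Ξ)⁻¹ * S - 1| :=
          mul_le_mul_of_nonneg_right hA (abs_nonneg _)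
      _ ≤ _ := by linarith
  calc _ ≤ _ := abs_add_le _ _
    _ ≤ _ := add_le_add hfirst hsecond

end CanSeq

end Vale.Agent.P119
end

section

open MeasureTheory Filter Topology Set
open scoped ENNReal RealInnerProductSpace

namespace Vale.Agent.P119

theorem measurable_consPh {N : ℕ} (Z : Fin N → Ph) :
    Measurable (fun z : Ph => (Fin.cons z Z : Fin (N + 1) → Ph)) := by
  rw [measurable_pi_iff]
  intro i
  refine Fin.cases ?_ (fun i' => ?_) i
  · simpa using measurable_id'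
  · simp

theorem cons_mem_excl {ε : ℝ} {N : ℕ} (z : Ph) (Z : Fin N → Ph) :
    (Fin.cons z Z : Fin (N + 1) → Ph) ∈ excl ε (N + 1) ↔
      Z ∈ excl ε N ∧ z ∉ {z : Ph | ∃ j, ‖(Z j).1 - z.1‖ ≤ ε} := by
  constructor
  · intro h
    constructor
    · intro i j hij
      have := h i.succ j.succ (fun h' => hij (Fin.succ_injective _ h'))
      simpa using this
    · rintro ⟨j, hj⟩
      have := h j.succ 0 (Fin.succ_ne_zero j)
      simp only [Fin.cons_succ, Fin.cons_zero] at this
      linarith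
  · rintro ⟨hZ, hz⟩ i j
    refine Fin.cases ?_ (fun i' => ?_) i <;> refine Fin.cases ?_ (fun j' => ?_) j
    · intro h
      exact absurd rfl h
    · intro _
      simp only [Fin.cons_zero, Fin.cons_succ]
      rw [norm_sub_rev]
      by_contra hlt
      exact hz ⟨j', not_lt.1 hlt⟩
    · intro _
      simp only [Fin.cons_zero, Fin.cons_succ]
      by_contra hlt
      exact hz ⟨i', not_lt.1 hlt⟩
    · intro h
      simp only [Fin.cons_succ]
      exact hZ i' j' (fun h' => h (by rw [h']))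

theorem pi_excl_succ (ν : Measure Ph) [IsProbabilityMeasure ν] (ε : ℝ) (N : ℕ) :
    (Measure.pi fun _ : Fin (N + 1) => ν) (excl ε (N + 1)) =
      ∫⁻ Z, (excl ε N).indicator (fun Z => ν {z : Ph | ∃ j, ‖(Z j).1 - z.1‖ ≤ ε}ᶜ) Z
        ∂(Measure.pi fun _ : Fin N => ν) := by
  rw [← lintegral_indicator_one (measurableSet_excl ε (N + 1)),
    lintegral_pi_succ ν _ (measurable_one.indicator (measurableSet_excl ε (N + 1)))]
  refine lintegral_congr fun Z => ?_
  have hAm : MeasurableSet {z : Ph | ∃ j, ‖(Z j).1 - z.1‖ ≤ ε} := by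
    have : {z : Ph | ∃ j, ‖(Z j).1 - z.1‖ ≤ ε} = ⋃ j, {z : Ph | ‖(Z j).1 - z.1‖ ≤ ε} := by
      ext z
      simp
    rw [this]
    exact MeasurableSet.iUnion fun j => measurableSet_le (by fun_prop) measurable_const
  by_cases hZ : Z ∈ excl ε N
  · rw [indicator_of_mem hZ, ← lintegral_indicator_one hAm.compl]
    refine lintegral_congr fun z => ?_
    by_cases hz : z ∈ {z : Ph | ∃ j, ‖(Z j).1 - z.1‖ ≤ ε}
    · rw [indicator_of_notMem (fun h => ((cons_mem_excl z Z).1 h).2 hz),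
        indicator_of_notMem (notMem_compl_iff.2 hz)]
    · rw [indicator_of_mem ((cons_mem_excl z Z).2 ⟨hZ, hz⟩), indicator_of_mem (show z ∈ _ᶜ from hz)]
      rfl
  · rw [indicator_of_notMem hZ]
    rw [lintegral_eq_zero_iff' ]
    · refine Eventually.of_forall fun z => ?_
      exact indicator_of_notMem (fun h => hZ ((cons_mem_excl z Z).1 h).1) _
    · exact ((measurable_one.indicator (measurableSet_excl ε (N + 1))).comp
        (measurable_consPh Z)).aemeasurable

theorem canSeq_excl (ν : Measure Ph) [IsProbabilityMeasure ν] {ε p : ℝ} (hp0 : 0 ≤ p)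
    (hp : ∀ y : E3, ν {z | ‖y - z.1‖ ≤ ε} ≤ ENNReal.ofReal p) :
    CanSeq (fun N => (Measure.pi fun _ : Fin N => ν).real (excl ε N)) p where
  zero := by
    have : excl ε 0 = univ := by
      ext Z
      simp [excl]
    simp [this]
  nonneg := fun N => measureReal_nonneg
  succ_le := fun N => by
    rw [measureReal_def, measureReal_def]
    refine ENNReal.toReal_mono (measure_ne_top _ _) ?_
    rw [pi_excl_succ ν ε N, ← lintegral_indicator_one (measurableSet_excl ε N)]
    refine lintegral_mono fun Z => ?_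
    refine indicator_le_indicator ?_
    exact prob_le_one
  le_succ := fun N => by
    rw [measureReal_def, measureReal_def]
    rcases le_or_gt (1 - (N : ℝ) * p) 0 with hneg | hpos
    · exact (mul_nonpos_of_nonpos_of_nonneg hneg ENNReal.toReal_nonneg).trans
        ENNReal.toReal_nonneg
    · rw [← ENNReal.toReal_ofReal hpos.le, ← ENNReal.toReal_mul]
      refine ENNReal.toReal_mono (measure_ne_top _ _) ?_
      rw [pi_excl_succ ν ε N, ← lintegral_indicator_one (measurableSet_excl ε N),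
        ← lintegral_const_mul _ (measurable_one.indicator (measurableSet_excl ε N))]
      refine lintegral_mono fun Z => ?_
      by_cases hZ : Z ∈ excl ε N
      · simp only [indicator_of_mem hZ]
        have hAm : MeasurableSet {z : Ph | ∃ j, ‖(Z j).1 - z.1‖ ≤ ε} := by
          have : {z : Ph | ∃ j, ‖(Z j).1 - z.1‖ ≤ ε} = ⋃ j, {z : Ph | ‖(Z j).1 - z.1‖ ≤ ε} := by
            ext z
            simp
          rw [this]
          exact MeasurableSet.iUnion fun j => measurableSet_le (by fun_prop) measurable_const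
        rw [prob_compl_eq_one_sub hAm]
        simp only [Pi.one_apply, mul_one]
        rw [ENNReal.ofReal_sub _ (mul_nonneg (Nat.cast_nonneg N) hp0), ENNReal.ofReal_one,
          ENNReal.ofReal_mul (Nat.cast_nonneg N), ENNReal.ofReal_natCast]
        exact tsub_le_tsub_left (measure_exists_near_le ν hp Z) 1
      · simp [indicator_of_notMem hZ]

/-- Lower bound on the probability of exclusion. -/
theorem CanSeq.exp_le {z : ℕ → ℝ} {p : ℝ} (h : CanSeq z p) (hp : 0 ≤ p) (N : ℕ)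
    (hN : N * p ≤ 1 / 2) : Real.exp (-(p * (N : ℝ) ^ 2)) ≤ z N := by
  induction N with
  | zero => simp [h.zero]
  | succ N ih =>
    have hN' : (N : ℝ) * p ≤ 1 / 2 := by
      push_cast at hN
      nlinarith
    have h1 := ih hN'
    have h2 := h.le_succ N
    have h3 : Real.exp (-(2 * (N * p))) ≤ 1 - N * p := by
      have hx0 : 0 ≤ (N : ℝ) * p := by positivity
      rw [Real.exp_neg]
      rw [inv_le_comm₀ (Real.exp_pos _) (by linarith)]
      have h4 := Real.add_one_le_exp (2 * ((N : ℝ) * p))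
      have h5 : (1 - (N : ℝ) * p)⁻¹ ≤ 2 * (N * p) + 1 := by
        rw [inv_le_comm₀ (by linarith) (by linarith)]
        rw [inv_le_iff_one_le_mul₀ (by linarith)]
        nlinarith
      linarith
    calc Real.exp (-(p * ((N + 1 : ℕ) : ℝ) ^ 2))
        ≤ Real.exp (-(2 * (N * p)) + -(p * (N : ℝ) ^ 2)) := by
          apply Real.exp_le_exp.2
          push_cast
          nlinarith
      _ = Real.exp (-(2 * (N * p))) * Real.exp (-(p * (N : ℝ) ^ 2)) := Real.exp_add _ _
      _ ≤ (1 - N * p) * z N := by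
          apply mul_le_mul h3 h1 (Real.exp_pos _).le (by linarith)
      _ ≤ z (N + 1) := h2

end Vale.Agent.P119
end

section

open MeasureTheory Filter Topology Set
open scoped ENNReal NNReal

noncomputable section

namespace Vale.Agent.P119

variable {n : ℕ}

/-! ### The virial function of a potential -/

/-- The virial function `y · ∇Φ(y)`. -/
def vir (Φ : E3 → ℝ) (y : E3) : ℝ := inner ℝ y (gradient Φ y)

theorem IsPotential.measurable {Φ : E3 → ℝ} (hΦ : IsPotential Φ) : Measurable Φ := by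
  rcases hΦ.regular with h | ⟨h, -, -⟩
  · exact h.continuous.measurable
  · exact measurable_of_continuousOn_compl_singleton 0 h.continuousOn

theorem measurable_gradient' (Φ : E3 → ℝ) : Measurable (gradient Φ) := by
  unfold gradient
  exact (LinearIsometryEquiv.continuous _).measurable.comp (measurable_fderiv ℝ Φ)

theorem measurable_vir (Φ : E3 → ℝ) : Measurable (vir Φ) := by
  unfold vir
  exact measurable_id.inner (measurable_gradient' Φ)

theorem IsPotential.differentiableAt {Φ : E3 → ℝ} (hΦ : IsPotential Φ) {y : E3} (hy : y ≠ 0) :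
    DifferentiableAt ℝ Φ y := by
  rcases hΦ.regular with h | ⟨h, -, -⟩
  · exact (h.differentiable (by norm_num)).differentiableAt
  · exact (h.contDiffAt (isOpen_compl_singleton.mem_nhds hy)).differentiableAt (by norm_num)

theorem vir_eq_zero {Φ : E3 → ℝ} (hv : ∀ x : E3, 1 ≤ ‖x‖ → Φ x = 0) {y : E3}
    (hd : DifferentiableAt ℝ Φ y) (hy : 1 ≤ ‖y‖) : vir Φ y = 0 := by
  unfold vir
  rw [real_inner_comm, inner_gradient_eq]
  have h1 : HasDerivAt (fun s : ℝ => Φ (y + s • y)) (fderiv ℝ Φ y y) 0 := by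
    have hc : HasDerivAt (fun s : ℝ => y + s • y) y 0 := by
      have := ((hasDerivAt_id (0 : ℝ)).smul_const y).const_add y
      simpa using this
    have hF : HasFDerivAt Φ (fderiv ℝ Φ y) (y + (0 : ℝ) • y) := by
      rw [zero_smul, add_zero]; exact hd.hasFDerivAt
    exact hF.comp_hasDerivAt 0 hc
  have h2 : HasDerivWithinAt (fun s : ℝ => Φ (y + s • y)) 0 (Ici 0) 0 := by
    refine (hasDerivWithinAt_const (0 : ℝ) (Ici (0 : ℝ)) (0 : ℝ)).congr (fun s hs => ?_) ?_
    · apply hv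
      have h3 : y + s • y = (1 + s) • y := by rw [add_smul, one_smul]
      rw [h3, norm_smul, Real.norm_eq_abs]
      have h4 : (0 : ℝ) ≤ s := hs
      rw [abs_of_nonneg (by linarith)]
      nlinarith
    · simp only [zero_smul, add_zero]
      exact hv y hy
  exact (uniqueDiffOn_Ici (0 : ℝ) 0 self_mem_Ici).eq_deriv _ h1.hasDerivWithinAt h2

theorem IsPotential.vir_eq_zero {Φ : E3 → ℝ} (hΦ : IsPotential Φ) {y : E3} (hy : 1 ≤ ‖y‖) :
    vir Φ y = 0 := by
  refine Vale.Agent.P119.vir_eq_zero hΦ.vanishing (hΦ.differentiableAt ?_) hy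
  intro h0
  rw [h0, norm_zero] at hy
  linarith

/-! ### Pair sums -/

theorem pairTot_scaled (V : E3 → ℝ) (ε : ℝ) (Z : Fin n → Ph) :
    pairTot V (scaled ε Z) = pairSum V ε Z := by
  unfold pairTot scaled pairSum
  simp_rw [smul_sub]

theorem potE_eq (Φ : E3 → ℝ) (ε : ℝ) (Z : Fin n → Ph) : potE Φ ε Z = pairSum Φ ε Z :=
  pairTot_scaled Φ ε Z

theorem virial_eq (Φ : E3 → ℝ) (ε : ℝ) (Z : Fin n → Ph) : virial Φ ε Z = pairSum (vir Φ) ε Z :=
  pairTot_scaled _ ε Z

theorem pairSum_lin (V W : E3 → ℝ) (α β ε : ℝ) (Z : Fin n → Ph) :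
    pairSum (fun y => α * V y + β * W y) ε Z = α * pairSum V ε Z + β * pairSum W ε Z := by
  unfold pairSum
  rw [Finset.mul_sum, Finset.mul_sum, ← Finset.sum_add_distrib]
  refine Finset.sum_congr rfl fun i _ => ?_
  rw [Finset.mul_sum, Finset.mul_sum, ← Finset.sum_add_distrib]

theorem pairSum_smul (V : E3 → ℝ) (α ε : ℝ) (Z : Fin n → Ph) :
    pairSum (fun y => α * V y) ε Z = α * pairSum V ε Z := by
  unfold pairSum
  rw [Finset.mul_sum]
  refine Finset.sum_congr rfl fun i _ => ?_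
  rw [Finset.mul_sum]

theorem measurable_pairSum {V : E3 → ℝ} (hV : Measurable V) (ε : ℝ) :
    Measurable fun Z : Fin n → Ph => pairSum V ε Z := by
  unfold pairSum
  refine Finset.measurable_sum _ fun i _ => Finset.measurable_sum _ fun j _ => ?_
  exact hV.comp (by fun_prop)

theorem continuous_pairSum {V : E3 → ℝ} (hV : Continuous V) (ε : ℝ) :
    Continuous fun Z : Fin n → Ph => pairSum V ε Z := by
  unfold pairSum
  refine continuous_finsetSum _ fun i _ => continuous_finsetSum _ fun j _ => ?_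
  exact hV.comp (by fun_prop)

theorem pairSum_bound {V : E3 → ℝ} {M : ℝ} (hM : ∀ x, |V x| ≤ M) (ε : ℝ) (Z : Fin n → Ph) :
    |pairSum V ε Z| ≤ (n : ℝ) ^ 2 * M := by
  have hM0 : 0 ≤ M := (abs_nonneg _).trans (hM 0)
  unfold pairSum
  refine (Finset.abs_sum_le_sum_abs _ _).trans ?_
  have h1 : ∀ i : Fin n, |∑ j ∈ Finset.Ioi i, V (ε⁻¹ • ((Z i).1 - (Z j).1))| ≤ n * M := by
    intro i
    refine (Finset.abs_sum_le_sum_abs _ _).trans ?_
    refine (Finset.sum_le_sum fun j _ => hM _).trans ?_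
    rw [Finset.sum_const, nsmul_eq_mul]
    apply mul_le_mul_of_nonneg_right _ hM0
    have h7 := Finset.card_le_univ (Finset.Ioi i)
    rw [Fintype.card_fin] at h7
    exact_mod_cast h7
  refine (Finset.sum_le_sum fun i _ => h1 i).trans ?_
  rw [Finset.sum_const, nsmul_eq_mul, Finset.card_univ, Fintype.card_fin]
  apply le_of_eq; ring

/-- The stability inequality with an explicit constant. -/
def StabC (V : E3 → ℝ) (B : ℝ) : Prop :=
  ∀ (n : ℕ) (x : Fin n → E3), Function.Injective x →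
    -(B * n) ≤ ∑ i, ∑ j ∈ Finset.Ioi i, V (x i - x j)

theorem StabC.lin {V W : E3 → ℝ} {B₁ B₂ α β : ℝ} (hV : StabC V B₁) (hW : StabC W B₂)
    (hα : 0 ≤ α) (hβ : 0 ≤ β) : StabC (fun y => α * V y + β * W y) (α * B₁ + β * B₂) := by
  intro n x hx
  have h1 : ∑ i, ∑ j ∈ Finset.Ioi i, (α * V (x i - x j) + β * W (x i - x j)) =
      α * ∑ i, ∑ j ∈ Finset.Ioi i, V (x i - x j) + β * ∑ i, ∑ j ∈ Finset.Ioi i, W (x i - x j) := by
    rw [Finset.mul_sum, Finset.mul_sum, ← Finset.sum_add_distrib]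
    refine Finset.sum_congr rfl fun i _ => ?_
    rw [Finset.mul_sum, Finset.mul_sum, ← Finset.sum_add_distrib]
  rw [h1]
  have h2 := mul_le_mul_of_nonneg_left (hV n x hx) hα
  have h3 := mul_le_mul_of_nonneg_left (hW n x hx) hβ
  linarith

theorem StabC.mono {V : E3 → ℝ} {B B' : ℝ} (hV : StabC V B) (h : B ≤ B') : StabC V B' := by
  intro n x hx
  have h1 := hV n x hx
  have h2 : B * n ≤ B' * n := mul_le_mul_of_nonneg_right h (Nat.cast_nonneg n)
  linarith

/-! ### Bounds for smooth potentials -/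

theorem continuous_gradient {Ψ : E3 → ℝ} (h : ContDiff ℝ 2 Ψ) : Continuous (gradient Ψ) := by
  unfold gradient
  exact (LinearIsometryEquiv.continuous _).comp (h.continuous_fderiv (by norm_num))

theorem continuous_vir {Ψ : E3 → ℝ} (h : ContDiff ℝ 2 Ψ) : Continuous (vir Ψ) := by
  unfold vir
  exact continuous_id.inner (continuous_gradient h)

theorem smooth_bounds {Ψ : E3 → ℝ} (h : ContDiff ℝ 2 Ψ) (hv : ∀ x : E3, 1 ≤ ‖x‖ → Ψ x = 0) :
    ∃ M : ℝ, 0 ≤ M ∧ (∀ x, |Ψ x| ≤ M) ∧ ∀ x, |vir Ψ x| ≤ M := by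
  obtain ⟨C, hC⟩ := h.continuous.bounded_above_of_compact_support (compactSupport_of_vanishing hv)
  have hv2 : ∀ x : E3, 1 ≤ ‖x‖ → vir Ψ x = 0 := fun x hx =>
    vir_eq_zero hv (h.differentiable (by norm_num)).differentiableAt hx
  obtain ⟨C', hC'⟩ := (continuous_vir h).bounded_above_of_compact_support
    (compactSupport_of_vanishing hv2)
  refine ⟨|C| + |C'|, by positivity, fun x => ?_, fun x => ?_⟩
  · have h1 := hC x
    rw [Real.norm_eq_abs] at h1
    have := le_abs_self C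
    have := abs_nonneg C'
    linarith
  · have h1 := hC' x
    rw [Real.norm_eq_abs] at h1
    have := le_abs_self C'
    have := abs_nonneg C
    linarith

/-- If two potentials coincide near all interparticle distances, the pair sums coincide. -/
theorem pairSum_congr_of_eventuallyEq {Φ Ψ : E3 → ℝ} {ε : ℝ} {Z : Fin n → Ph}
    (h : ∀ i j, i ≠ j → Ψ =ᶠ[𝓝 (ε⁻¹ • ((Z i).1 - (Z j).1))] Φ) :
    pairSum Ψ ε Z = pairSum Φ ε Z ∧ pairSum (vir Ψ) ε Z = pairSum (vir Φ) ε Z := by
  constructor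
  · unfold pairSum
    refine Finset.sum_congr rfl fun i _ => Finset.sum_congr rfl fun j hj => ?_
    exact (h i j (Finset.mem_Ioi.1 hj).ne).eq_of_nhds
  · unfold pairSum
    refine Finset.sum_congr rfl fun i _ => Finset.sum_congr rfl fun j hj => ?_
    unfold vir
    rw [(h i j (Finset.mem_Ioi.1 hj).ne).gradient_eq]

end Vale.Agent.P119
end
end

section

open MeasureTheory Filter Topology Set ProbabilityTheory
open scoped ENNReal NNReal RealInnerProductSpace

noncomputable section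

namespace Vale.Agent.P119

/-- The one-particle probability measure with density `f`. -/
def dens (f : Ph → ℝ) : Measure Ph := volume.withDensity fun z => ENNReal.ofReal (f z)

theorem dens_isProbability {f : Ph → ℝ} (h0 : ∀ z, 0 ≤ f z) (hint : Integrable f)
    (h1 : ∫ z, f z = 1) : IsProbabilityMeasure (dens f) := by
  constructor
  unfold dens
  rw [withDensity_apply _ MeasurableSet.univ, Measure.restrict_univ,
    ← ofReal_integral_eq_lintegral_ofReal hint (Eventually.of_forall h0), h1, ENNReal.ofReal_one]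

/-- The product of the measures `f dz` has density `∏ f(z_i)`. -/
theorem pi_dens {n : ℕ} {f : Ph → ℝ} (h0 : ∀ z, 0 ≤ f z)
    (hint : Integrable f) (h1 : ∫ z, f z = 1) :
    Measure.pi (fun _ : Fin n => dens f) =
      (volume : Measure (Fin n → Ph)).withDensity fun Z => ENNReal.ofReal (∏ i, f (Z i)) := by
  have := dens_isProbability h0 hint h1
  refine Measure.pi_eq fun s hs => ?_
  rw [withDensity_apply _ (MeasurableSet.univ_pi hs)]
  have e1 : ∫⁻ Z in univ.pi s, ENNReal.ofReal (∏ i, f (Z i)) =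
      ∫⁻ Z : Fin n → Ph, ENNReal.ofReal (∏ i, (s i).indicator f (Z i)) := by
    rw [← lintegral_indicator (MeasurableSet.univ_pi hs)]
    refine lintegral_congr fun Z => ?_
    by_cases hZ : Z ∈ univ.pi s
    · rw [indicator_of_mem hZ]
      congr 1
      refine Finset.prod_congr rfl fun i _ => ?_
      rw [indicator_of_mem (hZ i (mem_univ i))]
    · rw [indicator_of_notMem hZ]
      rw [mem_univ_pi, not_forall] at hZ
      obtain ⟨i, hi⟩ := hZ
      rw [Finset.prod_eq_zero (Finset.mem_univ i) (indicator_of_notMem hi f), ENNReal.ofReal_zero]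
  rw [e1]
  have hint' : ∀ i, Integrable ((s i).indicator f) := fun i => hint.indicator (hs i)
  have h0' : ∀ i z, 0 ≤ (s i).indicator f z := fun i z => indicator_nonneg (fun z _ => h0 z) z
  rw [← ofReal_integral_eq_lintegral_ofReal]
  · rw [integral_fintype_prod_volume_eq_prod (fun i => (s i).indicator f),
      ENNReal.ofReal_prod_of_nonneg fun i _ => integral_nonneg (h0' i)]
    refine Finset.prod_congr rfl fun i _ => ?_
    unfold dens
    rw [withDensity_apply _ (hs i), integral_indicator (hs i),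
      ← ofReal_integral_eq_lintegral_ofReal hint.integrableOn (Eventually.of_forall h0)]
  · exact Integrable.fintype_prod (f := fun i => (s i).indicator f) (fun i => hint' i)
  · exact Eventually.of_forall fun Z => Finset.prod_nonneg fun i _ => h0' i _

section blocks

variable {ν : Measure Ph} [IsProbabilityMeasure ν]

theorem map_comp_pi {ι ι' : Type*} [Fintype ι] [Fintype ι'] {J : ι' → ι}
    (hJ : Function.Injective J) :
    (Measure.pi fun _ : ι => ν).map (fun Z r => Z (J r)) = Measure.pi fun _ : ι' => ν := by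
  have h1 : iIndepFun (fun (i : ι) (Z : ι → Ph) => Z i) (Measure.pi fun _ : ι => ν) :=
    iIndepFun_pi (X := fun _ z => z) fun _ => aemeasurable_id
  have h2 := h1.precomp hJ
  have h3 := h2.map_fun_eq_pi_map fun r => (measurable_pi_apply (J r)).aemeasurable
  refine h3.trans ?_
  congr 1
  funext r
  exact (measurePreserving_eval (fun _ : ι => ν) (J r)).map_eq

theorem map_blocks {n m s : ℕ} {J : Fin m × Fin s → Fin n} (hJ : Function.Injective J) :
    (Measure.pi fun _ : Fin n => ν).map (fun Z (j : Fin m) (r : Fin s) => Z (J (j, r))) =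
      Measure.pi fun _ : Fin m => Measure.pi fun _ : Fin s => ν := by
  have h1 := map_comp_pi (ν := ν) hJ
  have h2 := Measure.infinitePi_map_curry (fun (_ : Fin m) (_ : Fin s) => ν)
  simp_rw [Measure.infinitePi_eq_pi] at h2
  rw [← h1] at h2
  rw [Measure.map_map (MeasurableEquiv.measurable _) (by fun_prop)] at h2
  exact h2

/-- Exponential moment of a block average. -/
theorem exp_blocks {n m s : ℕ} {J : Fin m × Fin s → Fin n} (hJ : Function.Injective J)
    {a : (Fin s → Ph) → ℝ} (ha : Measurable a) (ha1 : ∀ z, |a z| ≤ 1) {θ : ℝ} (hθ0 : 0 ≤ θ)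
    (hθ1 : θ ≤ 1) :
    ∫ Z, Real.exp (θ * ∑ j, a (fun r => Z (J (j, r)))) ∂(Measure.pi fun _ : Fin n => ν) ≤
      Real.exp (m * (θ * ∫ z, a z ∂(Measure.pi fun _ : Fin s => ν) + θ ^ 2)) := by
  have hmeas : Measurable fun (Z : Fin n → Ph) (j : Fin m) (r : Fin s) => Z (J (j, r)) := by
    fun_prop
  have e1 : ∫ Z, Real.exp (θ * ∑ j, a (fun r => Z (J (j, r)))) ∂(Measure.pi fun _ : Fin n => ν)
      = ∫ W : Fin m → Fin s → Ph, ∏ j, Real.exp (θ * a (W j))
        ∂(Measure.pi fun _ : Fin m => Measure.pi fun _ : Fin s => ν) := by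
    rw [← map_blocks hJ, integral_map hmeas.aemeasurable]
    · refine integral_congr_ae (Eventually.of_forall fun Z => ?_)
      simp only
      rw [← Real.exp_sum, Finset.mul_sum]
    · apply Measurable.aestronglyMeasurable
      fun_prop
  rw [e1, integral_fintype_prod_eq_pow (fun w => Real.exp (θ * a w)), Fintype.card_fin,
    Real.exp_nat_mul]
  have hb : ∀ z, |θ * a z| ≤ 1 := fun z => by
    rw [abs_mul, abs_of_nonneg hθ0]
    calc θ * |a z| ≤ 1 * 1 := mul_le_mul hθ1 (ha1 z) (abs_nonneg _) zero_le_one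
      _ = 1 := one_mul 1
  have hint : Integrable (fun z => Real.exp (θ * a z)) (Measure.pi fun _ : Fin s => ν) := by
    refine Integrable.of_bound (C := Real.exp 1) (by
      apply Measurable.aestronglyMeasurable; fun_prop) (Eventually.of_forall fun z => ?_)
    rw [Real.norm_eq_abs, abs_of_pos (Real.exp_pos _)]
    exact Real.exp_le_exp.2 ((le_abs_self _).trans (hb z))
  have hinta : Integrable a (Measure.pi fun _ : Fin s => ν) :=
    Integrable.of_bound (C := 1) ha.aestronglyMeasurable (Eventually.of_forall ha1)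
  apply pow_le_pow_left₀ (integral_nonneg fun z => (Real.exp_pos _).le)
  calc ∫ z, Real.exp (θ * a z) ∂(Measure.pi fun _ : Fin s => ν)
      ≤ ∫ z, (1 + θ * a z + θ ^ 2) ∂(Measure.pi fun _ : Fin s => ν) := by
        refine integral_mono hint (((integrable_const _).add (hinta.const_mul _)).add
          (integrable_const _)) fun z => ?_
        have h1 := Real.abs_exp_sub_one_sub_id_le (hb z)
        have h2 := (abs_le.1 h1).2
        have h3 : (θ * a z) ^ 2 ≤ θ ^ 2 := by
          rw [mul_pow]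
          have h4 : a z ^ 2 ≤ 1 := by
            rw [← sq_abs]
            have := ha1 z
            have := abs_nonneg (a z)
            nlinarith
          nlinarith [sq_nonneg θ]
        simp only
        linarith
    _ = 1 + (θ * ∫ z, a z ∂(Measure.pi fun _ : Fin s => ν) + θ ^ 2) := by
        have i1 : Integrable (fun z => θ * a z) (Measure.pi fun _ : Fin s => ν) :=
          hinta.const_mul _
        have i2 : Integrable (fun z => 1 + θ * a z) (Measure.pi fun _ : Fin s => ν) :=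
          (integrable_const _).add i1
        rw [integral_add (f := fun z => 1 + θ * a z) (g := fun _ => θ ^ 2) i2
          (integrable_const _), integral_add (f := fun _ => (1 : ℝ)) (g := fun z => θ * a z)
          (integrable_const _) i1, integral_const_mul]
        simp
        ring
    _ ≤ Real.exp (θ * ∫ z, a z ∂(Measure.pi fun _ : Fin s => ν) + θ ^ 2) := by
        rw [add_comm]; exact Real.add_one_le_exp _

end blocks

/-! ### Averaging over permutations -/

theorem perm_average {n s : ℕ} (F : (Fin s ↪ Fin n) → ℝ) (I₀ : Fin s ↪ Fin n) :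
    (Fintype.card (Fin s ↪ Fin n) : ℝ) * ∑ σ : Equiv.Perm (Fin n), F (I₀.trans σ.toEmbedding) =
      (Fintype.card (Equiv.Perm (Fin n)) : ℝ) * ∑ I : Fin s ↪ Fin n, F I := by
  classical
  -- constant fibre size
  have hfib : ∀ I : Fin s ↪ Fin n,
      (Finset.univ.filter fun σ : Equiv.Perm (Fin n) => I₀.trans σ.toEmbedding = I).card =
      (Finset.univ.filter fun σ : Equiv.Perm (Fin n) => I₀.trans σ.toEmbedding = I₀).card := by
    intro I
    obtain ⟨τ, hτ⟩ : ∃ τ : Equiv.Perm (Fin n), I₀.trans τ.toEmbedding = I := by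
      obtain ⟨g, hg⟩ := (Equiv.Perm.isMultiplyPretransitive (Fin n) s).exists_smul_eq I₀ I
      refine ⟨g, ?_⟩
      rw [← hg]
      ext r
      rfl
    refine Finset.card_bij' (fun σ _ => τ⁻¹ * σ) (fun σ _ => τ * σ) ?_ ?_ ?_ ?_
    · intro σ hσ
      simp only [Finset.mem_filter, Finset.mem_univ, true_and] at hσ ⊢
      ext r
      have h1 : σ (I₀ r) = I r := by rw [← hσ]; rfl
      have h2 : τ (I₀ r) = I r := by rw [← hτ]; rfl
      change ((τ⁻¹ (σ (I₀ r)) : Fin n) : ℕ) = (I₀ r : ℕ)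
      rw [h1, ← h2]
      simp
    · intro σ hσ
      simp only [Finset.mem_filter, Finset.mem_univ, true_and] at hσ ⊢
      ext r
      have h1 : σ (I₀ r) = I₀ r := congrArg (fun J : Fin s ↪ Fin n => J r) hσ
      have h2 : τ (I₀ r) = I r := by rw [← hτ]; rfl
      change ((τ (σ (I₀ r)) : Fin n) : ℕ) = (I r : ℕ)
      rw [h1, h2]
    · intro σ _; simp
    · intro σ _; simp
  set c := (Finset.univ.filter fun σ : Equiv.Perm (Fin n) =>
    I₀.trans σ.toEmbedding = I₀).card with hc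
  have hsum : ∀ G : (Fin s ↪ Fin n) → ℝ,
      ∑ σ : Equiv.Perm (Fin n), G (I₀.trans σ.toEmbedding) = c * ∑ I : Fin s ↪ Fin n, G I := by
    intro G
    rw [← Finset.sum_fiberwise Finset.univ
      (fun σ : Equiv.Perm (Fin n) => I₀.trans σ.toEmbedding)]
    rw [Finset.mul_sum]
    refine Finset.sum_congr rfl fun I _ => ?_
    rw [Finset.sum_congr rfl (g := fun _ => G I)]
    · rw [Finset.sum_const, hfib I, nsmul_eq_mul]
    · intro σ hσ
      rw [(Finset.mem_filter.1 hσ).2]
  have h1 := hsum fun _ => 1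
  simp only [Finset.sum_const, Finset.card_univ, nsmul_eq_mul, mul_one] at h1
  rw [hsum F, h1]
  ring

end Vale.Agent.P119
end
end

section

open MeasureTheory Filter Topology Set
open scoped ENNReal NNReal

noncomputable section

namespace Vale.Agent.P119

variable {n : ℕ}

/-- The coefficients of a global Maxwellian. -/
structure Par where
  a : ℝ
  b : ℝ
  c : ℝ
  k : ℝ
  p : E3
  q : E3
  Ω : E3 →L[ℝ] E3

/-- The coefficient `b_t` of the velocity square in `q_t`. -/
def Par.bt (P : Par) (t : ℝ) : ℝ := P.a * t ^ 2 + 2 * P.c * t + P.b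

/-- `Σ_i q_t(z_i)`. -/
def Par.qs (P : Par) (t : ℝ) (Z : Fin n → Ph) : ℝ := quadSum P.a P.b P.c P.k P.p P.q P.Ω t Z

/-- The free transport of the datum. -/
def Par.ft (P : Par) (t : ℝ) (z : Ph) : ℝ :=
  Real.exp (-quad P.a P.b P.c P.k P.p P.q P.Ω (z.1 - t • z.2) z.2)

/-- The average of a test function of `s` particles under the tensorized kinetic density. -/
def Par.avg (P : Par) (t : ℝ) {s : ℕ} (g : (Fin s → Ph) → ℝ) : ℝ :=
  ∫ z, g z * ∏ r, P.ft t (z r)

/-- The assumptions on the datum used in the canonical estimate. -/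
structure Par.Good (P : Par) (T κ : ℝ) : Prop where
  a_nonneg : 0 ≤ P.a
  b_pos : 0 < P.b
  c_nonneg : 0 ≤ P.c
  skew : ∀ w, inner ℝ w (P.Ω w) = 0
  T_nonneg : 0 ≤ T
  κ_nonneg : 0 ≤ κ
  int : ∀ t ∈ Icc 0 T, Integrable (P.ft t)
  one : ∀ t ∈ Icc 0 T, ∫ z, P.ft t z = 1
  ball : ∀ t ∈ Icc 0 T, ∀ ε : ℝ, 0 < ε → ∀ y : E3,
    law (P.ft t) {z | ‖y - z.1‖ ≤ ε} ≤ ENNReal.ofReal (κ * ε ^ 3)

theorem Par.ft_pos (P : Par) (t : ℝ) (z : Ph) : 0 < P.ft t z := Real.exp_pos _

theorem Par.continuous_ft (P : Par) (t : ℝ) : Continuous (P.ft t) := by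
  unfold Par.ft quad
  fun_prop

theorem Par.continuous_qs (P : Par) (t : ℝ) : Continuous fun Z : Fin n → Ph => P.qs t Z := by
  unfold Par.qs quadSum quad
  fun_prop

theorem Par.prod_ft (P : Par) (t : ℝ) (Z : Fin n → Ph) :
    ∏ i, P.ft t (Z i) = Real.exp (-P.qs t Z) := by
  unfold Par.ft Par.qs quadSum
  rw [← Real.exp_sum, Finset.sum_neg_distrib]

section

variable {P : Par} {T κ : ℝ}

theorem Par.Good.pi_law (h : P.Good T κ) {t : ℝ} (ht : t ∈ Icc 0 T) :
    Measure.pi (fun _ : Fin n => law (P.ft t)) =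
      (volume : Measure (Fin n → Ph)).withDensity
        fun Z => ENNReal.ofReal (Real.exp (-P.qs t Z)) := by
  have h1 := pi_dens (n := n) (f := P.ft t) (fun z => (P.ft_pos t z).le) (h.int t ht) (h.one t ht)
  simp_rw [P.prod_ft] at h1
  exact h1

theorem Par.Good.prob (h : P.Good T κ) {t : ℝ} (ht : t ∈ Icc 0 T) :
    IsProbabilityMeasure (law (P.ft t)) :=
  isProbabilityMeasure_law (fun z => (P.ft_pos t z).le) (h.int t ht) (h.one t ht)

theorem Par.Good.lintegral_pi (h : P.Good T κ) {t : ℝ} (ht : t ∈ Icc 0 T)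
    {G : (Fin n → Ph) → ℝ≥0∞} (hG : Measurable G) :
    ∫⁻ Z, G Z ∂(Measure.pi fun _ : Fin n => law (P.ft t)) =
      ∫⁻ Z : Fin n → Ph, ENNReal.ofReal (Real.exp (-P.qs t Z)) * G Z := by
  rw [h.pi_law ht]
  have hm : Measurable fun Z : Fin n → Ph => ENNReal.ofReal (Real.exp (-P.qs t Z)) := by
    have := (P.continuous_qs (n := n) t).measurable
    fun_prop
  rw [lintegral_withDensity_eq_lintegral_mul _ hm hG]
  rfl

theorem Par.Good.null (h : P.Good T κ) {t : ℝ} (ht : t ∈ Icc 0 T) (y : E3) :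
    law (P.ft t) {z | z.1 = y} = 0 := by
  by_contra hne
  have h1 : ∀ ε : ℝ, 0 < ε → law (P.ft t) {z | z.1 = y} ≤ ENNReal.ofReal (κ * ε ^ 3) := by
    intro ε hε
    refine (measure_mono fun z hz => ?_).trans (h.ball t ht ε hε y)
    have hz' : z.1 = y := hz
    change ‖y - z.1‖ ≤ ε
    rw [hz', sub_self, norm_zero]
    exact hε.le
  have h2 : Tendsto (fun ε : ℝ => ENNReal.ofReal (κ * ε ^ 3)) (𝓝[>] 0) (𝓝 0) := by
    have hc : Continuous fun ε : ℝ => ENNReal.ofReal (κ * ε ^ 3) :=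
      ENNReal.continuous_ofReal.comp (by fun_prop)
    have := hc.tendsto 0
    simp only [ne_eq, OfNat.ofNat_ne_zero, not_false_eq_true, zero_pow, mul_zero,
      ENNReal.ofReal_zero] at this
    exact this.mono_left nhdsWithin_le_nhds
  have h3 := ge_of_tendsto h2 (by
    filter_upwards [self_mem_nhdsWithin] with ε hε using h1 ε hε)
  exact hne (le_antisymm h3 zero_le)

/-- The bound on configuration integrals. -/
theorem Par.Good.weight_pair (h : P.Good T κ) {t : ℝ} (ht : t ∈ Icc 0 T) {V : E3 → ℝ} {B ε : ℝ}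
    (hB : 0 ≤ B) (hV : ∀ x : E3, 1 ≤ ‖x‖ → V x = 0) (hs : StabC V B)
    (hε : 0 < ε) :
    ∫⁻ Z, ENNReal.ofReal (Real.exp (-pairSum V ε Z))
        ∂(Measure.pi fun _ : Fin n => law (P.ft t)) ≤
      ENNReal.ofReal (Real.exp (κ * ε ^ 3 * Real.exp (126 * B) * (n : ℝ) ^ 2)) := by
  have := h.prob ht
  exact lintegral_exp_neg_pairSum hB hV hs (law (P.ft t)) (h.null ht) hε
    (mul_nonneg h.κ_nonneg (by positivity)) (h.ball t ht ε hε) n

theorem Par.Good.weight_pair' (h : P.Good T κ) {t : ℝ} (ht : t ∈ Icc 0 T) {V : E3 → ℝ} {B ε : ℝ}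
    (hB : 0 ≤ B) (hV : ∀ x : E3, 1 ≤ ‖x‖ → V x = 0) (hVm : Measurable V) (hs : StabC V B)
    (hε : 0 < ε) :
    ∫⁻ Z : Fin n → Ph, ENNReal.ofReal (Real.exp (-pairSum V ε Z - P.qs t Z)) ≤
      ENNReal.ofReal (Real.exp (κ * ε ^ 3 * Real.exp (126 * B) * (n : ℝ) ^ 2)) := by
  have hm := measurable_pairSum (n := n) hVm ε
  have h1 := h.weight_pair (n := n) ht hB hV hs hε
  rw [h.lintegral_pi ht (by fun_prop)] at h1
  refine le_trans (le_of_eq (lintegral_congr fun Z => ?_)) h1
  rw [← ENNReal.ofReal_mul (Real.exp_pos _).le, ← Real.exp_add]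
  congr 2
  ring

/-- The bound on configuration integrals with a block average. -/
theorem Par.Good.weight_block (h : P.Good T κ) {t : ℝ} (ht : t ∈ Icc 0 T) {V : E3 → ℝ} {B ε : ℝ}
    (hB : 0 ≤ B) (hV : ∀ x : E3, 1 ≤ ‖x‖ → V x = 0) (hVm : Measurable V)
    (hs : StabC (fun y => 2 * V y) B) (hε : 0 < ε)
    {m s : ℕ} {J : Fin m × Fin s → Fin n} (hJ : Function.Injective J)
    {g : (Fin s → Ph) → ℝ} (hg : Measurable g) (hg1 : ∀ z, |g z| ≤ 1) {θ : ℝ} (hθ0 : 0 ≤ θ)
    (hθ1 : θ ≤ 1 / 2) :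
    ∫⁻ Z : Fin n → Ph, ENNReal.ofReal
        (Real.exp (θ * ∑ j, g (fun r => Z (J (j, r))) - pairSum V ε Z - P.qs t Z)) ≤
      ENNReal.ofReal (Real.exp (m * (θ * P.avg t g + 2 * θ ^ 2) +
        κ * ε ^ 3 * Real.exp (126 * B) * (n : ℝ) ^ 2 / 2)) := by
  have hprob := h.prob ht
  have hm := measurable_pairSum (n := n) hVm ε
  have hgm : Measurable fun Z : Fin n → Ph => θ * ∑ j, g (fun r => Z (J (j, r))) := by
    fun_prop
  set F : (Fin n → Ph) → ℝ≥0∞ := fun Z =>
    ENNReal.ofReal (Real.exp (θ * ∑ j, g (fun r => Z (J (j, r))))) with hF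
  set G : (Fin n → Ph) → ℝ≥0∞ := fun Z => ENNReal.ofReal (Real.exp (-pairSum V ε Z)) with hG
  have hFm : Measurable F := (Real.measurable_exp.comp hgm).ennreal_ofReal
  have hGm : Measurable G := (Real.measurable_exp.comp hm.neg).ennreal_ofReal
  have e1 : ∫⁻ Z : Fin n → Ph, ENNReal.ofReal
        (Real.exp (θ * ∑ j, g (fun r => Z (J (j, r))) - pairSum V ε Z - P.qs t Z)) =
      ∫⁻ Z, (F * G) Z
        ∂(Measure.pi fun _ : Fin n => law (P.ft t)) := by
    rw [h.lintegral_pi ht (hFm.mul hGm)]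
    refine lintegral_congr fun Z => ?_
    rw [Pi.mul_apply, hF, hG]
    simp only
    rw [← ENNReal.ofReal_mul (Real.exp_pos _).le,
      ← ENNReal.ofReal_mul (Real.exp_pos _).le, ← Real.exp_add, ← Real.exp_add]
    congr 2
    ring
  rw [e1]
  have hCS := ENNReal.lintegral_mul_le_Lp_mul_Lq
    (Measure.pi fun _ : Fin n => law (P.ft t)) Real.HolderConjugate.two_two
    hFm.aemeasurable hGm.aemeasurable
  refine hCS.trans ?_
  simp only [hF, hG]
  have hpow : ∀ x : ℝ, (ENNReal.ofReal (Real.exp x)) ^ (2 : ℝ) =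
      ENNReal.ofReal (Real.exp (2 * x)) := by
    intro x
    rw [ENNReal.ofReal_rpow_of_pos (Real.exp_pos _), ← Real.exp_mul, mul_comm]
  simp_rw [hpow]
  have hA : ∫⁻ Z, ENNReal.ofReal (Real.exp (2 * (θ * ∑ j, g (fun r => Z (J (j, r))))))
        ∂(Measure.pi fun _ : Fin n => law (P.ft t)) ≤
      ENNReal.ofReal (Real.exp (m * (2 * θ * P.avg t g + (2 * θ) ^ 2))) := by
    have h2 := exp_blocks (ν := law (P.ft t)) hJ hg hg1 (θ := 2 * θ) (by linarith) (by linarith)
    have h3 : ∫ z, g z ∂(Measure.pi fun _ : Fin s => law (P.ft t)) = P.avg t g := by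
      unfold Par.avg
      rw [h.pi_law ht, integral_withDensity_eq_integral_toReal_smul]
      · refine integral_congr_ae (Eventually.of_forall fun z => ?_)
        simp only [smul_eq_mul]
        rw [ENNReal.toReal_ofReal (Real.exp_pos _).le, P.prod_ft, mul_comm]
      · have := (P.continuous_qs (n := s) t).measurable
        fun_prop
      · exact Eventually.of_forall fun _ => ENNReal.ofReal_lt_top
    rw [h3] at h2
    have hint : Integrable (fun Z : Fin n → Ph =>
        Real.exp (2 * θ * ∑ j, g (fun r => Z (J (j, r)))))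
        (Measure.pi fun _ : Fin n => law (P.ft t)) := by
      refine Integrable.of_bound (C := Real.exp (2 * θ * m)) (by
        apply Measurable.aestronglyMeasurable; fun_prop) (Eventually.of_forall fun Z => ?_)
      rw [Real.norm_eq_abs, abs_of_pos (Real.exp_pos _)]
      apply Real.exp_le_exp.2
      apply mul_le_mul_of_nonneg_left _ (by linarith)
      calc ∑ j, g (fun r => Z (J (j, r))) ≤ ∑ _j : Fin m, (1 : ℝ) :=
            Finset.sum_le_sum fun j _ => (le_abs_self _).trans (hg1 _)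
        _ = m := by simp
    have h4 : ∫⁻ Z, ENNReal.ofReal (Real.exp (2 * (θ * ∑ j, g (fun r => Z (J (j, r))))))
        ∂(Measure.pi fun _ : Fin n => law (P.ft t)) = ENNReal.ofReal
        (∫ Z, Real.exp (2 * θ * ∑ j, g (fun r => Z (J (j, r))))
        ∂(Measure.pi fun _ : Fin n => law (P.ft t))) := by
      rw [ofReal_integral_eq_lintegral_ofReal hint (Eventually.of_forall fun _ =>
        (Real.exp_pos _).le)]
      simp_rw [mul_assoc]
    rw [h4]
    exact ENNReal.ofReal_le_ofReal h2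
  have hB' : ∫⁻ Z, ENNReal.ofReal (Real.exp (2 * -pairSum V ε Z))
        ∂(Measure.pi fun _ : Fin n => law (P.ft t)) ≤
      ENNReal.ofReal (Real.exp (κ * ε ^ 3 * Real.exp (126 * B) * (n : ℝ) ^ 2)) := by
    have h2 := h.weight_pair (n := n) ht hB (V := fun y => 2 * V y)
      (fun x hx => by simp only [hV x hx, mul_zero]) hs hε
    simp_rw [pairSum_smul] at h2
    have h3 : ∀ Z : Fin n → Ph, 2 * -pairSum V ε Z = -(2 * pairSum V ε Z) := fun Z => by ring
    simp_rw [h3]
    exact h2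
  have hroot : ∀ x : ℝ, (ENNReal.ofReal (Real.exp x)) ^ ((1 : ℝ) / 2) =
      ENNReal.ofReal (Real.exp (x / 2)) := by
    intro x
    rw [ENNReal.ofReal_rpow_of_pos (Real.exp_pos _), ← Real.exp_mul]
    congr 2; ring
  calc (∫⁻ Z, ENNReal.ofReal (Real.exp (2 * (θ * ∑ j, g (fun r => Z (J (j, r))))))
        ∂(Measure.pi fun _ : Fin n => law (P.ft t))) ^ ((1 : ℝ) / 2) *
      (∫⁻ Z, ENNReal.ofReal (Real.exp (2 * -pairSum V ε Z))
        ∂(Measure.pi fun _ : Fin n => law (P.ft t))) ^ ((1 : ℝ) / 2)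
      ≤ (ENNReal.ofReal (Real.exp
          (m * (2 * θ * P.avg t g + (2 * θ) ^ 2)))) ^ ((1 : ℝ) / 2) *
        (ENNReal.ofReal (Real.exp (κ * ε ^ 3 * Real.exp (126 * B) * (n : ℝ) ^ 2)))
          ^ ((1 : ℝ) / 2) := by
        gcongr
    _ = _ := by
        rw [hroot, hroot, ← ENNReal.ofReal_mul (Real.exp_pos _).le, ← Real.exp_add]
        congr 2
        ring

end

end Vale.Agent.P119
end
end

section

open MeasureTheory Filter Topology Set
open scoped ENNReal NNReal

noncomputable section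

namespace Vale.Agent.P119

/-- The Gibbs variational inequality along a map which does not increase the measure. -/
theorem jensen_gibbs {Ω : Type*} [MeasurableSpace Ω] {ν : Measure Ω} {D : Set Ω}
    (hD : MeasurableSet D) {S : Ω → Ω} (hS : Measurable S) (hmap : ν.map S ≤ ν)
    {L0 H g : Ω → ℝ} (hL0 : Measurable L0) (hH : Measurable H)
    {C : ℝ} (hgb : ∀ z ∈ D, |g z| ≤ C) (hrel : ∀ z ∈ D, g z = H (S z) + L0 z)
    {ZE : ℝ} (hZE : 0 < ZE)
    (hZ : ∫⁻ z in D, ENNReal.ofReal (Real.exp (-L0 z)) ∂ν = ENNReal.ofReal ZE)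
    {W : ℝ} (hW0 : 0 < W) (hW : ∫⁻ z, ENNReal.ofReal (Real.exp (H z)) ∂ν ≤ ENNReal.ofReal W) :
    (∫ z in D, g z * Real.exp (-L0 z) ∂ν) / ZE ≤ Real.log (W / ZE) := by
  set ρ : Ω → ℝ≥0∞ := fun z => ENNReal.ofReal (Real.exp (-L0 z)) with hρ
  have hρm : Measurable ρ := by fun_prop
  set P : Measure Ω := (ENNReal.ofReal ZE)⁻¹ • (ν.restrict D).withDensity ρ with hP
  have hZE' : ENNReal.ofReal ZE ≠ 0 := by simpa using hZE
  have hprob : IsProbabilityMeasure P := by
    constructor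
    rw [hP, Measure.smul_apply, withDensity_apply _ MeasurableSet.univ, Measure.restrict_univ,
      hρ, hZ, smul_eq_mul]
    exact ENNReal.inv_mul_cancel hZE' ENNReal.ofReal_ne_top
  set g' : Ω → ℝ := fun z => H (S z) + L0 z with hg'
  have hg'm : Measurable g' := (hH.comp hS).add hL0
  have hae : ∀ᵐ z ∂P, z ∈ D := by
    have h1 : (ν.restrict D).withDensity ρ ≪ ν.restrict D := withDensity_absolutelyContinuous _ _
    have h2 : ∀ᵐ z ∂(ν.restrict D), z ∈ D := ae_restrict_mem hD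
    have h3 : ∀ᵐ z ∂((ν.restrict D).withDensity ρ), z ∈ D := h1.ae_le h2
    exact Measure.ae_smul_measure h3 _
  have hb : ∀ᵐ z ∂P, ‖g' z‖ ≤ C := by
    filter_upwards [hae] with z hz
    rw [Real.norm_eq_abs]
    change |H (S z) + L0 z| ≤ C
    rw [← hrel z hz]
    exact hgb z hz
  have hint : Integrable g' P := Integrable.of_bound hg'm.aestronglyMeasurable C hb
  have hexpm : Measurable fun z => Real.exp (g' z) := Real.measurable_exp.comp hg'm
  have hexpint : Integrable (fun z => Real.exp (g' z)) P := by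
    refine Integrable.of_bound hexpm.aestronglyMeasurable (Real.exp C) ?_
    filter_upwards [hb] with z hz
    rw [Real.norm_eq_abs, abs_of_pos (Real.exp_pos _)]
    exact Real.exp_le_exp.2 ((le_abs_self _).trans hz)
  have hjensen : Real.exp (∫ z, g' z ∂P) ≤ ∫ z, Real.exp (g' z) ∂P :=
    convexOn_exp.map_integral_le Real.continuous_exp.continuousOn isClosed_univ
      (Eventually.of_forall fun _ => mem_univ _) hint hexpint
  have hbound : ∫ z, Real.exp (g' z) ∂P ≤ W / ZE := by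
    have h1 : ∫⁻ z, ENNReal.ofReal (Real.exp (g' z)) ∂P ≤ ENNReal.ofReal (W / ZE) := by
      rw [hP, lintegral_smul_measure, lintegral_withDensity_eq_lintegral_mul _ hρm (by fun_prop)]
      have h2 : ∫⁻ z in D, (ρ * fun z => ENNReal.ofReal (Real.exp (g' z))) z ∂ν ≤
          ENNReal.ofReal W := by
        calc ∫⁻ z in D, (ρ * fun z => ENNReal.ofReal (Real.exp (g' z))) z ∂ν
            = ∫⁻ z in D, ENNReal.ofReal (Real.exp (H (S z))) ∂ν := by
              refine lintegral_congr fun z => ?_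
              simp only [hρ, Pi.mul_apply, hg']
              rw [← ENNReal.ofReal_mul (Real.exp_pos _).le, ← Real.exp_add]
              congr 2; ring
          _ ≤ ∫⁻ z, ENNReal.ofReal (Real.exp (H (S z))) ∂ν := setLIntegral_le_lintegral _ _
          _ = ∫⁻ z, ENNReal.ofReal (Real.exp (H z)) ∂(ν.map S) := by
              rw [lintegral_map (by fun_prop) hS]
          _ ≤ ∫⁻ z, ENNReal.ofReal (Real.exp (H z)) ∂ν := lintegral_mono' hmap le_rfl
          _ ≤ ENNReal.ofReal W := hW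
      rw [smul_eq_mul, ENNReal.ofReal_div_of_pos hZE, ENNReal.div_eq_inv_mul]
      exact mul_le_mul_right h2 _
    rw [← ENNReal.ofReal_le_ofReal_iff (by positivity),
      ofReal_integral_eq_lintegral_ofReal hexpint (Eventually.of_forall fun z =>
        (Real.exp_pos _).le)]
    exact h1
  have hfin : ∫ z, g' z ∂P = (∫ z in D, g z * Real.exp (-L0 z) ∂ν) / ZE := by
    rw [hP, integral_smul_measure, integral_withDensity_eq_integral_toReal_smul hρm
      (Eventually.of_forall fun z => ENNReal.ofReal_lt_top)]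
    rw [ENNReal.toReal_inv, ENNReal.toReal_ofReal hZE.le, smul_eq_mul, div_eq_inv_mul]
    congr 1
    refine setIntegral_congr_fun hD fun z hz => ?_
    simp only [hρ, hg']
    rw [ENNReal.toReal_ofReal (Real.exp_pos _).le, smul_eq_mul, ← hrel z hz, mul_comm]
  rw [← hfin]
  rw [Real.le_log_iff_exp_le (by positivity)]
  exact hjensen.trans hbound

/-- Gronwall in the form used for the entropy functional. -/
theorem gronwall_simple {D D' : ℝ → ℝ} {K e T : ℝ} (hD0 : D 0 = 0)
    (hD : ∀ t ∈ Icc (0 : ℝ) T, HasDerivAt D (D' t) t)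
    (hle : ∀ t ∈ Icc (0 : ℝ) T, D' t ≤ K * (D t + e)) {t : ℝ} (ht : t ∈ Icc (0 : ℝ) T) :
    D t + e ≤ e * Real.exp (K * t) := by
  have hanti : AntitoneOn (fun s => (D s + e) * Real.exp (-(K * s))) (Icc 0 T) := by
    have hder : ∀ s ∈ Icc (0 : ℝ) T, HasDerivAt (fun s => (D s + e) * Real.exp (-(K * s)))
        (D' s * Real.exp (-(K * s)) + (D s + e) * (Real.exp (-(K * s)) * (-(K * 1)))) s := by
      intro s hs
      have h1 : HasDerivAt (fun s => D s + e) (D' s) s := (hD s hs).add_const e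
      have h2 : HasDerivAt (fun s => Real.exp (-(K * s))) (Real.exp (-(K * s)) * (-(K * 1))) s :=
        (((hasDerivAt_id s).const_mul K).neg).exp
      exact h1.mul h2
    refine antitoneOn_of_deriv_nonpos (convex_Icc _ _)
      (fun s hs => (hder s hs).continuousAt.continuousWithinAt)
      (fun s hs => (hder s (interior_subset hs)).differentiableAt.differentiableWithinAt) ?_
    intro s hs
    have hs' := interior_subset hs
    rw [(hder s hs').deriv]
    have h3 := hle s hs'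
    have h4 := Real.exp_pos (-(K * s))
    have h5 : D' s * Real.exp (-(K * s)) ≤ K * (D s + e) * Real.exp (-(K * s)) :=
      mul_le_mul_of_nonneg_right h3 h4.le
    nlinarith
  have h0 : (0 : ℝ) ∈ Icc (0 : ℝ) T := ⟨le_rfl, ht.1.trans ht.2⟩
  have h1 := hanti h0 ht ht.1
  simp only [hD0, zero_add, mul_zero, neg_zero, Real.exp_zero, mul_one] at h1
  have h2 := Real.exp_pos (K * t)
  have h3 : (D t + e) * Real.exp (-(K * t)) * Real.exp (K * t) ≤ e * Real.exp (K * t) :=
    mul_le_mul_of_nonneg_right h1 h2.le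
  rwa [mul_assoc, ← Real.exp_add, neg_add_cancel, Real.exp_zero, mul_one] at h3

end Vale.Agent.P119
end
end

section

open MeasureTheory Filter Topology Set
open scoped ENNReal NNReal

noncomputable section

namespace Vale.Agent.P119

variable {n : ℕ}

/-- The properties of the regularized flow which coincides with the particle flow on `D`. -/
structure ShellFlow (Φ Ψ : E3 → ℝ) (ε : ℝ) (D : Set (Fin n → Ph))
    (S : ℝ → (Fin n → Ph) → (Fin n → Ph)) : Prop where
  eps_pos : 0 < ε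
  zero : ∀ Z, S 0 Z = Z
  cont : ∀ t, Continuous (S t)
  map_le : ∀ t, 0 ≤ t → (volume : Measure (Fin n → Ph)).map (S t) ≤ volume
  traj : ∀ Z, IsTraj Ψ ε (fun t => S t Z)
  eqOn : ∀ Z ∈ D, ∀ t i j, i ≠ j → Ψ =ᶠ[𝓝 (ε⁻¹ • ((S t Z i).1 - (S t Z j).1))] Φ
  smooth : ContDiff ℝ 2 Ψ
  radial : ∀ x y : E3, ‖x‖ = ‖y‖ → Ψ x = Ψ y
  vanish : ∀ x : E3, 1 ≤ ‖x‖ → Ψ x = 0
  meas : MeasurableSet D
  sub : D ⊆ excl ε n

/-- The Lyapunov functional with coefficients `P`. -/
def Par.L (P : Par) (Φ : E3 → ℝ) (ε t : ℝ) (Z : Fin n → Ph) : ℝ :=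
  lyap Φ ε P.a P.b P.c P.k P.p P.q P.Ω t Z

theorem Par.L_eq (P : Par) (Φ : E3 → ℝ) (ε t : ℝ) (Z : Fin n → Ph) :
    P.L Φ ε t Z = P.qs t Z + 2 * P.bt t * pairSum Φ ε Z := by
  unfold Par.L lyap Par.qs Par.bt
  rw [potE_eq]

/-- `X̂`. -/
def xh (Φ : E3 → ℝ) (ε : ℝ) (Z : Fin n → Ph) : ℝ :=
  pairSum (vir Φ) ε Z + 2 * pairSum Φ ε Z

/-- The increment of the Lyapunov functional along the flow. -/
def Par.R (P : Par) (Ψ : E3 → ℝ) (ε : ℝ) (S : ℝ → (Fin n → Ph) → (Fin n → Ph)) (t : ℝ)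
    (Z : Fin n → Ph) : ℝ :=
  P.L Ψ ε t (S t Z) - P.L Ψ ε 0 Z

theorem Par.continuous_L (P : Par) {Ψ : E3 → ℝ} (h : Continuous Ψ) (ε t : ℝ) :
    Continuous fun Z : Fin n → Ph => P.L Ψ ε t Z := by
  simp_rw [P.L_eq]
  exact (P.continuous_qs t).add ((continuous_pairSum h ε).const_mul _)

variable {Φ Ψ : E3 → ℝ} {ε : ℝ} {D : Set (Fin n → Ph)} {S : ℝ → (Fin n → Ph) → (Fin n → Ph)}
  {P : Par} {T κ : ℝ}

theorem pairSum_excl {V : E3 → ℝ} (hv : ∀ x : E3, 1 ≤ ‖x‖ → V x = 0) {ε : ℝ}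
    (hε : 0 < ε) {Z : Fin n → Ph} (hZ : Z ∈ excl ε n) : pairSum V ε Z = 0 := by
  rw [← potE_eq]
  exact potE_eq_zero_of_excl hv hε hZ

theorem ShellFlow.hasDerivAt_R (h : ShellFlow Φ Ψ ε D S) (hP : ∀ w, inner ℝ w (P.Ω w) = 0)
    (t : ℝ) (Z : Fin n → Ph) :
    HasDerivAt (fun τ => P.R Ψ ε S τ Z) (2 * (P.a * t + P.c) * xh Ψ ε (S t Z)) t := by
  have h1 := ((h.traj Z).hasDerivAt_lyap h.radial (a := P.a) (b := P.b) (c := P.c) (k := P.k)
    (p := P.p) (q := P.q) (Ω := P.Ω) hP t).sub_const (P.L Ψ ε 0 Z)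
  rw [virial_eq, potE_eq] at h1
  exact h1

theorem ShellFlow.R_zero (h : ShellFlow Φ Ψ ε D S) (Z : Fin n → Ph) : P.R Ψ ε S 0 Z = 0 := by
  unfold Par.R
  rw [h.zero, sub_self]

theorem xh_bound {Ψ : E3 → ℝ} {M : ℝ} (h1 : ∀ x, |Ψ x| ≤ M) (h2 : ∀ x, |vir Ψ x| ≤ M) (ε : ℝ)
    (Z : Fin n → Ph) : |xh Ψ ε Z| ≤ 3 * ((n : ℝ) ^ 2 * M) := by
  unfold xh
  have h3 := pairSum_bound h1 ε Z
  have h4 := pairSum_bound h2 ε Z
  rw [abs_le] at *
  constructor <;> linarith [h3.1, h3.2, h4.1, h4.2]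

theorem ShellFlow.exists_bound (h : ShellFlow Φ Ψ ε D S) :
    ∃ M : ℝ, 0 ≤ M ∧ ∀ Z : Fin n → Ph, |xh Ψ ε Z| ≤ M := by
  obtain ⟨M, hM0, hM1, hM2⟩ := smooth_bounds h.smooth h.vanish
  exact ⟨3 * ((n : ℝ) ^ 2 * M), by positivity, xh_bound hM1 hM2 ε⟩

theorem ShellFlow.continuous_xh (h : ShellFlow Φ Ψ ε D S) :
    Continuous fun Z : Fin n → Ph => xh Ψ ε Z := by
  unfold xh
  exact (continuous_pairSum (continuous_vir h.smooth) ε).add
    ((continuous_pairSum h.smooth.continuous ε).const_mul 2)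

theorem ShellFlow.continuous_R (h : ShellFlow Φ Ψ ε D S) (t : ℝ) :
    Continuous fun Z => P.R Ψ ε S t Z := by
  unfold Par.R
  exact ((P.continuous_L h.smooth.continuous ε t).comp (h.cont t)).sub
    (P.continuous_L h.smooth.continuous ε 0)

theorem ShellFlow.R_bound (h : ShellFlow Φ Ψ ε D S) (hP : ∀ w, inner ℝ w (P.Ω w) = 0)
    {M : ℝ} (hM0 : 0 ≤ M) (hM : ∀ Z : Fin n → Ph, |xh Ψ ε Z| ≤ M) {r : ℝ} {t : ℝ}
    (ht : |t| ≤ r) (Z : Fin n → Ph) :
    |P.R Ψ ε S t Z| ≤ 2 * (|P.a| * r + |P.c|) * M * r := by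
  have hr : 0 ≤ r := (abs_nonneg _).trans ht
  have h1 : ∀ τ ∈ Icc (-r) r, HasDerivWithinAt (fun τ => P.R Ψ ε S τ Z)
      (2 * (P.a * τ + P.c) * xh Ψ ε (S τ Z)) (Icc (-r) r) τ :=
    fun τ _ => (h.hasDerivAt_R hP τ Z).hasDerivWithinAt
  have h2 : ∀ τ ∈ Icc (-r) r, ‖2 * (P.a * τ + P.c) * xh Ψ ε (S τ Z)‖ ≤
      2 * (|P.a| * r + |P.c|) * M := by
    intro τ hτ
    rw [Real.norm_eq_abs, abs_mul, abs_mul, abs_two]
    have h3 : |P.a * τ + P.c| ≤ |P.a| * r + |P.c| := by
      refine (abs_add_le _ _).trans ?_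
      rw [abs_mul]
      have : |τ| ≤ r := abs_le.2 hτ
      gcongr
    have h4 := hM (S τ Z)
    have h5 := abs_nonneg (xh Ψ ε (S τ Z))
    have h6 := abs_nonneg (P.a * τ + P.c)
    gcongr
  have h0 : (0 : ℝ) ∈ Icc (-r) r := ⟨by linarith, hr⟩
  have htm : t ∈ Icc (-r) r := abs_le.1 ht
  have h3 := (convex_Icc (-r) r).norm_image_sub_le_of_norm_hasDerivWithin_le h1 h2 h0 htm
  rw [h.R_zero, sub_zero, sub_zero, Real.norm_eq_abs, Real.norm_eq_abs] at h3
  refine h3.trans ?_
  have h4 : 0 ≤ 2 * (|P.a| * r + |P.c|) * M := by positivity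
  exact mul_le_mul_of_nonneg_left ht h4

/-- The density of the initial law. -/
def Par.rho (P : Par) (Z : Fin n → Ph) : ℝ := Real.exp (-P.qs 0 Z)

theorem Par.Good.integrable_rho (hG : P.Good T κ) :
    Integrable (fun Z : Fin n → Ph => P.rho Z) := by
  have h0 : (0 : ℝ) ∈ Icc 0 T := ⟨le_rfl, hG.T_nonneg⟩
  have h1 : Integrable (fun Z : Fin n → Ph => ∏ i, P.ft 0 (Z i)) :=
    Integrable.fintype_prod (fun _ => hG.int 0 h0)
  simp_rw [P.prod_ft] at h1
  exact h1

theorem Par.continuous_rho (P : Par) : Continuous fun Z : Fin n → Ph => P.rho Z := by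
  unfold Par.rho
  exact Real.continuous_exp.comp (P.continuous_qs 0).neg

/-- The expectation on the shell. -/
def Par.ex (P : Par) (D : Set (Fin n → Ph)) (g : (Fin n → Ph) → ℝ) : ℝ :=
  (∫ Z in D, g Z * P.rho Z) / ∫ Z in D, P.rho Z

theorem Par.Good.hasDerivAt_ex (hG : P.Good T κ) (h : ShellFlow Φ Ψ ε D S) (t : ℝ) :
    HasDerivAt (fun τ => P.ex D (P.R Ψ ε S τ))
      (2 * (P.a * t + P.c) * P.ex D (fun Z => xh Ψ ε (S t Z))) t := by
  obtain ⟨M, hM0, hM⟩ := h.exists_bound
  have hρm : AEStronglyMeasurable (fun Z : Fin n → Ph => P.rho Z) (volume.restrict D) :=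
    P.continuous_rho.aestronglyMeasurable
  have hρi : Integrable (fun Z : Fin n → Ph => P.rho Z) (volume.restrict D) :=
    hG.integrable_rho.integrableOn
  have h1 := hasDerivAt_integral_of_dominated_loc_of_deriv_le (μ := volume.restrict D)
    (F := fun τ Z => P.R Ψ ε S τ Z * P.rho Z)
    (F' := fun τ Z => 2 * (P.a * τ + P.c) * xh Ψ ε (S τ Z) * P.rho Z)
    (x₀ := t) (s := Ioo (t - 1) (t + 1))
    (bound := fun Z => 2 * (|P.a| * (|t| + 1) + |P.c|) * M * P.rho Z)
    (Ioo_mem_nhds (by linarith) (by linarith))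
    (Eventually.of_forall fun τ => ((h.continuous_R τ).mul P.continuous_rho).aestronglyMeasurable)
    ?_ ?_ ?_ ?_ ?_
  · have h2 := h1.2.div_const (∫ Z in D, P.rho Z)
    unfold Par.ex
    refine HasDerivAt.congr_deriv h2 ?_
    have h3 : ∫ Z in D, 2 * (P.a * t + P.c) * xh Ψ ε (S t Z) * P.rho Z =
        2 * (P.a * t + P.c) * ∫ Z in D, xh Ψ ε (S t Z) * P.rho Z := by
      rw [← integral_const_mul]
      refine integral_congr_ae (Eventually.of_forall fun Z => ?_)
      simp only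
      ring
    rw [h3]
    ring
  · refine hρi.bdd_mul (c := 2 * (|P.a| * |t| + |P.c|) * M * |t|)
      (h.continuous_R t).aestronglyMeasurable (Eventually.of_forall fun Z => ?_)
    exact h.R_bound hG.skew hM0 hM le_rfl Z
  · exact ((((h.continuous_xh.comp (h.cont t)).const_mul _)).mul
      P.continuous_rho).aestronglyMeasurable
  · refine Eventually.of_forall fun Z τ hτ => ?_
    rw [Real.norm_eq_abs, abs_mul, abs_mul, abs_mul, abs_two]
    have h3 : |τ| ≤ |t| + 1 := by
      have h4 : |τ - t| ≤ 1 := by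
        rw [abs_le]; exact ⟨by linarith [hτ.1], by linarith [hτ.2]⟩
      have h5 := abs_add_le (τ - t) t
      rw [sub_add_cancel] at h5
      linarith
    have h4 : |P.a * τ + P.c| ≤ |P.a| * (|t| + 1) + |P.c| := by
      refine (abs_add_le _ _).trans ?_
      rw [abs_mul]
      gcongr
    have h5 := hM (S τ Z)
    have h6 : |P.rho Z| = P.rho Z := abs_of_pos (Real.exp_pos _)
    rw [h6]
    have h7 : 0 ≤ P.rho Z := (Real.exp_pos _).le
    gcongr
  · exact hρi.const_mul _
  · refine Eventually.of_forall fun Z τ _ => ?_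
    exact (h.hasDerivAt_R hG.skew τ Z).mul_const _

theorem ShellFlow.agree (h : ShellFlow Φ Ψ ε D S) {Z : Fin n → Ph} (hZ : Z ∈ D) (t : ℝ) :
    pairSum Ψ ε (S t Z) = pairSum Φ ε (S t Z) ∧ xh Ψ ε (S t Z) = xh Φ ε (S t Z) := by
  have h1 := pairSum_congr_of_eventuallyEq (h.eqOn Z hZ t)
  refine ⟨h1.1, ?_⟩
  unfold xh
  rw [h1.1, h1.2]

theorem ShellFlow.R_eq (h : ShellFlow Φ Ψ ε D S) {Z : Fin n → Ph} (hZ : Z ∈ D) (t : ℝ) :
    P.R Ψ ε S t Z = P.qs t (S t Z) + 2 * P.bt t * pairSum Φ ε (S t Z) - P.qs 0 Z := by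
  unfold Par.R
  rw [P.L_eq, P.L_eq, (h.agree hZ t).1, pairSum_excl h.vanish h.eps_pos (h.sub hZ)]
  ring

/-- The entropy inequality for a function `Y` of the configuration at time `t`. -/
theorem ShellFlow.entropy (h : ShellFlow Φ Ψ ε D S) (hG : P.Good T κ) (hΦm : Measurable Φ)
    (hpos : 0 < ∫ Z in D, P.rho Z)
    {t : ℝ} (ht : t ∈ Icc 0 T) {Y Y' : (Fin n → Ph) → ℝ} (hY : Measurable Y')
    (hYY : ∀ Z ∈ D, Y Z = Y' (S t Z)) (hYm : Measurable Y) {C : ℝ} (hYb : ∀ Z, |Y Z| ≤ C) {W : ℝ}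
    (hW : ∫⁻ Z : Fin n → Ph,
      ENNReal.ofReal (Real.exp (Y' Z - 2 * P.bt t * pairSum Φ ε Z - P.qs t Z)) ≤
      ENNReal.ofReal (Real.exp W)) :
    P.ex D Y ≤ P.ex D (P.R Ψ ε S t) + (W - Real.log (∫ Z in D, P.rho Z)) := by
  obtain ⟨M, hM0, hM⟩ := h.exists_bound
  set ZE := ∫ Z in D, P.rho Z with hZE
  have hρi : Integrable (fun Z : Fin n → Ph => P.rho Z) (volume.restrict D) :=
    hG.integrable_rho.integrableOn
  have hRb : ∀ Z : Fin n → Ph, |P.R Ψ ε S t Z| ≤ 2 * (|P.a| * |t| + |P.c|) * M * |t| := fun Z =>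
    h.R_bound hG.skew hM0 hM le_rfl Z
  have hj := jensen_gibbs (ν := (volume : Measure (Fin n → Ph))) h.meas (h.cont t).measurable
    (h.map_le t ht.1) (L0 := fun Z => P.qs 0 Z)
    (H := fun Z => Y' Z - 2 * P.bt t * pairSum Φ ε Z - P.qs t Z)
    (g := fun Z => Y Z - P.R Ψ ε S t Z) (P.continuous_qs 0).measurable
    (by
      have h1 := measurable_pairSum (n := n) hΦm ε
      have h2 := (P.continuous_qs (n := n) t).measurable
      fun_prop)
    (C := C + 2 * (|P.a| * |t| + |P.c|) * M * |t|)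
    (fun Z _ => by
      refine (abs_sub _ _).trans ?_
      exact add_le_add (hYb Z) (hRb Z))
    (fun Z hZ => by
      rw [h.R_eq hZ, hYY Z hZ]
      ring)
    hpos
    (by
      rw [hZE, ofReal_integral_eq_lintegral_ofReal hρi (Eventually.of_forall fun Z =>
        (Real.exp_pos _).le)]
      rfl)
    (Real.exp_pos W) hW
  rw [Real.log_div (Real.exp_pos _).ne' hpos.ne', Real.log_exp] at hj
  have hint1 : Integrable (fun Z => Y Z * P.rho Z) (volume.restrict D) :=
    hρi.bdd_mul (c := C) hYm.aestronglyMeasurable (Eventually.of_forall hYb)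
  have hint2 : Integrable (fun Z => P.R Ψ ε S t Z * P.rho Z) (volume.restrict D) :=
    hρi.bdd_mul (c := 2 * (|P.a| * |t| + |P.c|) * M * |t|)
      (h.continuous_R t).aestronglyMeasurable (Eventually.of_forall hRb)
  have h2 : ∫ Z in D, (Y Z - P.R Ψ ε S t Z) * Real.exp (-P.qs 0 Z) =
      (∫ Z in D, Y Z * P.rho Z) - ∫ Z in D, P.R Ψ ε S t Z * P.rho Z := by
    rw [← integral_sub hint1 hint2]
    refine integral_congr_ae (Eventually.of_forall fun Z => ?_)
    simp only [Par.rho]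
    ring
  rw [h2, sub_div] at hj
  unfold Par.ex
  rw [← hZE]
  linarith

end Vale.Agent.P119
end
end

section

open MeasureTheory Filter Topology Set
open scoped ENNReal NNReal

noncomputable section

namespace Vale.Agent.P119

variable {n : ℕ}

/-- The admissible multiple of the virial. -/
def Par.lam (P : Par) (l : ℝ) : ℝ := 2 * P.b * l / (2 * l + 1)

/-- The stability constant used for all weights. -/
def Par.BB (P : Par) (T l B₁ B₂ : ℝ) : ℝ := 4 * P.bt T * B₁ + P.lam l / l * B₂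

/-- The entropy constant. -/
def Par.ec (P : Par) (T κ l B₁ B₂ : ℝ) : ℝ := κ * Real.exp (126 * P.BB T l B₁ B₂)

/-- The Gronwall rate. -/
def Par.rate (P : Par) (T l : ℝ) : ℝ := 2 * (P.a * T + P.c) / P.lam l

variable {Φ Ψ : E3 → ℝ} {ε : ℝ} {D : Set (Fin n → Ph)} {S : ℝ → (Fin n → Ph) → (Fin n → Ph)}
  {P : Par} {T κ l B₁ B₂ : ℝ}

theorem Par.Good.bt_mono (hG : P.Good T κ) {t : ℝ} (ht : t ∈ Icc 0 T) : P.bt t ≤ P.bt T := by
  unfold Par.bt
  have h1 := hG.a_nonneg
  have h2 := hG.c_nonneg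
  have h3 : t ^ 2 ≤ T ^ 2 := pow_le_pow_left₀ ht.1 ht.2 2
  have h4 := mul_le_mul_of_nonneg_left h3 h1
  have h5 := mul_le_mul_of_nonneg_left ht.2 h2
  linarith

theorem Par.Good.le_bt (hG : P.Good T κ) {t : ℝ} (ht : t ∈ Icc 0 T) : P.b ≤ P.bt t := by
  unfold Par.bt
  have h1 := mul_nonneg hG.a_nonneg (sq_nonneg t)
  have h2 := mul_nonneg hG.c_nonneg ht.1
  linarith

theorem Par.Good.lam_pos (hG : P.Good T κ) (hl : 0 < l) : 0 < P.lam l := by
  unfold Par.lam
  have := hG.b_pos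
  positivity

theorem Par.lam_eq (P : Par) (hl : 0 < l) : 2 * P.lam l + P.lam l / l = 2 * P.b := by
  unfold Par.lam
  field_simp

theorem Par.Good.BB_nonneg (hG : P.Good T κ) (hl : 0 < l) (hB₁ : 0 ≤ B₁) (hB₂ : 0 ≤ B₂) :
    0 ≤ P.BB T l B₁ B₂ := by
  unfold Par.BB
  have h1 := hG.lam_pos hl
  have h2 : 0 < P.bt T := hG.b_pos.trans_le (hG.le_bt ⟨hG.T_nonneg, le_rfl⟩)
  positivity

theorem Par.Good.ec_nonneg (hG : P.Good T κ) : 0 ≤ P.ec T κ l B₁ B₂ :=
  mul_nonneg hG.κ_nonneg (Real.exp_pos _).le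

theorem Par.Good.rate_nonneg (hG : P.Good T κ) (hl : 0 < l) : 0 ≤ P.rate T l := by
  unfold Par.rate
  have h1 := hG.lam_pos hl
  have h2 := mul_nonneg hG.a_nonneg hG.T_nonneg
  have h3 := hG.c_nonneg
  positivity

/-- The entropy excess. -/
def Par.exc (P : Par) (T κ l B₁ B₂ ε : ℝ) (D : Set (Fin n → Ph)) : ℝ :=
  P.ec T κ l B₁ B₂ * ε ^ 3 * (n : ℝ) ^ 2 - Real.log (∫ Z in D, P.rho Z)

section

variable (h : ShellFlow Φ Ψ ε D S) (hG : P.Good T κ) (hΦ : IsPotential Φ) (hl : 0 < l)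
  (hB₁ : 0 ≤ B₁) (hB₂ : 0 ≤ B₂) (hs₁ : StabC Φ B₁) (hs₂ : StabC (fun y => Φ y - l * vir Φ y) B₂)
  (hpos : 0 < ∫ Z in D, P.rho Z)

include h hG hΦ hl hB₁ hB₂ hs₁ hs₂ hpos

theorem ShellFlow.virial_bound {t : ℝ} (ht : t ∈ Icc 0 T) :
    P.lam l * P.ex D (fun Z => xh Ψ ε (S t Z)) ≤
      P.ex D (P.R Ψ ε S t) + P.exc T κ l B₁ B₂ ε D := by
  have hε := h.eps_pos
  have hlam := hG.lam_pos hl
  obtain ⟨M, hM0, hM⟩ := h.exists_bound
  set V : E3 → ℝ := fun y => 2 * (P.bt t - P.b) * Φ y + P.lam l / l * (Φ y - l * vir Φ y) with hV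
  have hVm : Measurable V := by
    have h1 := hΦ.measurable
    have h2 := measurable_vir Φ
    fun_prop
  have hV0 : ∀ x : E3, 1 ≤ ‖x‖ → V x = 0 := by
    intro x hx
    simp only [hV, hΦ.vanishing x hx, hΦ.vir_eq_zero hx]
    ring
  have hble := hG.le_bt ht
  have hbT := hG.bt_mono ht
  have hb0 := hG.b_pos
  have hVs : StabC V (P.BB T l B₁ B₂) := by
    refine (hs₁.lin hs₂ (α := 2 * (P.bt t - P.b)) (β := P.lam l / l) (by linarith)
      (by positivity)).mono ?_
    unfold Par.BB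
    have h1 : 2 * (P.bt t - P.b) * B₁ ≤ 4 * P.bt T * B₁ := by
      apply mul_le_mul_of_nonneg_right _ hB₁
      linarith
    linarith
  have hW := hG.weight_pair' (n := n) ht (hG.BB_nonneg hl hB₁ hB₂) hV0 hVm hVs hε
  have hps : ∀ Z : Fin n → Ph, pairSum V ε Z =
      (2 * P.bt t - 2 * P.lam l) * pairSum Φ ε Z - P.lam l * pairSum (vir Φ) ε Z := by
    intro Z
    have h1 : V = fun y => (2 * P.bt t - 2 * P.lam l) * Φ y + (-P.lam l) * vir Φ y := by
      funext y
      simp only [hV]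
      have h2 := P.lam_eq hl
      have h3 : P.lam l / l * (l * vir Φ y) = P.lam l * vir Φ y := by
        field_simp
      linear_combination Φ y * h2 - h3
    rw [h1, pairSum_lin]
    ring
  have hent := h.entropy hG hΦ.measurable hpos ht (Y := fun Z => P.lam l * xh Ψ ε (S t Z))
    (Y' := fun Z => P.lam l * xh Φ ε Z)
    (by
      unfold xh
      have h1 := measurable_pairSum (n := n) (measurable_vir Φ) ε
      have h2 := measurable_pairSum (n := n) hΦ.measurable ε
      fun_prop)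
    (fun Z hZ => by simp only [(h.agree hZ t).2])
    ((h.continuous_xh.comp (h.cont t)).const_mul _).measurable
    (C := P.lam l * M)
    (fun Z => by
      rw [abs_mul, abs_of_pos hlam]
      exact mul_le_mul_of_nonneg_left (hM _) hlam.le)
    (W := κ * ε ^ 3 * Real.exp (126 * P.BB T l B₁ B₂) * (n : ℝ) ^ 2)
    (by
      refine le_trans (le_of_eq (lintegral_congr fun Z => ?_)) hW
      rw [hps Z]
      unfold xh
      congr 2
      ring)
  have h3 : P.ex D (fun Z => P.lam l * xh Ψ ε (S t Z)) =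
      P.lam l * P.ex D (fun Z => xh Ψ ε (S t Z)) := by
    unfold Par.ex
    rw [← mul_div_assoc, ← integral_const_mul]
    simp_rw [mul_assoc]
  rw [h3] at hent
  unfold Par.exc Par.ec
  have h4 : κ * Real.exp (126 * P.BB T l B₁ B₂) * ε ^ 3 * (n : ℝ) ^ 2 =
      κ * ε ^ 3 * Real.exp (126 * P.BB T l B₁ B₂) * (n : ℝ) ^ 2 := by ring
  rw [h4]
  exact hent

theorem ShellFlow.excess_nonneg {t : ℝ} (ht : t ∈ Icc 0 T) :
    0 ≤ P.ex D (P.R Ψ ε S t) + P.exc T κ l B₁ B₂ ε D := by
  have hε := h.eps_pos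
  have hlam := hG.lam_pos hl
  have hble := hG.le_bt ht
  have hbT := hG.bt_mono ht
  have hb0 := hG.b_pos
  set V : E3 → ℝ := fun y => 2 * P.bt t * Φ y with hV
  have hVm : Measurable V := hΦ.measurable.const_mul _
  have hV0 : ∀ x : E3, 1 ≤ ‖x‖ → V x = 0 := by
    intro x hx
    simp only [hV, hΦ.vanishing x hx]
    ring
  have hVs : StabC V (P.BB T l B₁ B₂) := by
    have h1 := (hs₁.lin hs₁ (α := 2 * P.bt t) (β := 0) (by linarith) le_rfl)
    simp only [zero_mul, add_zero] at h1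
    refine h1.mono ?_
    unfold Par.BB
    have h1 : 2 * P.bt t * B₁ ≤ 4 * P.bt T * B₁ := by
      apply mul_le_mul_of_nonneg_right _ hB₁
      linarith
    have h2 : 0 ≤ P.lam l / l * B₂ := by positivity
    linarith
  have hW := hG.weight_pair' (n := n) ht (hG.BB_nonneg hl hB₁ hB₂) hV0 hVm hVs hε
  have hent := h.entropy hG hΦ.measurable hpos ht (Y := fun _ => 0)
    (Y' := fun _ => 0) measurable_const (fun Z hZ => rfl) measurable_const (C := 0)
    (fun Z => by simp)
    (W := κ * ε ^ 3 * Real.exp (126 * P.BB T l B₁ B₂) * (n : ℝ) ^ 2)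
    (by
      refine le_trans (le_of_eq (lintegral_congr fun Z => ?_)) hW
      simp only [hV]
      rw [pairSum_smul]
      congr 2
      ring)
  have h3 : P.ex D (fun _ : Fin n → Ph => (0 : ℝ)) = 0 := by
    unfold Par.ex
    simp
  rw [h3] at hent
  unfold Par.exc Par.ec
  have h4 : κ * Real.exp (126 * P.BB T l B₁ B₂) * ε ^ 3 * (n : ℝ) ^ 2 =
      κ * ε ^ 3 * Real.exp (126 * P.BB T l B₁ B₂) * (n : ℝ) ^ 2 := by ring
  rw [h4]
  exact hent

theorem ShellFlow.ex_R_bound {t : ℝ} (ht : t ∈ Icc 0 T) :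
    P.ex D (P.R Ψ ε S t) + P.exc T κ l B₁ B₂ ε D ≤
      P.exc T κ l B₁ B₂ ε D * Real.exp (P.rate T l * T) := by
  have hlam := hG.lam_pos hl
  have h0 : P.ex D (P.R Ψ ε S 0) = 0 := by
    unfold Par.ex
    have : ∀ Z, P.R Ψ ε S 0 Z = 0 := h.R_zero
    simp [this]
  have hexc : 0 ≤ P.exc T κ l B₁ B₂ ε D := by
    have := h.excess_nonneg hG hΦ hl hB₁ hB₂ hs₁ hs₂ hpos (t := 0) ⟨le_rfl, hG.T_nonneg⟩
    rw [h0, zero_add] at this
    exact this
  have hg := gronwall_simple (D := fun t => P.ex D (P.R Ψ ε S t))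
    (D' := fun t => 2 * (P.a * t + P.c) * P.ex D (fun Z => xh Ψ ε (S t Z)))
    (K := P.rate T l) (e := P.exc T κ l B₁ B₂ ε D) (T := T) h0
    (fun t _ => hG.hasDerivAt_ex h t) (fun t ht => by
      have h1 := h.virial_bound hG hΦ hl hB₁ hB₂ hs₁ hs₂ hpos ht
      have h2 := h.excess_nonneg hG hΦ hl hB₁ hB₂ hs₁ hs₂ hpos ht
      have ha := hG.a_nonneg
      have hc := hG.c_nonneg
      have hat : 0 ≤ P.a * t + P.c := add_nonneg (mul_nonneg ha ht.1) hc
      have h3 : P.ex D (fun Z => xh Ψ ε (S t Z)) ≤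
          (P.ex D (P.R Ψ ε S t) + P.exc T κ l B₁ B₂ ε D) / P.lam l := by
        rw [le_div_iff₀ hlam]
        linarith
      calc 2 * (P.a * t + P.c) * P.ex D (fun Z => xh Ψ ε (S t Z))
          ≤ 2 * (P.a * t + P.c) *
            ((P.ex D (P.R Ψ ε S t) + P.exc T κ l B₁ B₂ ε D) / P.lam l) := by
            apply mul_le_mul_of_nonneg_left h3 (by linarith)
        _ ≤ 2 * (P.a * T + P.c) *
            ((P.ex D (P.R Ψ ε S t) + P.exc T κ l B₁ B₂ ε D) / P.lam l) := by
            apply mul_le_mul_of_nonneg_right _ (by positivity)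
            have := mul_le_mul_of_nonneg_left ht.2 ha
            linarith
        _ = P.rate T l * (P.ex D (P.R Ψ ε S t) + P.exc T κ l B₁ B₂ ε D) := by
            unfold Par.rate
            ring) ht
  refine hg.trans ?_
  apply mul_le_mul_of_nonneg_left _ hexc
  apply Real.exp_le_exp.2
  exact mul_le_mul_of_nonneg_left ht.2 (hG.rate_nonneg hl)

/-- The bound on averages of test functions over a family of disjoint blocks. -/
theorem ShellFlow.block_bound {t : ℝ} (ht : t ∈ Icc 0 T) {m s : ℕ} {J : Fin m × Fin s → Fin n}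
    (hJ : Function.Injective J)
    {g : (Fin s → Ph) → ℝ} (hg : Measurable g) (hg1 : ∀ z, |g z| ≤ 1) {θ : ℝ} (hθ0 : 0 ≤ θ)
    (hθ1 : θ ≤ 1 / 2) :
    θ * ∑ j, P.ex D (fun Z => g (fun r => S t Z (J (j, r)))) ≤
      m * (θ * P.avg t g + 2 * θ ^ 2) +
        P.exc T κ l B₁ B₂ ε D * Real.exp (P.rate T l * T) := by
  have hε := h.eps_pos
  have hlam := hG.lam_pos hl
  have hble := hG.le_bt ht
  have hbT := hG.bt_mono ht
  have hb0 := hG.b_pos
  have hκ := hG.κ_nonneg
  have hρi : Integrable (fun Z : Fin n → Ph => P.rho Z) (volume.restrict D) :=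
    hG.integrable_rho.integrableOn
  set V : E3 → ℝ := fun y => 2 * P.bt t * Φ y with hV
  have hVm : Measurable V := hΦ.measurable.const_mul _
  have hV0 : ∀ x : E3, 1 ≤ ‖x‖ → V x = 0 := by
    intro x hx
    simp only [hV, hΦ.vanishing x hx]
    ring
  have hVs : StabC (fun y => 2 * V y) (P.BB T l B₁ B₂) := by
    have h1 := (hs₁.lin hs₁ (α := 2 * (2 * P.bt t)) (β := 0) (by linarith) le_rfl)
    simp only [zero_mul, add_zero] at h1
    have h2 : (fun y => 2 * V y) = fun y => 2 * (2 * P.bt t) * Φ y := by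
      funext y
      simp only [hV]
      ring
    rw [h2]
    refine h1.mono ?_
    unfold Par.BB
    have h1 : 2 * (2 * P.bt t) * B₁ ≤ 4 * P.bt T * B₁ := by
      apply mul_le_mul_of_nonneg_right _ hB₁
      linarith
    have h2 : 0 ≤ P.lam l / l * B₂ := by positivity
    linarith
  have hW := hG.weight_block (n := n) ht (hG.BB_nonneg hl hB₁ hB₂) hV0 hVm hVs hε hJ hg hg1
    hθ0 hθ1
  have hSm : ∀ j : Fin m, Measurable fun Z : Fin n → Ph => g (fun r => S t Z (J (j, r))) := by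
    intro j
    refine hg.comp ?_
    have h1 := (h.cont t).measurable
    rw [measurable_pi_iff]
    intro r
    exact (measurable_pi_apply _).comp h1
  have hent := h.entropy hG hΦ.measurable hpos ht
    (Y := fun Z => θ * ∑ j, g (fun r => S t Z (J (j, r))))
    (Y' := fun Z => θ * ∑ j, g (fun r => Z (J (j, r)))) (by fun_prop) (fun Z hZ => rfl)
    ((Finset.measurable_sum _ fun j _ => hSm j).const_mul _) (C := θ * m)
    (fun Z => by
      rw [abs_mul, abs_of_nonneg hθ0]
      apply mul_le_mul_of_nonneg_left _ hθ0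
      refine (Finset.abs_sum_le_sum_abs _ _).trans ?_
      calc ∑ j, |g (fun r => S t Z (J (j, r)))| ≤ ∑ _j : Fin m, (1 : ℝ) :=
            Finset.sum_le_sum fun j _ => hg1 _
        _ = m := by simp)
    (W := m * (θ * P.avg t g + 2 * θ ^ 2) +
        κ * ε ^ 3 * Real.exp (126 * P.BB T l B₁ B₂) * (n : ℝ) ^ 2 / 2)
    (by
      refine le_trans (le_of_eq (lintegral_congr fun Z => ?_)) hW
      simp only [hV]
      rw [pairSum_smul])
  have h3 : P.ex D (fun Z => θ * ∑ j, g (fun r => S t Z (J (j, r)))) =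
      θ * ∑ j, P.ex D (fun Z => g (fun r => S t Z (J (j, r)))) := by
    unfold Par.ex
    rw [← Finset.sum_div, ← mul_div_assoc, ← integral_finsetSum, ← integral_const_mul]
    · congr 1
      refine integral_congr_ae (Eventually.of_forall fun Z => ?_)
      simp only
      rw [Finset.mul_sum, Finset.sum_mul, Finset.mul_sum]
      refine Finset.sum_congr rfl fun j _ => ?_
      ring
    · intro j _
      exact hρi.bdd_mul (c := 1) (hSm j).aestronglyMeasurable
        (Eventually.of_forall fun Z => hg1 _)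
  rw [h3] at hent
  have hR := h.ex_R_bound hG hΦ hl hB₁ hB₂ hs₁ hs₂ hpos ht
  have h5 : 0 ≤ κ * ε ^ 3 * Real.exp (126 * P.BB T l B₁ B₂) * (n : ℝ) ^ 2 := by positivity
  have h4 : P.exc T κ l B₁ B₂ ε D =
      κ * ε ^ 3 * Real.exp (126 * P.BB T l B₁ B₂) * (n : ℝ) ^ 2 -
        Real.log (∫ Z in D, P.rho Z) := by
    unfold Par.exc Par.ec
    ring
  linarith

end

end Vale.Agent.P119
end
end

section

open MeasureTheory Filter Topology Set
open scoped ENNReal NNReal

noncomputable section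

namespace Vale.Agent.P119

variable {n : ℕ}

/-! ### The flow on the exclusion set -/

/-- The increasing family of shells. -/
def shells (ε m : ℝ) (n : ℕ) (k : ℕ) : Set (Fin n → Ph) := excl ε n ∩ shell n m k

theorem measurableSet_shells (ε m : ℝ) (k : ℕ) : MeasurableSet (shells ε m n k) :=
  (measurableSet_excl ε n).inter (isOpen_shell m k).measurableSet

theorem monotone_shells (ε m : ℝ) : Monotone (shells ε m n) := by
  intro k l hkl Z hZ
  refine ⟨hZ.1, ?_⟩
  have h1 : kinE Z + (n : ℝ) ^ 2 * m < k := hZ.2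
  have h2 : (k : ℝ) ≤ l := by exact_mod_cast hkl
  exact h1.trans_le h2

theorem iUnion_shells (ε m : ℝ) : ⋃ k, shells ε m n k = excl ε n := by
  ext Z
  rw [mem_iUnion]
  constructor
  · rintro ⟨k, hk⟩; exact hk.1
  · intro hZ
    obtain ⟨k, hk⟩ := exists_nat_gt (kinE Z + (n : ℝ) ^ 2 * m)
    exact ⟨k, hZ, hk⟩

theorem exists_shellFlow {Φ : E3 → ℝ} (hΦ : IsPotential Φ) {m ε : ℝ} (hm : 0 ≤ m)
    (hΦm : ∀ x, x ≠ 0 → -m ≤ Φ x) (hε : 0 < ε) (k : ℕ) :
    ∃ S : ℝ → (Fin n → Ph) → (Fin n → Ph),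
      ShellFlow Φ (trunc Φ k) ε (shells ε m n k) S ∧
      ∀ Z ∈ shells ε m n k, ∀ t, flow Φ ε t Z = S t Z := by
  obtain ⟨S, h0, h1, h2, h3, h4, h5⟩ := exists_shell_flow (n := n) hΦ hm (Nat.cast_nonneg k) hΦm hε
  have hT := trunc_isPotential hΦ (Nat.cast_nonneg (α := ℝ) k)
  refine ⟨S, ⟨hε, h0, h2, h3, h4, fun Z hZ t i j hij => (h5 Z hZ.1 hZ.2 t).2 i j hij,
    trunc_smooth hΦ k, hT.radial', hT.vanishing, measurableSet_shells ε m k,
    inter_subset_left⟩, fun Z hZ t => (h5 Z hZ.1 hZ.2 t).1⟩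

/-- On the exclusion set the particle flow is measurable and does not increase the volume. -/
theorem flow_on_excl {Φ : E3 → ℝ} (hΦ : IsPotential Φ) {ε : ℝ} (hε : 0 < ε) {t : ℝ}
    (ht : 0 ≤ t) (n : ℕ) :
    ∃ S : (Fin n → Ph) → (Fin n → Ph), Measurable S ∧ (∀ Z ∈ excl ε n, flow Φ ε t Z = S Z) ∧
      ((volume : Measure (Fin n → Ph)).restrict (excl ε n)).map S ≤ volume ∧
      (volume : Measure (Fin n → Ph)).map S ≪ volume := by
  classical
  obtain ⟨m, hm, hΦm⟩ := hΦ.bddBelow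
  choose S hS hSf using fun k => exists_shellFlow (n := n) hΦ hm hΦm hε k
  have hex := measurableSet_excl ε n
  set Si : (Fin n → Ph) → (Fin n → Ph) := fun Z => if Z ∈ excl ε n then flow Φ ε t Z else Z
    with hSi
  have hev : ∀ Z ∈ excl ε n, ∀ᶠ k in atTop, flow Φ ε t Z = S k t Z := by
    intro Z hZ
    obtain ⟨k, hk⟩ := mem_iUnion.1 ((iUnion_shells (n := n) ε m).symm ▸ hZ :
      Z ∈ ⋃ k, shells ε m n k)
    filter_upwards [eventually_ge_atTop k] with l hl
    exact hSf l Z (monotone_shells ε m hl hk) t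
  have hSm : Measurable Si := by
    refine measurable_of_tendsto_metrizable
      (f := fun k Z => if Z ∈ excl ε n then S k t Z else Z) (fun k => ?_) ?_
    · exact Measurable.ite hex ((hS k).cont t).measurable measurable_id
    · rw [tendsto_pi_nhds]
      intro Z
      by_cases hZ : Z ∈ excl ε n
      · simp only [hSi, hZ, if_true]
        refine tendsto_const_nhds.congr' ?_
        filter_upwards [hev Z hZ] with k hk using hk
      · simp only [hSi, hZ, if_false]
        exact tendsto_const_nhds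
  have hle : ((volume : Measure (Fin n → Ph)).restrict (excl ε n)).map Si ≤ volume := by
    refine Measure.le_iff.2 fun A hA => ?_
    rw [Measure.map_apply hSm hA, Measure.restrict_apply (hSm hA)]
    have h1 : Si ⁻¹' A ∩ excl ε n = ⋃ k, (Si ⁻¹' A ∩ shells ε m n k) := by
      rw [← inter_iUnion, iUnion_shells]
    have hmono : Monotone fun k => Si ⁻¹' A ∩ shells ε m n k := fun k l hkl =>
      inter_subset_inter_right _ (monotone_shells ε m hkl)
    rw [h1, hmono.measure_iUnion]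
    refine iSup_le fun k => ?_
    have h2 : Si ⁻¹' A ∩ shells ε m n k ⊆ S k t ⁻¹' A := by
      rintro Z ⟨hZ1, hZ2⟩
      have h3 : Si Z ∈ A := hZ1
      simp only [hSi, if_pos hZ2.1] at h3
      rw [hSf k Z hZ2 t] at h3
      exact h3
    refine (measure_mono h2).trans ?_
    rw [← Measure.map_apply ((hS k).cont t).measurable hA]
    exact (hS k).map_le t ht A
  refine ⟨Si, hSm, fun Z hZ => by simp only [hSi, if_pos hZ], hle, ?_⟩
  intro A hA
  -- reduce to measurable sets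
  obtain ⟨B, hAB, hB, hB0⟩ := exists_measurable_superset_of_null hA
  refine measure_mono_null hAB ?_
  rw [Measure.map_apply hSm hB]
  have h4 : Si ⁻¹' B ⊆ (Si ⁻¹' B ∩ excl ε n) ∪ B := by
    intro Z hZ
    by_cases hZe : Z ∈ excl ε n
    · exact Or.inl ⟨hZ, hZe⟩
    · right
      have h3 : Si Z ∈ B := hZ
      simp only [hSi, if_neg hZe] at h3
      exact h3
  refine measure_mono_null h4 (measure_union_null ?_ hB0)
  have h5 := Measure.le_iff.1 hle B hB
  rw [Measure.map_apply hSm hB, Measure.restrict_apply (hSm hB), hB0] at h5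
  exact le_antisymm h5 zero_le

/-! ### The averaged bound on a shell -/

section shellavg

variable {Φ Ψ : E3 → ℝ} {ε : ℝ} {D : Set (Fin n → Ph)} {S : ℝ → (Fin n → Ph) → (Fin n → Ph)}
  {P : Par} {T κ l B₁ B₂ : ℝ}

theorem ShellFlow.avg_bound (h : ShellFlow Φ Ψ ε D S) (hG : P.Good T κ) (hΦ : IsPotential Φ)
    (hl : 0 < l) (hB₁ : 0 ≤ B₁) (hB₂ : 0 ≤ B₂) (hs₁ : StabC Φ B₁)
    (hs₂ : StabC (fun y => Φ y - l * vir Φ y) B₂)
    (hpos : 0 < ∫ Z in D, P.rho Z) {t : ℝ} (ht : t ∈ Icc 0 T) {m s : ℕ}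
    (hms : m * s ≤ n)
    {g : (Fin s → Ph) → ℝ} (hg : Measurable g) (hg1 : ∀ z, |g z| ≤ 1) {θ : ℝ} (hθ0 : 0 ≤ θ)
    (hθ1 : θ ≤ 1 / 2) :
    θ * (m * ∑ I : Fin s ↪ Fin n, P.ex D (fun Z => g (fun r => S t Z (I r)))) ≤
      (Fintype.card (Fin s ↪ Fin n) : ℝ) * (m * (θ * P.avg t g + 2 * θ ^ 2) +
        P.exc T κ l B₁ B₂ ε D * Real.exp (P.rate T l * T)) := by
  classical
  -- the reference blocks
  set J₀ : Fin m × Fin s → Fin n := fun p => Fin.castLE hms (finProdFinEquiv p) with hJ₀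
  have hJ₀i : Function.Injective J₀ := (Fin.castLE_injective hms).comp finProdFinEquiv.injective
  set I₀ : Fin m → (Fin s ↪ Fin n) := fun j => ⟨fun r => J₀ (j, r), fun r r' hr => by
    have := hJ₀i hr
    exact (Prod.ext_iff.1 this).2⟩ with hI₀
  set F : (Fin s ↪ Fin n) → ℝ := fun I => P.ex D (fun Z => g (fun r => S t Z (I r))) with hF
  have h1 : ∀ σ : Equiv.Perm (Fin n), θ * ∑ j, F ((I₀ j).trans σ.toEmbedding) ≤
      m * (θ * P.avg t g + 2 * θ ^ 2) +
        P.exc T κ l B₁ B₂ ε D * Real.exp (P.rate T l * T) := fun σ =>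
    h.block_bound hG hΦ hl hB₁ hB₂ hs₁ hs₂ hpos ht (J := fun p => σ (J₀ p))
      (σ.injective.comp hJ₀i) hg hg1 hθ0 hθ1
  have h2 := Finset.sum_le_sum fun (σ : Equiv.Perm (Fin n)) (_ : σ ∈ Finset.univ) => h1 σ
  rw [← Finset.mul_sum, Finset.sum_comm, Finset.sum_const, Finset.card_univ, nsmul_eq_mul] at h2
  have h3 : ∀ j : Fin m, (Fintype.card (Fin s ↪ Fin n) : ℝ) *
      ∑ σ : Equiv.Perm (Fin n), F ((I₀ j).trans σ.toEmbedding) =
      (Fintype.card (Equiv.Perm (Fin n)) : ℝ) * ∑ I : Fin s ↪ Fin n, F I :=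
    fun j => perm_average F (I₀ j)
  set c₁ : ℝ := (Fintype.card (Fin s ↪ Fin n) : ℝ) with hc₁
  set c₂ : ℝ := (Fintype.card (Equiv.Perm (Fin n)) : ℝ) with hc₂
  have hc₁0 : 0 ≤ c₁ := Nat.cast_nonneg _
  have hc₂0 : 0 < c₂ := by
    rw [hc₂]
    exact_mod_cast Fintype.card_pos
  have h4 := mul_le_mul_of_nonneg_left h2 hc₁0
  have h5 : c₁ * (θ * ∑ j, ∑ σ : Equiv.Perm (Fin n), F ((I₀ j).trans σ.toEmbedding)) =
      c₂ * (θ * (m * ∑ I : Fin s ↪ Fin n, F I)) := by
    have h6 : c₁ * ∑ j, ∑ σ : Equiv.Perm (Fin n), F ((I₀ j).trans σ.toEmbedding) =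
        m * (c₂ * ∑ I : Fin s ↪ Fin n, F I) := by
      rw [Finset.mul_sum, Finset.sum_congr rfl fun j _ => h3 j, Finset.sum_const,
        Finset.card_univ, Fintype.card_fin, nsmul_eq_mul]
    linear_combination θ * h6
  rw [h5] at h4
  have h7 : c₂ * (θ * (m * ∑ I : Fin s ↪ Fin n, F I)) ≤
      c₂ * (c₁ * (m * (θ * P.avg t g + 2 * θ ^ 2) +
        P.exc T κ l B₁ B₂ ε D * Real.exp (P.rate T l * T))) := by
    refine h4.trans (le_of_eq ?_)
    ring
  exact le_of_mul_le_mul_left h7 hc₂0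

end shellavg

end Vale.Agent.P119
end
end
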