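import Vale.Agent.P119.Bdl.B2

section

open MeasureTheory Filter Topology Set
open scoped ENNReal NNReal

noncomputable section

namespace Vale.Agent.P119

variable {n : ℕ} {Φ : E3 → ℝ} {ε : ℝ} {P : Par} {T κ l B₁ B₂ : ℝ}

theorem wt_ft (P : Par) (ε : ℝ) (Z : Fin n → Ph) :
    wt (P.ft 0) ε Z = (excl ε n).indicator (fun Z => P.rho Z) Z := by
  unfold wt
  simp_rw [P.prod_ft]
  rfl

theorem integral_wt_ft (P : Par) (ε : ℝ) (G : (Fin n → Ph) → ℝ) :
    ∫ Z : Fin n → Ph, wt (P.ft 0) ε Z * G Z = ∫ Z in excl ε n, G Z * P.rho Z := by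
  rw [← integral_indicator (measurableSet_excl ε n)]
  refine integral_congr_ae (Eventually.of_forall fun Z => ?_)
  simp only
  rw [wt_ft]
  by_cases hZ : Z ∈ excl ε n
  · rw [indicator_of_mem hZ, indicator_of_mem hZ, mul_comm]
  · rw [indicator_of_notMem hZ, indicator_of_notMem hZ, zero_mul]

/-- The averaged bound after removing the energy cutoff. -/
theorem Par.Good.limit_bound (hG : P.Good T κ) (hΦ : IsPotential Φ) (hε : 0 < ε)
    (hl : 0 < l) (hB₁ : 0 ≤ B₁) (hB₂ : 0 ≤ B₂) (hs₁ : StabC Φ B₁)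
    (hs₂ : StabC (fun y => Φ y - l * vir Φ y) B₂)
    (hpos : 0 < ∫ Z in excl ε n, P.rho Z) {t : ℝ} (ht : t ∈ Icc 0 T) {m s : ℕ}
    (hms : m * s ≤ n)
    {g : (Fin s → Ph) → ℝ} (hg : Measurable g) (hg1 : ∀ z, |g z| ≤ 1) {θ : ℝ} (hθ0 : 0 ≤ θ)
    (hθ1 : θ ≤ 1 / 2) :
    θ * (m * ∑ I : Fin s ↪ Fin n, P.ex (excl ε n) (fun Z => g (fun r => flow Φ ε t Z (I r)))) ≤
      (Fintype.card (Fin s ↪ Fin n) : ℝ) * (m * (θ * P.avg t g + 2 * θ ^ 2) +
        P.exc T κ l B₁ B₂ ε (excl ε n) * Real.exp (P.rate T l * T)) := by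
  obtain ⟨mm, hm, hΦm⟩ := hΦ.bddBelow
  choose S hS hSf using fun k => exists_shellFlow (n := n) hΦ hm hΦm hε k
  obtain ⟨Sf, hSm, hSe, -, -⟩ := flow_on_excl hΦ hε ht.1 n
  have hex := measurableSet_excl ε n
  -- convergence of the integrals over the shells
  have hconv : ∀ G : (Fin n → Ph) → ℝ, Measurable G → (∀ Z, |G Z| ≤ 1) →
      Tendsto (fun k => ∫ Z in shells ε mm n k, G Z * P.rho Z) atTop
        (𝓝 (∫ Z in excl ε n, G Z * P.rho Z)) := by
    intro G hGm hG1
    have h1 := tendsto_setIntegral_of_monotone (μ := (volume : Measure (Fin n → Ph)))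
      (f := fun Z => G Z * P.rho Z) (measurableSet_shells ε mm) (monotone_shells ε mm) (by
        refine Integrable.integrableOn ?_
        exact hG.integrable_rho.bdd_mul (c := 1) hGm.aestronglyMeasurable
          (Eventually.of_forall hG1))
    rw [iUnion_shells] at h1
    exact h1
  have hZ : Tendsto (fun k => ∫ Z in shells ε mm n k, P.rho Z) atTop
      (𝓝 (∫ Z in excl ε n, P.rho Z)) := by
    have := hconv (fun _ => 1) measurable_const (fun _ => by simp)
    simpa only [one_mul] using this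
  have hGm : ∀ I : Fin s ↪ Fin n, Measurable fun Z => g (fun r => Sf Z (I r)) := by
    intro I
    refine hg.comp ?_
    rw [measurable_pi_iff]
    intro r
    exact (measurable_pi_apply _).comp hSm
  have hE : ∀ I : Fin s ↪ Fin n,
      Tendsto (fun k => P.ex (shells ε mm n k) (fun Z => g (fun r => S k t Z (I r)))) atTop
        (𝓝 (P.ex (excl ε n) (fun Z => g (fun r => flow Φ ε t Z (I r))))) := by
    intro I
    unfold Par.ex
    refine Tendsto.div ?_ hZ hpos.ne'
    have h1 := hconv (fun Z => g (fun r => Sf Z (I r))) (hGm I) (fun Z => hg1 _)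
    have h2 : ∫ Z in excl ε n, g (fun r => flow Φ ε t Z (I r)) * P.rho Z =
        ∫ Z in excl ε n, g (fun r => Sf Z (I r)) * P.rho Z := by
      refine setIntegral_congr_fun hex fun Z hZ => ?_
      simp only [hSe Z hZ]
    rw [h2]
    refine h1.congr fun k => ?_
    refine setIntegral_congr_fun (measurableSet_shells ε mm k) fun Z hZ => ?_
    simp only
    rw [← hSe Z hZ.1, hSf k Z hZ t]
  have hexc : Tendsto (fun k => P.exc T κ l B₁ B₂ ε (shells ε mm n k)) atTop
      (𝓝 (P.exc T κ l B₁ B₂ ε (excl ε n))) := by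
    unfold Par.exc
    exact tendsto_const_nhds.sub ((Real.continuousAt_log hpos.ne').tendsto.comp hZ)
  have hL : Tendsto (fun k => θ * (m * ∑ I : Fin s ↪ Fin n,
      P.ex (shells ε mm n k) (fun Z => g (fun r => S k t Z (I r))))) atTop
      (𝓝 (θ * (m * ∑ I : Fin s ↪ Fin n,
        P.ex (excl ε n) (fun Z => g (fun r => flow Φ ε t Z (I r)))))) :=
    ((tendsto_finsetSum _ fun I _ => hE I).const_mul _).const_mul _
  have hR : Tendsto (fun k => (Fintype.card (Fin s ↪ Fin n) : ℝ) *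
      (m * (θ * P.avg t g + 2 * θ ^ 2) +
        P.exc T κ l B₁ B₂ ε (shells ε mm n k) * Real.exp (P.rate T l * T))) atTop
      (𝓝 ((Fintype.card (Fin s ↪ Fin n) : ℝ) * (m * (θ * P.avg t g + 2 * θ ^ 2) +
        P.exc T κ l B₁ B₂ ε (excl ε n) * Real.exp (P.rate T l * T)))) :=
    (tendsto_const_nhds.add (hexc.mul_const _)).const_mul _
  refine le_of_tendsto_of_tendsto hL hR ?_
  have hev : ∀ᶠ k in atTop, 0 < ∫ Z in shells ε mm n k, P.rho Z :=
    hZ.eventually (lt_mem_nhds hpos)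
  filter_upwards [hev] with k hk
  exact (hS k).avg_bound hG hΦ hl hB₁ hB₂ hs₁ hs₂ hk ht hms hg hg1 hθ0 hθ1

/-- The lower bound on the canonical partition function. -/
theorem Par.Good.partition_lower (hG : P.Good T κ) (hε : 0 < ε) (hn : n * (κ * ε ^ 3) ≤ 1 / 2) :
    Real.exp (-(κ * ε ^ 3 * (n : ℝ) ^ 2)) ≤ ∫ Z in excl ε n, P.rho Z := by
  have h0 : (0 : ℝ) ∈ Icc 0 T := ⟨le_rfl, hG.T_nonneg⟩
  have := hG.prob h0
  have h1 := (canSeq_excl (law (P.ft 0)) (ε := ε)
    (mul_nonneg hG.κ_nonneg (by positivity)) (hG.ball 0 h0 ε hε)).exp_le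
    (mul_nonneg hG.κ_nonneg (by positivity)) n hn
  refine h1.trans (le_of_eq ?_)
  rw [← integral_wt (P.continuous_ft 0).measurable (fun z => (P.ft_pos 0 z).le) (hG.int 0 h0)]
  have h2 := integral_wt_ft (n := n) P ε (fun _ => 1)
  simp only [mul_one, one_mul] at h2
  exact h2

theorem Par.avg_neg (P : Par) (t : ℝ) {s : ℕ} (g : (Fin s → Ph) → ℝ) :
    P.avg t (fun z => -g z) = -P.avg t g := by
  unfold Par.avg
  rw [← integral_neg]
  refine integral_congr_ae (Eventually.of_forall fun z => ?_)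
  simp only
  ring

theorem Par.ex_neg (P : Par) (D : Set (Fin n → Ph)) (g : (Fin n → Ph) → ℝ) :
    P.ex D (fun Z => -g Z) = -P.ex D g := by
  unfold Par.ex
  rw [← neg_div, ← integral_neg]
  congr 1
  refine integral_congr_ae (Eventually.of_forall fun Z => ?_)
  simp only
  ring

theorem Par.Good.abs_avg_le (hG : P.Good T κ) {t : ℝ} (ht : t ∈ Icc 0 T) {s : ℕ}
    {g : (Fin s → Ph) → ℝ} (hg1 : ∀ z, |g z| ≤ 1) : |P.avg t g| ≤ 1 := by
  have hint : Integrable (fun z : Fin s → Ph => ∏ k, P.ft t (z k)) :=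
    Integrable.fintype_prod (fun _ => hG.int t ht)
  unfold Par.avg
  have h1 : |∫ z, g z * ∏ k, P.ft t (z k)| ≤ ∫ z : Fin s → Ph, ∏ k, P.ft t (z k) := by
    rw [← Real.norm_eq_abs]
    refine norm_integral_le_of_norm_le hint (Eventually.of_forall fun z => ?_)
    have hp : 0 ≤ ∏ k, P.ft t (z k) := Finset.prod_nonneg fun k _ => (P.ft_pos t _).le
    rw [norm_mul, Real.norm_of_nonneg hp, Real.norm_eq_abs]
    calc |g z| * ∏ k, P.ft t (z k) ≤ 1 * ∏ k, P.ft t (z k) :=
          mul_le_mul_of_nonneg_right (hg1 z) hp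
      _ = _ := one_mul _
  refine h1.trans ?_
  have h2 : ∫ z : Fin s → Ph, ∏ k, P.ft t (z k) = ∏ _k : Fin s, ∫ z, P.ft t z :=
    integral_fin_nat_prod_volume_eq_prod (fun _ : Fin s => P.ft t)
  rw [h2, hG.one t ht]
  simp

theorem Par.Good.abs_ex_le (hG : P.Good T κ) (D : Set (Fin n → Ph))
    {g : (Fin n → Ph) → ℝ} (hg1 : ∀ z, |g z| ≤ 1) : |P.ex D g| ≤ 1 := by
  have hint : Integrable (fun Z : Fin n → Ph => P.rho Z) (volume.restrict D) :=
    hG.integrable_rho.integrableOn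
  have hρ : ∀ Z : Fin n → Ph, 0 ≤ P.rho Z := fun Z => (Real.exp_pos _).le
  have hZ : 0 ≤ ∫ Z in D, P.rho Z := integral_nonneg hρ
  unfold Par.ex
  rw [abs_div, abs_of_nonneg hZ]
  refine div_le_one_of_le₀ ?_ hZ
  rw [← Real.norm_eq_abs]
  refine norm_integral_le_of_norm_le hint (Eventually.of_forall fun z => ?_)
  rw [norm_mul, Real.norm_of_nonneg (hρ z), Real.norm_eq_abs]
  calc |g z| * P.rho z ≤ 1 * P.rho z := mul_le_mul_of_nonneg_right (hg1 z) (hρ z)
    _ = _ := one_mul _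

/-- One-sided canonical estimate. -/
theorem Par.Good.one_sided (hG : P.Good T κ) (hΦ : IsPotential Φ) (hε : 0 < ε)
    (hl : 0 < l) (hB₁ : 0 ≤ B₁) (hB₂ : 0 ≤ B₂) (hs₁ : StabC Φ B₁)
    (hs₂ : StabC (fun y => Φ y - l * vir Φ y) B₂)
    {t : ℝ} (ht : t ∈ Icc 0 T) {s : ℕ} (hs : 1 ≤ s) (hsn : s ≤ n)
    (hn1 : n * (κ * ε ^ 3) ≤ 1 / 2) (hn2 : n * ε ^ 3 ≤ 1)
    {g : (Fin s → Ph) → ℝ} (hg : Measurable g) (hg1 : ∀ z, |g z| ≤ 1) :
    ∑ I : Fin s ↪ Fin n, P.ex (excl ε n) (fun Z => g (fun r => flow Φ ε t Z (I r))) ≤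
      (Fintype.card (Fin s ↪ Fin n) : ℝ) * (P.avg t g +
        (1 + 4 * s * ((P.ec T κ l B₁ B₂ + κ) * Real.exp (P.rate T l * T))) *
          Real.sqrt (n * ε ^ 3)) := by
  set x : ℝ := Real.sqrt (n * ε ^ 3) with hx
  have hn : 1 ≤ n := hs.trans hsn
  have hn0 : (0 : ℝ) < n := by exact_mod_cast hn
  have hx0 : 0 < x := Real.sqrt_pos.2 (by positivity)
  have hx2 : x ^ 2 = n * ε ^ 3 := Real.sq_sqrt (by positivity)
  have hx1 : x ≤ 1 := by
    rw [hx, Real.sqrt_le_one]
    exact hn2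
  have hZ := hG.partition_lower hε hn1
  have hpos : 0 < ∫ Z in excl ε n, P.rho Z := (Real.exp_pos _).trans_le hZ
  set m : ℕ := n / s with hm
  have hm1 : 1 ≤ m := (Nat.one_le_div_iff (by omega)).2 hsn
  have hm0 : (0 : ℝ) < m := by exact_mod_cast hm1
  have hms : m * s ≤ n := Nat.div_mul_le_self n s
  have hnm : (n : ℝ) ≤ 2 * s * m := by
    have h1 : n < s * (m + 1) := by
      rw [hm]
      exact Nat.lt_mul_div_succ n (by omega)
    have h2 : n ≤ 2 * s * m := by nlinarith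
    exact_mod_cast h2
  have hb := hG.limit_bound (n := n) hΦ hε hl hB₁ hB₂ hs₁ hs₂ hpos ht hms hg hg1
    (θ := x / 2) (by positivity) (by linarith only [hx1])
  set A := ∑ I : Fin s ↪ Fin n, P.ex (excl ε n) (fun Z => g (fun r => flow Φ ε t Z (I r)))
    with hA
  set card : ℝ := (Fintype.card (Fin s ↪ Fin n) : ℝ) with hcard
  have hcard0 : 0 ≤ card := Nat.cast_nonneg _
  set w := Real.exp (P.rate T l * T) with hw
  have hw0 : 0 < w := Real.exp_pos _
  have hexc : P.exc T κ l B₁ B₂ ε (excl ε n) ≤ (P.ec T κ l B₁ B₂ + κ) * (ε ^ 3 * (n : ℝ) ^ 2) := by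
    unfold Par.exc
    have h1 : -(κ * ε ^ 3 * (n : ℝ) ^ 2) ≤ Real.log (∫ Z in excl ε n, P.rho Z) := by
      rw [Real.le_log_iff_exp_le hpos]
      exact hZ
    linarith only [h1]
  have hec : 0 ≤ P.ec T κ l B₁ B₂ := hG.ec_nonneg
  have hκ := hG.κ_nonneg
  set Q := P.ec T κ l B₁ B₂ + κ with hQ
  have hQ0 : 0 ≤ Q := by (clear * - hec hκ; positivity)
  -- bound the excess by a multiple of `m x²`
  have hexc2 : P.exc T κ l B₁ B₂ ε (excl ε n) * w ≤ m * (2 * s * (Q * w) * x ^ 2) := by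
    have h1 : ε ^ 3 * (n : ℝ) ^ 2 ≤ (2 * s * m) * x ^ 2 := by
      rw [hx2]
      have h2 : ε ^ 3 * (n : ℝ) ^ 2 = n * (n * ε ^ 3) := by ring
      rw [h2]
      exact mul_le_mul_of_nonneg_right hnm (by positivity)
    calc P.exc T κ l B₁ B₂ ε (excl ε n) * w ≤ Q * (ε ^ 3 * (n : ℝ) ^ 2) * w := by
          apply mul_le_mul_of_nonneg_right hexc hw0.le
      _ ≤ Q * ((2 * s * m) * x ^ 2) * w := by
          apply mul_le_mul_of_nonneg_right _ hw0.le
          exact mul_le_mul_of_nonneg_left h1 hQ0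
      _ = _ := by ring
  have h3 : x / 2 * (m * A) ≤
      x / 2 * (m * (card * (P.avg t g + (1 + 4 * s * (Q * w)) * x))) := by
    refine hb.trans ?_
    calc card * (m * (x / 2 * P.avg t g + 2 * (x / 2) ^ 2) +
          P.exc T κ l B₁ B₂ ε (excl ε n) * w)
        ≤ card * (m * (x / 2 * P.avg t g + 2 * (x / 2) ^ 2) +
          m * (2 * s * (Q * w) * x ^ 2)) := by
          apply mul_le_mul_of_nonneg_left _ hcard0
          linarith only [hexc2]
      _ = _ := by ring
  have h4 := le_of_mul_le_mul_left h3 (by positivity)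
  exact le_of_mul_le_mul_left h4 hm0

/-- **The canonical estimate.** -/
theorem Par.Good.canonical (hG : P.Good T κ) (hΦ : IsPotential Φ)
    (hl : 0 < l) (hB₁ : 0 ≤ B₁) (hB₂ : 0 ≤ B₂) (hs₁ : StabC Φ B₁)
    (hs₂ : StabC (fun y => Φ y - l * vir Φ y) B₂) (s : ℕ) :
    ∃ C : ℝ, 0 ≤ C ∧ ∀ ε : ℝ, 0 < ε → ∀ t ∈ Icc 0 T, ∀ N : ℕ, s ≤ N →
      ∀ g : (Fin s → Ph) → ℝ, Measurable g → (∀ z, |g z| ≤ 1) →
      |(∫ Z : Fin N → Ph, wt (P.ft 0) ε Z *
          ∑ σ : Fin s ↪ Fin N, g (fun k => flow Φ ε t Z (σ k))) -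
        (N.descFactorial s : ℝ) * (∫ Z : Fin N → Ph, wt (P.ft 0) ε Z) *
          ∫ z, g z * ∏ k, P.ft t (z k)| ≤
        (N.descFactorial s : ℝ) * (∫ Z : Fin N → Ph, wt (P.ft 0) ε Z) *
          (C * Real.sqrt (N * ε ^ 3)) := by
  have hκ := hG.κ_nonneg
  have hec : 0 ≤ P.ec T κ l B₁ B₂ := hG.ec_nonneg
  set C₁ : ℝ := 1 + 4 * s * ((P.ec T κ l B₁ B₂ + κ) * Real.exp (P.rate T l * T)) with hC₁
  have hC₁0 : 0 ≤ C₁ := by positivity
  refine ⟨C₁ + 2 * (1 + 2 * κ), by (clear * - hec hκ; positivity), ?_⟩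
  intro ε hε t ht N hsN g hg hg1
  obtain ⟨Sf, hSm, hSe, -, -⟩ := flow_on_excl hΦ hε ht.1 N
  have hex := measurableSet_excl ε N
  have hρi : Integrable (fun Z : Fin N → Ph => P.rho Z) (volume.restrict (excl ε N)) :=
    hG.integrable_rho.integrableOn
  set ZN := ∫ Z in excl ε N, P.rho Z with hZN
  have hZN0 : 0 ≤ ZN := integral_nonneg fun Z => (Real.exp_pos _).le
  have hwt : ∫ Z : Fin N → Ph, wt (P.ft 0) ε Z = ZN := by
    have h2 := integral_wt_ft (n := N) P ε (fun _ => 1)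
    simp only [mul_one, one_mul] at h2
    exact h2
  have hcard : (N.descFactorial s : ℝ) = (Fintype.card (Fin s ↪ Fin N) : ℝ) := by
    rw [Fintype.card_embedding_eq, Fintype.card_fin, Fintype.card_fin]
  set F : (Fin s ↪ Fin N) → ℝ := fun I =>
    ∫ Z in excl ε N, g (fun r => flow Φ ε t Z (I r)) * P.rho Z with hF
  have hGm : ∀ I : Fin s ↪ Fin N, Measurable fun Z => g (fun r => Sf Z (I r)) := by
    intro I
    refine hg.comp ?_
    rw [measurable_pi_iff]
    intro r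
    exact (measurable_pi_apply _).comp hSm
  have hsum : ∫ Z : Fin N → Ph, wt (P.ft 0) ε Z *
      ∑ σ : Fin s ↪ Fin N, g (fun k => flow Φ ε t Z (σ k)) = ∑ I, F I := by
    rw [integral_wt_ft]
    have h1 : ∫ Z in excl ε N, (∑ σ : Fin s ↪ Fin N, g (fun k => flow Φ ε t Z (σ k))) * P.rho Z =
        ∫ Z in excl ε N, ∑ σ : Fin s ↪ Fin N, g (fun k => flow Φ ε t Z (σ k)) * P.rho Z := by
      refine integral_congr_ae (Eventually.of_forall fun Z => ?_)
      simp only
      rw [Finset.sum_mul]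
    rw [h1]
    refine integral_finsetSum _ fun I _ => ?_
    have h2 : Integrable (fun Z => g (fun r => Sf Z (I r)) * P.rho Z)
        (volume.restrict (excl ε N)) :=
      hρi.bdd_mul (c := 1) (hGm I).aestronglyMeasurable (Eventually.of_forall fun Z => hg1 _)
    refine h2.congr ?_
    filter_upwards [ae_restrict_mem hex] with Z hZ
    rw [hSe Z hZ]
  have hFex : ∀ I, F I = ZN * P.ex (excl ε N) (fun Z => g (fun r => flow Φ ε t Z (I r))) := by
    intro I
    by_cases h0 : ZN = 0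
    · rw [h0, zero_mul]
      have h1 : ∀ᵐ Z ∂(volume.restrict (excl ε N)), P.rho Z = 0 := by
        have := (integral_eq_zero_iff_of_nonneg (fun Z : Fin N → Ph => (Real.exp_pos _).le)
          hρi).1 h0
        exact this
      simp only [hF]
      rw [integral_eq_zero_of_ae]
      filter_upwards [h1] with Z hZ
      rw [hZ, mul_zero]
      rfl
    · unfold Par.ex
      rw [← hZN, mul_div_cancel₀ _ h0]
  rw [hsum, hwt, hcard]
  simp_rw [hFex]
  rw [← Finset.mul_sum]
  set A := ∑ I : Fin s ↪ Fin N, P.ex (excl ε N) (fun Z => g (fun r => flow Φ ε t Z (I r)))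
    with hA
  set card : ℝ := (Fintype.card (Fin s ↪ Fin N) : ℝ) with hcard'
  have hcard0 : 0 ≤ card := Nat.cast_nonneg _
  have hav : ∫ z, g z * ∏ k, P.ft t (z k) = P.avg t g := rfl
  rw [hav]
  have hx0 : 0 ≤ Real.sqrt (N * ε ^ 3) := Real.sqrt_nonneg _
  rcases hZN0.eq_or_lt with hZ0 | hZpos
  · rw [← hZ0]
    simp
  -- the estimate for `A`
  have hAb : |A - card * P.avg t g| ≤
      card * ((C₁ + 2 * (1 + 2 * κ)) * Real.sqrt (N * ε ^ 3)) := by
    rcases Nat.eq_zero_or_pos s with hs0 | hs1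
    · subst hs0
      -- no particles are tested
      have hgc : ∀ z : Fin 0 → Ph, g z = g default := fun z => by rw [Subsingleton.elim z default]
      have havg : P.avg t g = g default := by
        unfold Par.avg
        have h1 : ∀ z : Fin 0 → Ph, g z * ∏ k, P.ft t (z k) = g default := by
          intro z
          rw [hgc z]
          simp
        simp_rw [h1]
        rw [integral_const]
        have h2 : (volume : Measure (Fin 0 → Ph)).real univ = 1 := by
          rw [measureReal_def, volume_pi, Measure.pi_of_empty]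
          simp
        rw [h2, one_smul]
      have hA0 : A = card * g default := by
        have h1 : ∀ I : Fin 0 ↪ Fin N,
            P.ex (excl ε N) (fun Z => g (fun r => flow Φ ε t Z (I r))) = g default := by
          intro I
          unfold Par.ex
          have h2 : ∀ Z : Fin N → Ph, g (fun r => flow Φ ε t Z (I r)) = g default :=
            fun Z => hgc _
          simp_rw [h2]
          rw [integral_const_mul, ← hZN, mul_div_cancel_right₀ _ hZpos.ne']
        rw [hA, Finset.sum_congr rfl fun I _ => h1 I, Finset.sum_const, Finset.card_univ,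
          nsmul_eq_mul]
      rw [havg, hA0, sub_self, abs_zero]
      (clear * - hec hκ; positivity)
    · by_cases hreg : N * (κ * ε ^ 3) ≤ 1 / 2 ∧ N * ε ^ 3 ≤ 1
      · have h1 := hG.one_sided hΦ hε hl hB₁ hB₂ hs₁ hs₂ ht hs1 hsN hreg.1 hreg.2 hg hg1
        have h2 := hG.one_sided hΦ hε hl hB₁ hB₂ hs₁ hs₂ ht hs1 hsN hreg.1 hreg.2
          (g := fun z => -g z) hg.neg (fun z => by rw [abs_neg]; exact hg1 z)
        simp_rw [P.ex_neg, P.avg_neg] at h2
        rw [Finset.sum_neg_distrib] at h2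
        rw [← hA, ← hC₁] at h1 h2
        rw [← hcard'] at h1 h2
        have h3 : 0 ≤ card * (2 * (1 + 2 * κ) * Real.sqrt (N * ε ^ 3)) := by (clear * - hκ; positivity)
        rw [abs_le]
        constructor <;> nlinarith
      · have h1 : |A| ≤ card := by
          refine (Finset.abs_sum_le_sum_abs _ _).trans ?_
          refine (Finset.sum_le_sum fun I _ => hG.abs_ex_le (excl ε N) (g := fun Z =>
            g (fun r => flow Φ ε t Z (I r))) (fun Z => hg1 _)).trans ?_
          simp [hcard']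
        have h2 := hG.abs_avg_le ht hg1
        have h3 : |A - card * P.avg t g| ≤ 2 * card := by
          refine (abs_sub _ _).trans ?_
          rw [abs_mul, abs_of_nonneg hcard0]
          linarith only [mul_nonneg (sub_nonneg.2 hcard0) (sub_nonneg.2 h2), h1]
        have h4 : 1 ≤ (1 + 2 * κ) * Real.sqrt (N * ε ^ 3) := by
          have h5 : 1 ≤ (1 + 2 * κ) * (N * ε ^ 3) := by
            have h7 : 0 ≤ (N : ℝ) * ε ^ 3 := by (clear * - hε; positivity)
            by_cases h6 : N * ε ^ 3 ≤ 1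
            · have h8 : ¬ N * (κ * ε ^ 3) ≤ 1 / 2 := fun h => hreg ⟨h, h6⟩
              push Not at h8
              linarith only [h8, h7]
            · push Not at h6
              linarith only [mul_nonneg (sub_nonneg.2 hκ) (sub_nonneg.2 h7), h6]
          have h6 : 1 ≤ (1 + 2 * κ) ^ 2 * (N * ε ^ 3) := by
            have h7 : 0 ≤ (N : ℝ) * ε ^ 3 := by (clear * - hε; positivity)
            (by_contra nlg; linarith only [nlg, mul_nonneg (sub_nonneg.2 hκ) (sub_nonneg.2 hκ), mul_nonneg (le_of_lt (sub_pos.2 (not_le.1 nlg))) (sub_nonneg.2 hκ), mul_nonneg (sq_nonneg (1 + 2 * κ : ℝ)) (sub_nonneg.2 h5), hκ])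
          have h8 : Real.sqrt 1 ≤ Real.sqrt ((1 + 2 * κ) ^ 2 * (N * ε ^ 3)) :=
            Real.sqrt_le_sqrt h6
          rwa [Real.sqrt_one, Real.sqrt_mul (sq_nonneg _), Real.sqrt_sq (by (clear * - hκ; positivity))] at h8
        calc |A - card * P.avg t g| ≤ 2 * card := h3
          _ = card * (2 * 1) := by ring
          _ ≤ card * ((C₁ + 2 * (1 + 2 * κ)) * Real.sqrt (N * ε ^ 3)) := by
              apply mul_le_mul_of_nonneg_left _ hcard0
              linarith only [mul_nonneg hC₁0 hx0, h4]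
  have h9 : ZN * A - card * ZN * P.avg t g = ZN * (A - card * P.avg t g) := by ring
  rw [h9, abs_mul, abs_of_nonneg hZN0]
  calc ZN * |A - card * P.avg t g| ≤
      ZN * (card * ((C₁ + 2 * (1 + 2 * κ)) * Real.sqrt (N * ε ^ 3))) :=
        mul_le_mul_of_nonneg_left hAb hZN0
    _ = _ := by ring

end Vale.Agent.P119
end
end

section

open MeasureTheory Filter Topology Set
open scoped ENNReal RealInnerProductSpace

namespace Vale.Agent.P119

theorem qmp_comp_embedding {N s : ℕ} (σ : Fin s ↪ Fin N) :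
    Measure.QuasiMeasurePreserving (fun (Z : Fin N → Ph) (k : Fin s) => Z (σ k))
      volume volume := by
  classical
  let p : Fin N → Prop := fun i => i ∈ Set.range σ
  let ft : Fintype {i // p i} := Subtype.fintype p
  let f : {i // p i} ≃ Fin s := (Equiv.ofInjective σ σ.injective).symm
  have h1 := volume_preserving_piEquivPiSubtypeProd (fun _ : Fin N => Ph) p
  have h2 : Measure.QuasiMeasurePreserving
      (Prod.fst : ({i // p i} → Ph) × ({i // ¬ p i} → Ph) → ({i // p i} → Ph))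
      (volume.prod volume) volume := Measure.quasiMeasurePreserving_fst
  have h3 := volume_measurePreserving_piCongrLeft (fun _ : Fin s => Ph) f
  have h1' : Measure.QuasiMeasurePreserving
      (MeasurableEquiv.piEquivPiSubtypeProd (fun _ : Fin N => Ph) p) volume
      (volume.prod volume) := by
    rw [← Measure.volume_eq_prod]
    exact h1.quasiMeasurePreserving
  have h := (h3.quasiMeasurePreserving.comp h2).comp h1'
  have heq : (fun (Z : Fin N → Ph) (k : Fin s) => Z (σ k)) =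
      ((MeasurableEquiv.piCongrLeft (fun _ : Fin s => Ph) f) ∘ Prod.fst) ∘
        (MeasurableEquiv.piEquivPiSubtypeProd (fun _ : Fin N => Ph) p) := by
    funext Z k
    simp only [Function.comp_apply]
    have h4 := Equiv.piCongrLeft_apply_apply (fun _ : Fin s => Ph) f
        ((MeasurableEquiv.piEquivPiSubtypeProd (fun _ : Fin N => Ph) p) Z).1 (f.symm k)
    rw [Equiv.apply_symm_apply] at h4
    rw [MeasurableEquiv.coe_piCongrLeft, h4]
    rfl
  rw [heq]
  exact h

theorem exists_density {s : ℕ} (M : Measure (Fin s → Ph)) [IsFiniteMeasure M]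
    (hM : M ≪ volume) :
    ∃ F : (Fin s → Ph) → ℝ, Integrable F ∧ ∀ a : (Fin s → Ph) → ℝ,
      ∫ z, a z * F z = ∫ z, a z ∂M := by
  refine ⟨fun z => (M.rnDeriv volume z).toReal, Measure.integrable_toReal_rnDeriv, fun a => ?_⟩
  rw [← integral_rnDeriv_smul hM]
  refine integral_congr_ae (Eventually.of_forall fun z => ?_)
  simp only [smul_eq_mul]
  ring

/-- Facts on the initial datum used in the grand-canonical computation. -/
structure GoodDatum (f₀ : Ph → ℝ) (κ : ℝ) : Prop where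
  meas : Measurable f₀
  nonneg : ∀ z, 0 ≤ f₀ z
  integrable : Integrable f₀
  integral_eq : ∫ z, f₀ z = 1
  κ_nonneg : 0 ≤ κ
  ball : ∀ ε : ℝ, 0 < ε → ∀ y : E3, law f₀ {z | ‖y - z.1‖ ≤ ε} ≤ ENNReal.ofReal (κ * ε ^ 3)

/-- On the exclusion set the particle flow at time `t` is a measurable nonsingular map. -/
def GoodFlow (Φ : E3 → ℝ) (ε t : ℝ) : Prop :=
  ∀ N : ℕ, ∃ S : (Fin N → Ph) → (Fin N → Ph), Measurable S ∧ volume.map S ≪ volume ∧
    ∀ Z ∈ excl ε N, flow Φ ε t Z = S Z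

theorem expect_eq (f₀ : Ph → ℝ) (ε : ℝ) (g : (N : ℕ) → (Fin N → Ph) → ℝ) :
    expect f₀ ε g = (partitionFn f₀ ε)⁻¹ *
      ∑' N : ℕ, aw (mu ε) N * ∫ Z : Fin N → Ph, wt f₀ ε Z * g N Z := rfl

section

variable {Φ : E3 → ℝ} {f₀ : Ph → ℝ} {κ ε t : ℝ} {s : ℕ}

theorem GoodDatum.canSeq (h : GoodDatum f₀ κ) (hε : 0 < ε) :
    CanSeq (fun N => ∫ Z : Fin N → Ph, wt f₀ ε Z) (κ * ε ^ 3) := by
  have := isProbabilityMeasure_law h.nonneg h.integrable h.integral_eq
  have h1 := canSeq_excl (law f₀) (ε := ε) (mul_nonneg h.κ_nonneg (by positivity))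
    (h.ball ε hε)
  have h2 : (fun N => ∫ Z : Fin N → Ph, wt f₀ ε Z) =
      fun N => (Measure.pi fun _ : Fin N => law f₀).real (excl ε N) := by
    funext N
    exact integral_wt h.meas h.nonneg h.integrable ε
  rw [h2]
  exact h1

theorem partitionFn_eq (f₀ : Ph → ℝ) (ε : ℝ) :
    partitionFn f₀ ε = ∑' N, aw (mu ε) N * ∫ Z : Fin N → Ph, wt f₀ ε Z := rfl

theorem integrable_wt (h : GoodDatum f₀ κ) (ε : ℝ) (N : ℕ) :
    Integrable (fun Z : Fin N → Ph => wt f₀ ε Z) := by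
  have h1 : Integrable (fun Z : Fin N → Ph => ∏ i, f₀ (Z i)) :=
    Integrable.fintype_prod (fun _ => h.integrable)
  exact h1.indicator (measurableSet_excl ε N)

theorem sum_embedding_integral (h : GoodDatum f₀ κ) (hS : GoodFlow Φ ε t) (N : ℕ)
    (a : (Fin s → Ph) → ℝ) (ham : Measurable a) (ha : ∃ C, ∀ z, |a z| ≤ C) :
    ∫ Z : Fin N → Ph, wt f₀ ε Z * (∑ σ : Fin s ↪ Fin N, a (fun k => flow Φ ε t Z (σ k))) =
      ∑ σ : Fin s ↪ Fin N, ∫ Z : Fin N → Ph, wt f₀ ε Z * a (fun k => flow Φ ε t Z (σ k)) := by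
  obtain ⟨C, hC⟩ := ha
  obtain ⟨S, hSm, _, hSe⟩ := hS N
  simp_rw [Finset.mul_sum]
  refine integral_finsetSum _ fun σ _ => ?_
  have heq : (fun Z : Fin N → Ph => wt f₀ ε Z * a (fun k => flow Φ ε t Z (σ k))) =
      fun Z => wt f₀ ε Z * a (fun k => S Z (σ k)) := by
    funext Z
    by_cases hZ : Z ∈ excl ε N
    · rw [hSe Z hZ]
    · rw [wt, indicator_of_notMem hZ, zero_mul, zero_mul]
  rw [heq]
  refine (integrable_wt h ε N).mul_bdd (c := C) ?_ ?_
  · have hm : Measurable (fun Z : Fin N → Ph => a (fun k => S Z (σ k))) := by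
      refine ham.comp ?_
      rw [measurable_pi_iff]
      intro k
      exact (measurable_pi_apply (σ k)).comp hSm
    exact hm.aestronglyMeasurable
  · refine Eventually.of_forall fun Z => ?_
    rw [Real.norm_eq_abs]
    exact hC _

/-- Existence of the rescaled factorial marginals. -/
theorem exists_marginal (h : GoodDatum f₀ κ) (hε : 0 < ε) (hS : GoodFlow Φ ε t) (s : ℕ) :
    ∃ F, IsMarginal Φ f₀ ε t s F := by
  classical
  choose S hSm hSac hSe using hS
  have hμ : 0 < mu ε := by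
    unfold mu
    positivity
  set z : ℕ → ℝ := fun N => ∫ Z : Fin N → Ph, wt f₀ ε Z with hz
  have hcs : CanSeq z (κ * ε ^ 3) := h.canSeq hε
  have hΞ : 0 < partitionFn f₀ ε := by
    rw [partitionFn_eq]
    exact hcs.partition_pos hμ
  set c : ℝ := (mu ε ^ s)⁻¹ * (partitionFn f₀ ε)⁻¹ with hc
  have hc0 : 0 < c := by positivity
  let P : (N : ℕ) → Measure (Fin N → Ph) := fun N =>
    (volume : Measure (Fin N → Ph)).withDensity (fun Z => ENNReal.ofReal (wt f₀ ε Z))
  have hProj : ∀ (N : ℕ) (σ : Fin s ↪ Fin N), Measurable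
      (fun (Z : Fin N → Ph) (k : Fin s) => S N Z (σ k)) := by
    intro N σ
    rw [measurable_pi_iff]
    intro k
    exact (measurable_pi_apply (σ k)).comp (hSm N)
  let Q : (N : ℕ) → Measure (Fin s → Ph) := fun N =>
    ∑ σ : Fin s ↪ Fin N, (P N).map (fun (Z : Fin N → Ph) (k : Fin s) => S N Z (σ k))
  let M : Measure (Fin s → Ph) :=
    Measure.sum (fun N => ENNReal.ofReal (c * aw (mu ε) N) • Q N)
  have hPfin : ∀ N, P N univ = ENNReal.ofReal (z N) := by
    intro N
    simp only [P]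
    rw [withDensity_apply _ MeasurableSet.univ, setLIntegral_univ,
      ← ofReal_integral_eq_lintegral_ofReal (integrable_wt h ε N)
        (Eventually.of_forall fun Z => wt_nonneg h.nonneg ε Z)]
  have hPf : ∀ N, IsFiniteMeasure (P N) := fun N => ⟨by
    rw [hPfin]
    exact ENNReal.ofReal_lt_top⟩
  have hQuniv : ∀ N, Q N univ = ENNReal.ofReal ((N.descFactorial s : ℝ) * z N) := by
    intro N
    simp only [Q]
    rw [Measure.finsetSum_apply]
    have : ∀ σ : Fin s ↪ Fin N,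
        ((P N).map (fun (Z : Fin N → Ph) (k : Fin s) => S N Z (σ k))) univ =
          ENNReal.ofReal (z N) := by
      intro σ
      rw [Measure.map_apply (hProj N σ) MeasurableSet.univ, preimage_univ, hPfin]
    simp_rw [this]
    rw [Finset.sum_const, Finset.card_univ, Fintype.card_embedding_eq, Fintype.card_fin,
      Fintype.card_fin, nsmul_eq_mul, ENNReal.ofReal_mul (Nat.cast_nonneg _),
      ENNReal.ofReal_natCast]
  have hsumm : Summable (fun N => c * aw (mu ε) N * ((N.descFactorial s : ℝ) * z N)) := by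
    have := (summable_aw_desc (μ := mu ε) s z 1 hμ.le hcs.abs_le).mul_left c
    refine this.congr fun N => ?_
    ring
  have hMfin : IsFiniteMeasure M := by
    constructor
    have hM1 : M univ = ∑' N, ENNReal.ofReal (c * aw (mu ε) N * ((N.descFactorial s : ℝ) * z N)) := by
      simp only [M]
      rw [Measure.sum_apply _ MeasurableSet.univ]
      refine tsum_congr fun N => ?_
      rw [Measure.smul_apply, hQuniv, smul_eq_mul,
        ← ENNReal.ofReal_mul (mul_nonneg hc0.le (aw_nonneg hμ.le N))]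
    rw [hM1]
    rw [← ENNReal.ofReal_tsum_of_nonneg (fun N => ?_) hsumm]
    · exact ENNReal.ofReal_lt_top
    · exact mul_nonneg (mul_nonneg hc0.le (aw_nonneg hμ.le N))
        (mul_nonneg (Nat.cast_nonneg _) (hcs.nonneg N))
  have hMac : M ≪ volume := by
    intro A hA
    simp only [M]
    rw [Measure.sum_apply_eq_zero]
    intro N
    rw [Measure.smul_apply, smul_eq_mul, mul_eq_zero]
    right
    simp only [Q]
    rw [Measure.finsetSum_apply]
    refine Finset.sum_eq_zero fun σ _ => ?_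
    have hq : Measure.QuasiMeasurePreserving
        (fun (Z : Fin N → Ph) (k : Fin s) => S N Z (σ k)) volume volume :=
      (qmp_comp_embedding σ).comp ⟨hSm N, hSac N⟩
    have hac : P N ≪ volume := withDensity_absolutelyContinuous _ _
    exact (hac.map (hProj N σ)).trans hq.absolutelyContinuous hA
  obtain ⟨F, hF, hFa⟩ := exists_density M hMac
  refine ⟨F, hF, fun a ham ha => ?_⟩
  rw [hFa a]
  obtain ⟨C, hC⟩ := ha
  have hint : Integrable a M :=
    Integrable.of_bound ham.aestronglyMeasurable C (Eventually.of_forall fun z => by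
      rw [Real.norm_eq_abs]
      exact hC z)
  simp only [M] at hint ⊢
  rw [integral_sum_measure hint, expect_eq, ← mul_assoc, ← hc, ← tsum_mul_left]
  refine tsum_congr fun N => ?_
  rw [integral_smul_measure, ENNReal.toReal_ofReal (mul_nonneg hc0.le (aw_nonneg hμ.le N)),
    smul_eq_mul, ← mul_assoc]
  congr 1
  simp only [Q]
  rw [sum_embedding_integral h (fun N => ⟨S N, hSm N, hSac N, hSe N⟩) N a ham ⟨C, hC⟩]
  rw [integral_finsetSum_measure]
  · refine Finset.sum_congr rfl fun σ _ => ?_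
    rw [integral_map (hProj N σ).aemeasurable ham.aestronglyMeasurable]
    simp only [P]
    rw [integral_withDensity_eq_integral_toReal_smul
      (measurable_wt h.meas ε).ennreal_ofReal
      (Eventually.of_forall fun Z => ENNReal.ofReal_lt_top)]
    refine integral_congr_ae (Eventually.of_forall fun Z => ?_)
    simp only [smul_eq_mul]
    rw [ENNReal.toReal_ofReal (wt_nonneg h.nonneg ε Z)]
    by_cases hZ : Z ∈ excl ε N
    · rw [hSe N Z hZ]
    · rw [wt, indicator_of_notMem hZ, zero_mul, zero_mul]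
  · intro σ _
    have : IsFiniteMeasure ((P N).map (fun (Z : Fin N → Ph) (k : Fin s) => S N Z (σ k))) :=
      Measure.isFiniteMeasure_map _ _
    exact Integrable.of_bound ham.aestronglyMeasurable C (Eventually.of_forall fun z => by
      rw [Real.norm_eq_abs]
      exact hC z)

/-- Convergence of the grand-canonical averages from a canonical estimate. -/
theorem marginal_close (h : GoodDatum f₀ κ) (hε : 0 < ε)
    {δ : ℝ} (hδ : 0 ≤ δ) {F : (Fin s → Ph) → ℝ} (hF : IsMarginal Φ f₀ ε t s F)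
    (a : (Fin s → Ph) → ℝ) (ham : Measurable a) (ha : ∀ z, |a z| ≤ 1) {A : ℝ} (hA : |A| ≤ 1)
    (hcan : ∀ N : ℕ,
      |(∫ Z : Fin N → Ph, wt f₀ ε Z * ∑ σ : Fin s ↪ Fin N, a (fun k => flow Φ ε t Z (σ k))) -
        (N.descFactorial s : ℝ) * (∫ Z : Fin N → Ph, wt f₀ ε Z) * A| ≤
        (N.descFactorial s : ℝ) * (∫ Z : Fin N → Ph, wt f₀ ε Z) * (δ * (1 + N / mu ε))) :
    |(∫ z, a z * F z) - A| ≤
      δ * (2 + s / mu ε) + s * (κ * ε ^ 3) * (mu ε + s) := by
  have hμ : 0 < mu ε := by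
    unfold mu
    positivity
  have hcs := h.canSeq hε
  rw [hF.2 a ham ⟨1, ha⟩, expect_eq, partitionFn_eq]
  exact hcs.average_close (mul_nonneg h.κ_nonneg (by positivity)) hμ hδ s hA _ hcan

/-- Duality for the `L¹` distance. -/
theorem lintegral_enorm_sub_le {F G : (Fin s → Ph) → ℝ} (hF : Integrable F) (hG : Integrable G)
    {η : ℝ}
    (hb : ∀ a : (Fin s → Ph) → ℝ, Measurable a → (∀ z, |a z| ≤ 1) →
      |(∫ z, a z * F z) - ∫ z, a z * G z| ≤ η) :
    ∫⁻ z, ‖F z - G z‖ₑ ≤ ENNReal.ofReal η := by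
  have hFG : Integrable (fun z => F z - G z) := hF.sub hG
  obtain ⟨H, hHm, hHe⟩ := hFG.aestronglyMeasurable
  have hHm' : Measurable H := hHm.measurable
  let a : (Fin s → Ph) → ℝ := fun z => if 0 ≤ H z then 1 else -1
  have ham : Measurable a :=
    Measurable.ite (measurableSet_le measurable_const hHm') measurable_const measurable_const
  have ha : ∀ z, |a z| ≤ 1 := by
    intro z
    simp only [a]
    split_ifs <;> simp
  have h1 := hb a ham ha
  have hia : ∀ {K : (Fin s → Ph) → ℝ}, Integrable K → Integrable (fun z => a z * K z) := by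
    intro K hK
    refine hK.bdd_mul (c := 1) ham.aestronglyMeasurable (Eventually.of_forall fun z => ?_)
    rw [Real.norm_eq_abs]
    exact ha z
  rw [← integral_sub (hia hF) (hia hG)] at h1
  have h2 : ∫ z, (a z * F z - a z * G z) = ∫ z, ‖F z - G z‖ := by
    refine integral_congr_ae ?_
    filter_upwards [hHe] with z hz
    rw [← mul_sub, hz, Real.norm_eq_abs]
    simp only [a]
    split_ifs with hpos
    · rw [one_mul, abs_of_nonneg hpos]
    · rw [abs_of_neg (not_le.1 hpos)]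
      ring
  rw [h2] at h1
  have h3 : ∫⁻ z, ‖F z - G z‖ₑ = ENNReal.ofReal (∫ z, ‖F z - G z‖) := by
    rw [ofReal_integral_norm_eq_lintegral_enorm hFG]
  rw [h3]
  exact ENNReal.ofReal_le_ofReal ((le_abs_self _).trans h1)

end

/-- From the canonical estimate to the kinetic limit. -/
theorem kineticLimit_of_canonical {Φ : E3 → ℝ} {f₀ : Ph → ℝ} {κ T : ℝ} {s : ℕ}
    {f : ℝ → Ph → ℝ} (h : GoodDatum f₀ κ)
    (hf : ∀ t ∈ Icc 0 T, Integrable (f t) ∧ (∀ z, 0 ≤ f t z) ∧ ∫ z, f t z = 1)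
    (hS : ∀ ε ∈ Ioo (0 : ℝ) 1, ∀ t ∈ Icc 0 T, GoodFlow Φ ε t)
    {C : ℝ} (hC : 0 ≤ C)
    (hcan : ∀ ε ∈ Ioo (0 : ℝ) 1, ∀ t ∈ Icc 0 T, ∀ N : ℕ, s ≤ N →
      ∀ a : (Fin s → Ph) → ℝ, Measurable a → (∀ z, |a z| ≤ 1) →
      |(∫ Z : Fin N → Ph, wt f₀ ε Z * ∑ σ : Fin s ↪ Fin N, a (fun k => flow Φ ε t Z (σ k))) -
        (N.descFactorial s : ℝ) * (∫ Z : Fin N → Ph, wt f₀ ε Z) *
          ∫ z, a z * ∏ k, f t (z k)| ≤
        (N.descFactorial s : ℝ) * (∫ Z : Fin N → Ph, wt f₀ ε Z) *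
          (C * Real.sqrt (N * ε ^ 3))) :
    KineticLimit Φ f₀ T f s := by
  refine ⟨fun ε hε t ht => exists_marginal h hε.1 (hS ε hε t ht) s, fun F hF => ?_⟩
  -- the explicit rate
  set η : ℝ → ℝ := fun ε => C * Real.sqrt ε * (2 + s / mu ε) +
    s * (κ * ε ^ 3) * (mu ε + s) with hη
  have hbound : ∀ ε ∈ Ioo (0 : ℝ) 1,
      ⨆ t ∈ Icc 0 T, ∫⁻ z, ‖F ε t z - ∏ k, f t (z k)‖ₑ ≤ ENNReal.ofReal (η ε) := by
    intro ε hε
    refine iSup₂_le fun t ht => ?_
    have hprod : Integrable (fun z : Fin s → Ph => ∏ k, f t (z k)) :=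
      Integrable.fintype_prod (fun _ => (hf t ht).1)
    refine lintegral_enorm_sub_le (hF ε hε t ht).1 hprod fun a ham ha => ?_
    refine marginal_close h hε.1 (mul_nonneg hC (Real.sqrt_nonneg _))
      (hF ε hε t ht) a ham ha ?_ (fun N => ?_)
    swap
    · have hz0 : 0 ≤ (N.descFactorial s : ℝ) * (∫ Z : Fin N → Ph, wt f₀ ε Z) :=
        mul_nonneg (Nat.cast_nonneg _) (integral_nonneg fun Z => wt_nonneg h.nonneg ε Z)
      rcases le_or_gt s N with hsN | hsN
      · refine (hcan ε hε t ht N hsN a ham ha).trans (mul_le_mul_of_nonneg_left ?_ hz0)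
        rw [mul_assoc]
        refine mul_le_mul_of_nonneg_left ?_ hC
        have hε0 := hε.1
        have h1 : (N : ℝ) / mu ε = N * ε ^ 2 := by
          unfold mu
          field_simp
        rw [h1]
        have h2 : (N : ℝ) * ε ^ 3 = ε * (N * ε ^ 2) := by ring
        rw [h2, Real.sqrt_mul hε0.le]
        refine mul_le_mul_of_nonneg_left ?_ (Real.sqrt_nonneg _)
        have h3 : 0 ≤ (N : ℝ) * ε ^ 2 := by positivity
        linarith only [sq_nonneg (Real.sqrt ((N : ℝ) * ε ^ 2) - 1), Real.sq_sqrt h3, h3]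
      · have hemp : IsEmpty (Fin s ↪ Fin N) := by
          rw [← Fintype.card_eq_zero_iff, Fintype.card_embedding_eq, Fintype.card_fin,
            Fintype.card_fin]
          exact Nat.descFactorial_eq_zero_iff_lt.2 hsN
        rw [Nat.descFactorial_eq_zero_iff_lt.2 hsN]
        simp
    have h1 : |∫ z, a z * ∏ k, f t (z k)| ≤ ∫ z : Fin s → Ph, ∏ k, f t (z k) := by
      rw [← Real.norm_eq_abs]
      refine norm_integral_le_of_norm_le hprod (Eventually.of_forall fun z => ?_)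
      have hp : 0 ≤ ∏ k, f t (z k) := Finset.prod_nonneg fun k _ => (hf t ht).2.1 _
      rw [norm_mul, Real.norm_of_nonneg hp, Real.norm_eq_abs]
      calc |a z| * ∏ k, f t (z k) ≤ 1 * ∏ k, f t (z k) :=
            mul_le_mul_of_nonneg_right (ha z) hp
        _ = _ := one_mul _
    refine h1.trans ?_
    have h2 : ∫ z : Fin s → Ph, ∏ k, f t (z k) = ∏ _k : Fin s, ∫ z, f t z :=
      integral_fin_nat_prod_volume_eq_prod (fun _ : Fin s => f t)
    rw [h2, (hf t ht).2.2]
    simp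
  have hlim : Tendsto η (𝓝[>] 0) (𝓝 0) := by
    have heq : ∀ ε ∈ Ioi (0 : ℝ), η ε = C * Real.sqrt ε * (2 + s * ε ^ 2) +
        s * κ * (ε + s * ε ^ 3) := by
      intro ε hε
      have hε' : (ε : ℝ) ≠ 0 := ne_of_gt hε
      simp only [hη, mu]
      field_simp
    have hcont : Continuous (fun ε : ℝ => C * Real.sqrt ε * (2 + s * ε ^ 2) +
        s * κ * (ε + s * ε ^ 3)) := by fun_prop
    have h0 := hcont.tendsto 0
    simp only [Real.sqrt_zero, mul_zero, zero_mul, ne_eq, OfNat.ofNat_ne_zero, not_false_eq_true,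
      zero_pow, add_zero] at h0
    refine (h0.mono_left nhdsWithin_le_nhds).congr' ?_
    filter_upwards [self_mem_nhdsWithin] with ε hε
    rw [heq ε hε]
  have hlim2 : Tendsto (fun ε => ENNReal.ofReal (η ε)) (𝓝[>] 0) (𝓝 0) := by
    have := ENNReal.tendsto_ofReal hlim
    rwa [ENNReal.ofReal_zero] at this
  refine tendsto_of_tendsto_of_tendsto_of_le_of_le' tendsto_const_nhds hlim2
    (Eventually.of_forall fun _ => zero_le) ?_
  filter_upwards [Ioo_mem_nhdsGT (show (0 : ℝ) < 1 by norm_num)] with ε hε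
  exact hbound ε hε

end Vale.Agent.P119
end

section

open MeasureTheory Filter Topology Set
open scoped ENNReal RealInnerProductSpace

namespace Vale.Agent.P119

/-- Free transport of `f₀`. -/
def free (f₀ : Ph → ℝ) (t : ℝ) : Ph → ℝ := fun z => f₀ (z.1 - t • z.2, z.2)

theorem measurePreserving_shear (t : ℝ) :
    MeasurePreserving (fun z : Ph => ((z.1 - t • z.2, z.2) : Ph)) volume volume := by
  have h1 : MeasurePreserving (fun p : E3 × E3 => ((p.1, p.2 - t • p.1) : E3 × E3))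
      (volume.prod volume) (volume.prod volume) := by
    refine (MeasurePreserving.id volume).skew_product (g := fun v x => x - t • v) ?_ ?_
    · exact (continuous_snd.sub (continuous_fst.const_smul t)).measurable
    · refine Eventually.of_forall fun v => ?_
      exact (measurePreserving_sub_right volume (t • v)).map_eq
  have h2 : MeasurePreserving (Prod.swap : E3 × E3 → E3 × E3)
      (volume.prod volume) (volume.prod volume) := Measure.measurePreserving_swap
  have h3 := (h2.comp h1).comp h2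
  rw [← Measure.volume_eq_prod] at h3
  exact h3

theorem exists_gaussian_bound {β : ℝ} {f₀ : Ph → ℝ} (h : IsDatum β f₀) :
    ∃ C : ℝ, 0 ≤ C ∧ ∀ x v : E3, Real.exp (2 * β * ‖v‖ ^ 2) * f₀ (x, v) ≤ C := by
  refine ⟨(gnorm (2 * β) f₀).toReal, ENNReal.toReal_nonneg, fun x v => ?_⟩
  -- a lattice point close to `x`
  let k : Fin 3 → ℤ := fun i => round (x i)
  have hk : ‖x - latPt k‖ ≤ 1 := by
    rw [EuclideanSpace.norm_eq, Real.sqrt_le_iff]
    refine ⟨zero_le_one, ?_⟩
    rw [one_pow]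
    have : ∀ i, ‖(x - latPt k) i‖ ^ 2 ≤ (1 / 4 : ℝ) := by
      intro i
      have h1 : |x i - round (x i)| ≤ 1 / 2 := abs_sub_round (x i)
      have h2 : (x - latPt k) i = x i - (round (x i) : ℝ) := by
        simp [latPt, k]
      rw [h2, Real.norm_eq_abs]
      have h3 := abs_nonneg (x i - round (x i))
      linarith only [mul_nonneg (sub_nonneg.2 h1) (sub_nonneg.2 h3), mul_nonneg (sub_nonneg.2 h1) (sub_nonneg.2 h1)]
    calc ∑ i, ‖(x - latPt k) i‖ ^ 2 ≤ ∑ _i : Fin 3, (1 / 4 : ℝ) :=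
          Finset.sum_le_sum fun i _ => this i
      _ ≤ 1 := by
          rw [Finset.sum_const, Finset.card_univ, Fintype.card_fin]
          norm_num
  have hle : ENNReal.ofReal (Real.exp (2 * β * ‖v‖ ^ 2) * ‖f₀ (x, v)‖) ≤ gnorm (2 * β) f₀ := by
    unfold gnorm
    refine le_trans ?_ (ENNReal.le_tsum k)
    exact le_iSup₂_of_le (f := fun (z : Ph) (_ : ‖z.1 - latPt k‖ ≤ 1) =>
      ENNReal.ofReal (Real.exp (2 * β * ‖z.2‖ ^ 2) * ‖f₀ z‖)) (x, v) hk le_rfl
  rw [Real.norm_of_nonneg (h.nonneg _)] at hle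
  rw [← ENNReal.ofReal_le_iff_le_toReal h.norm_lt.ne]
  exact hle

/-- Integral of the Gaussian weight. -/
noncomputable def gaussInt (β : ℝ) : ℝ := ∫ v : E3, Real.exp (-(2 * β) * ‖v‖ ^ 2)

theorem integrable_gauss {b : ℝ} (hb : 0 < b) :
    Integrable (fun v : E3 => Real.exp (-b * ‖v‖ ^ 2)) := by
  have h := GaussianFourier.integrable_cexp_neg_mul_sq_norm_add (V := E3) (b := (b : ℂ))
    (by simpa using hb) 0 0
  have h2 := h.norm
  refine h2.congr (Eventually.of_forall fun v => ?_)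
  simp only [Complex.norm_exp]
  congr 1
  simp [← Complex.ofReal_pow]

theorem law_ball_le {β : ℝ} (hβ : 0 < β) {f : Ph → ℝ} {C : ℝ} (hC : 0 ≤ C)
    (hf : ∀ x v : E3, Real.exp (2 * β * ‖v‖ ^ 2) * f (x, v) ≤ C) {ε : ℝ} (hε : 0 < ε) (y : E3) :
    law f {z | ‖y - z.1‖ ≤ ε} ≤
      ENNReal.ofReal (C * gaussInt β * (volume (Metric.ball (0 : E3) 1)).toReal * ε ^ 3) := by
  have hset : {z : Ph | ‖y - z.1‖ ≤ ε} = Metric.closedBall y ε ×ˢ (univ : Set E3) := by
    ext z
    simp [Metric.mem_closedBall, dist_eq_norm, norm_sub_rev]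
  have hms : MeasurableSet {z : Ph | ‖y - z.1‖ ≤ ε} :=
    measurableSet_le (by fun_prop) measurable_const
  unfold law
  rw [withDensity_apply _ hms, hset]
  have hb : ∀ z : Ph, ENNReal.ofReal (f z) ≤
      ENNReal.ofReal (C * Real.exp (-(2 * β) * ‖z.2‖ ^ 2)) := by
    intro z
    apply ENNReal.ofReal_le_ofReal
    have h1 := hf z.1 z.2
    have h2 : Real.exp (-(2 * β) * ‖z.2‖ ^ 2) = (Real.exp (2 * β * ‖z.2‖ ^ 2))⁻¹ := by
      rw [← Real.exp_neg]
      ring_nf
    rw [h2, ← div_eq_mul_inv, le_div_iff₀ (Real.exp_pos _)]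
    linarith
  have hm : Measurable (fun z : Ph => ENNReal.ofReal (C * Real.exp (-(2 * β) * ‖z.2‖ ^ 2))) := by
    fun_prop
  calc ∫⁻ z in Metric.closedBall y ε ×ˢ (univ : Set E3), ENNReal.ofReal (f z)
      ≤ ∫⁻ z in Metric.closedBall y ε ×ˢ (univ : Set E3),
          ENNReal.ofReal (C * Real.exp (-(2 * β) * ‖z.2‖ ^ 2)) := lintegral_mono hb
    _ = ∫⁻ x in Metric.closedBall y ε, ∫⁻ v : E3,
          ENNReal.ofReal (C * Real.exp (-(2 * β) * ‖v‖ ^ 2)) := by
        rw [Measure.volume_eq_prod, ← Measure.prod_restrict, Measure.restrict_univ,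
          lintegral_prod _ hm.aemeasurable]
    _ = ENNReal.ofReal (C * gaussInt β) * volume (Metric.closedBall y ε) := by
        rw [lintegral_const, Measure.restrict_apply MeasurableSet.univ, univ_inter]
        congr 1
        rw [← ofReal_integral_eq_lintegral_ofReal]
        · rw [integral_const_mul]
          rfl
        · exact (integrable_gauss (by positivity)).const_mul C
        · exact Eventually.of_forall fun v => by positivity
    _ = _ := by
        rw [Measure.addHaar_closedBall _ _ hε.le]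
        have hG : 0 ≤ gaussInt β := integral_nonneg fun v => (Real.exp_pos _).le
        have h3 : Module.finrank ℝ E3 = 3 := by simp
        rw [h3]
        have hvol : volume (Metric.ball (0 : E3) 1) ≠ ∞ := measure_ball_lt_top.ne
        rw [mul_assoc (C * gaussInt β), ENNReal.ofReal_mul (mul_nonneg hC hG),
          ENNReal.ofReal_mul ENNReal.toReal_nonneg, ENNReal.ofReal_toReal hvol]
        ring

/-- The constant in the bounds on the spatial density. -/
noncomputable def kap (β C : ℝ) : ℝ :=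
  C * gaussInt β * (volume (Metric.ball (0 : E3) 1)).toReal

theorem kap_nonneg {β C : ℝ} (hC : 0 ≤ C) : 0 ≤ kap β C := by
  unfold kap
  have hG : 0 ≤ gaussInt β := integral_nonneg fun v => (Real.exp_pos _).le
  positivity

theorem free_bound {β : ℝ} {f₀ : Ph → ℝ} {C : ℝ}
    (hf : ∀ x v : E3, Real.exp (2 * β * ‖v‖ ^ 2) * f₀ (x, v) ≤ C) (t : ℝ) (x v : E3) :
    Real.exp (2 * β * ‖v‖ ^ 2) * free f₀ t (x, v) ≤ C := hf _ _

theorem goodDatum_free {β : ℝ} (hβ : 0 < β) {f₀ : Ph → ℝ} (h : IsDatum β f₀) {C : ℝ}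
    (hC : 0 ≤ C) (hf : ∀ x v : E3, Real.exp (2 * β * ‖v‖ ^ 2) * f₀ (x, v) ≤ C) (t : ℝ) :
    GoodDatum (free f₀ t) (kap β C) := by
  have hm0 : Measurable f₀ := h.contDiff.continuous.measurable
  have hsh := measurePreserving_shear t
  refine ⟨hm0.comp hsh.measurable, fun z => h.nonneg _, ?_, ?_, kap_nonneg hC, ?_⟩
  · exact hsh.integrable_comp_of_integrable h.integrable
  · have h1 := integral_map (μ := (volume : Measure Ph)) hsh.measurable.aemeasurable
      (f := f₀) (by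
        rw [hsh.map_eq]
        exact h.integrable.aestronglyMeasurable)
    rw [hsh.map_eq, h.integral_eq] at h1
    exact h1.symm
  · intro ε hε y
    exact law_ball_le hβ hC (free_bound hf t) hε y


theorem law_point {f : Ph → ℝ} {κ : ℝ} (h : GoodDatum f κ) (y : E3) :
    law f {z | z.1 = y} = 0 := by
  have hlim : Tendsto (fun ε : ℝ => ENNReal.ofReal (κ * ε ^ 3)) (𝓝[>] 0) (𝓝 0) := by
    have hc : Continuous (fun ε : ℝ => κ * ε ^ 3) := by fun_prop
    have h0 := hc.tendsto 0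
    simp only [ne_eq, OfNat.ofNat_ne_zero, not_false_eq_true, zero_pow, mul_zero] at h0
    have h1 := ENNReal.tendsto_ofReal (h0.mono_left (nhdsWithin_le_nhds (s := Ioi 0)))
    rwa [ENNReal.ofReal_zero] at h1
  refine le_antisymm (ge_of_tendsto hlim ?_) zero_le
  filter_upwards [self_mem_nhdsWithin] with ε hε
  refine le_trans (measure_mono ?_) (h.ball ε hε y)
  intro z hz
  have hz' : z.1 = y := hz
  simp only [mem_ofPred_eq, hz', sub_self, norm_zero]
  exact (mem_Ioi.1 hε).le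

/-- Upper bound on canonical configuration integrals, uniform in the stable potential. -/
theorem canonical_upper {f : Ph → ℝ} {κ B ε : ℝ} (h : GoodDatum f κ) (hB0 : 0 ≤ B)
    (hε : 0 < ε) {V : E3 → ℝ} (hVm : Measurable V) (hV : ∀ x : E3, 1 ≤ ‖x‖ → V x = 0)
    (hB : ∀ (n : ℕ) (x : Fin n → E3), Function.Injective x →
      -(B * n) ≤ ∑ i, ∑ j ∈ Finset.Ioi i, V (x i - x j)) (N : ℕ) :
    ∫⁻ Z : Fin N → Ph, ENNReal.ofReal (Real.exp (-pairSum V ε Z) * ∏ i, f (Z i)) ≤
      ENNReal.ofReal (Real.exp (κ * Real.exp (126 * B) * (N : ℝ) ^ 2 * ε ^ 3)) := by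
  have := isProbabilityMeasure_law h.nonneg h.integrable h.integral_eq
  have h1 := lintegral_exp_neg_pairSum hB0 hV hB (law f) (law_point h) hε
    (mul_nonneg h.κ_nonneg (by positivity)) (h.ball ε hε) N
  have hpm : Measurable (fun Z : Fin N → Ph => pairSum V ε Z) := by
    unfold pairSum
    refine Finset.measurable_sum _ fun i _ => Finset.measurable_sum _ fun j _ => hVm.comp ?_
    fun_prop
  have h2 : ∫⁻ Z : Fin N → Ph, ENNReal.ofReal (Real.exp (-pairSum V ε Z) * ∏ i, f (Z i)) =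
      ∫⁻ Z, ENNReal.ofReal (Real.exp (-pairSum V ε Z)) ∂(Measure.pi fun _ : Fin N => law f) := by
    unfold law
    rw [pi_withDensity volume _ h.meas.ennreal_ofReal (by
      rw [lintegral_ofReal_density h.nonneg h.integrable h.integral_eq]
      exact ENNReal.one_ne_top) N]
    have hm1 : Measurable (fun Z : Fin N → Ph => ∏ i, ENNReal.ofReal (f (Z i))) :=
      Finset.measurable_prod _ fun i _ => h.meas.ennreal_ofReal.comp (measurable_pi_apply i)
    have hm2 : Measurable (fun Z : Fin N → Ph => ENNReal.ofReal (Real.exp (-pairSum V ε Z))) :=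
      (Real.measurable_exp.comp hpm.neg).ennreal_ofReal
    rw [lintegral_withDensity_eq_lintegral_mul _ hm1 hm2]
    refine lintegral_congr fun Z => ?_
    rw [Pi.mul_apply, mul_comm, ENNReal.ofReal_mul (Finset.prod_nonneg fun i _ => h.nonneg _),
      ENNReal.ofReal_prod_of_nonneg fun i _ => h.nonneg _]
  rw [h2]
  refine h1.trans (ENNReal.ofReal_le_ofReal (Real.exp_le_exp.2 (le_of_eq ?_)))
  ring

/-- Lower bound on the canonical partition functions. -/
theorem canonical_lower {f : Ph → ℝ} {κ ε : ℝ} (h : GoodDatum f κ) (hε : 0 < ε) (N : ℕ)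
    (hN : N * (κ * ε ^ 3) ≤ 1 / 2) :
    Real.exp (-(κ * (N : ℝ) ^ 2 * ε ^ 3)) ≤ ∫ Z : Fin N → Ph, wt f ε Z := by
  have h1 := (h.canSeq hε).exp_le (mul_nonneg h.κ_nonneg (by positivity)) N hN
  refine le_trans (Real.exp_le_exp.2 (le_of_eq ?_)) h1
  ring

end Vale.Agent.P119
end

section

open MeasureTheory Filter Topology Set
open scoped ENNReal RealInnerProductSpace

namespace Vale.Agent.P119

theorem IsPotential.diffAt {Φ : E3 → ℝ} (h : IsPotential Φ) {x : E3} (hx : x ≠ 0) :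
    DifferentiableAt ℝ Φ x := by
  rcases h.regular with h1 | h1
  · exact h1.contDiffAt.differentiableAt (by norm_num)
  · exact (h1.1.contDiffAt (isOpen_compl_singleton.mem_nhds hx)).differentiableAt (by norm_num)

theorem hasDerivAt_energy {Φ : E3 → ℝ} {r w : ℝ → E3} {t : ℝ}
    (hd : DifferentiableAt ℝ Φ (r t)) (hr : HasDerivAt r (w t) t)
    (hw : HasDerivAt w (-((2 : ℝ) • gradient Φ (r t))) t) :
    HasDerivAt (fun s => ‖w s‖ ^ 2 + 4 * Φ (r s)) 0 t := by
  have h1 : HasDerivAt (fun s => ‖w s‖ ^ 2) (2 * ⟪w t, -((2 : ℝ) • gradient Φ (r t))⟫) t :=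
    hw.norm_sq
  have h2 : HasDerivAt (fun s => Φ (r s)) (fderiv ℝ Φ (r t) (w t)) t :=
    hd.hasFDerivAt.comp_hasDerivAt t hr
  have hg : ⟪gradient Φ (r t), w t⟫ = fderiv ℝ Φ (r t) (w t) := by
    rw [gradient, InnerProductSpace.toDual_symm_apply]
  refine (h1.add (h2.const_mul 4)).congr_deriv ?_
  rw [← hg, inner_neg_right, inner_smul_right, real_inner_comm]
  ring

/-- A scattering orbit never hits the origin for a singular potential, and its outgoing speed
equals its incoming speed. -/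
theorem Scatters.norm_eq {Φ : E3 → ℝ} (hΦ : IsPotential Φ) {V ρ V' : E3} (hV : V ≠ 0)
    (h : Scatters Φ V ρ V') : ‖V'‖ = ‖V‖ := by
  obtain ⟨r, w, hode, hin, hout⟩ := h
  -- incoming: far away for very negative times
  obtain ⟨t₀, ht₀⟩ : ∃ t₀ : ℝ, ∀ t ≤ t₀, r t = ρ + t • V ∧ 1 ≤ ‖r t‖ := by
    obtain ⟨a, ha⟩ := (eventually_atBot.1 hin)
    have hVpos : 0 < ‖V‖ := norm_pos_iff.2 hV
    refine ⟨min a (-(1 + ‖ρ‖) / ‖V‖), fun t ht => ?_⟩
    have h1 := ha t (ht.trans (min_le_left _ _))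
    refine ⟨h1, ?_⟩
    have h2 : t ≤ -(1 + ‖ρ‖) / ‖V‖ := ht.trans (min_le_right _ _)
    rw [h1]
    have h3 : t * ‖V‖ ≤ -(1 + ‖ρ‖) := by
      rwa [le_div_iff₀ hVpos] at h2
    have h4 : ‖t • V‖ = -(t * ‖V‖) := by
      rw [norm_smul, Real.norm_of_nonpos]
      · ring
      · by_contra hpos
        push Not at hpos
        have := mul_pos hpos hVpos
        have := norm_nonneg ρ
        linarith
    have h5 : ‖t • V‖ ≤ ‖ρ + t • V‖ + ‖ρ‖ := by
      calc ‖t • V‖ = ‖(ρ + t • V) - ρ‖ := by congr 1; abel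
        _ ≤ _ := norm_sub_le _ _
    linarith only [h5, h4, h3]
  have hw₀ : ∀ t < t₀, w t = V := by
    intro t ht
    have h1 : HasDerivAt r V t := by
      have h2 : HasDerivAt (fun s : ℝ => ρ + s • V) V t := by
        simpa using ((hasDerivAt_id t).smul_const V).const_add ρ
      refine h2.congr_of_eventuallyEq ?_
      filter_upwards [Iio_mem_nhds ht] with s hs
      exact (ht₀ s (le_of_lt hs)).1
    exact (hode t).1.unique h1
  have hcw : Continuous w := continuous_iff_continuousAt.2 fun t => (hode t).2.continuousAt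
  have hcr : Continuous r := continuous_iff_continuousAt.2 fun t => (hode t).1.continuousAt
  set E : ℝ → ℝ := fun s => ‖w s‖ ^ 2 + 4 * Φ (r s) with hE
  set t₁ : ℝ := t₀ - 1 with ht₁
  have hE₁ : E t₁ = ‖V‖ ^ 2 := by
    simp only [hE]
    rw [hw₀ t₁ (by linarith), hΦ.vanishing _ (ht₀ t₁ (by linarith)).2]
    ring
  -- conservation as long as the orbit avoids the bad set
  have hcons : ∀ b, t₁ ≤ b → (∀ s ∈ Icc t₁ b, DifferentiableAt ℝ Φ (r s)) → E b = ‖V‖ ^ 2 := by
    intro b hb hdiff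
    rw [← hE₁]
    refine constant_of_has_deriv_right_zero (f := E) (a := t₁) (b := b) ?_ ?_ b
      (right_mem_Icc.2 hb)
    · intro s hs
      exact (hasDerivAt_energy (hdiff s hs) (hode s).1 (hode s).2).continuousAt.continuousWithinAt
    · intro s hs
      exact (hasDerivAt_energy (hdiff s (Ico_subset_Icc_self hs))
        (hode s).1 (hode s).2).hasDerivWithinAt
  have hall : ∀ b, t₁ ≤ b → E b = ‖V‖ ^ 2 := by
    rcases hΦ.regular with hreg | hsing
    · intro b hb
      exact hcons b hb fun s _ => hreg.contDiffAt.differentiableAt (by norm_num)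
    · -- the orbit never meets the origin
      have hne : ∀ b, t₁ ≤ b → r b ≠ 0 := by
        intro b hb hb0
        set S : Set ℝ := {t | t ∈ Icc t₁ b ∧ r t = 0} with hS
        have hSc : IsClosed S := by
          have : S = Icc t₁ b ∩ r ⁻¹' {0} := by
            ext t
            simp [hS]
          rw [this]
          exact isClosed_Icc.inter (isClosed_singleton.preimage hcr)
        have hSne : S.Nonempty := ⟨b, ⟨hb, le_rfl⟩, hb0⟩
        have hSb : BddBelow S := ⟨t₁, fun t ht => ht.1.1⟩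
        set c := sInf S with hc
        have hcS : c ∈ S := hSc.csInf_mem hSne hSb
        have hlt : ∀ s, t₁ ≤ s → s < c → r s ≠ 0 := by
          intro s hs hsc h0
          have hmem : s ∈ S := ⟨⟨hs, hsc.le.trans hcS.1.2⟩, h0⟩
          exact absurd (csInf_le hSb hmem) (not_le.2 hsc)
        have ht₁c : t₁ < c := by
          rcases hcS.1.1.lt_or_eq with h1 | h1
          · exact h1
          · exfalso
            have h2 := (ht₀ t₁ (by linarith)).2
            rw [h1, hcS.2, norm_zero] at h2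
            linarith only [h2]
        have hEs : ∀ s, t₁ ≤ s → s < c → 4 * Φ (r s) ≤ ‖V‖ ^ 2 := by
          intro s hs hsc
          have := hcons s hs fun u hu => hΦ.diffAt (hlt u hu.1 (hu.2.trans_lt hsc))
          simp only [hE] at this
          have h0 := sq_nonneg ‖w s‖
          linarith
        have hlim : Tendsto (fun s => Φ (r s)) (𝓝[<] c) atTop := by
          refine hsing.2.1.comp ?_
          rw [tendsto_nhdsWithin_iff]
          constructor
          · have := hcr.tendsto c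
            rw [hcS.2] at this
            exact this.mono_left nhdsWithin_le_nhds
          · filter_upwards [Ioo_mem_nhdsLT ht₁c] with s hs
            exact hlt s hs.1.le hs.2
        have hev := (hlim.eventually_gt_atTop (‖V‖ ^ 2 / 4)).and (Ioo_mem_nhdsLT ht₁c)
        obtain ⟨s, hs1, hs2⟩ := hev.exists
        have := hEs s hs2.1.le hs2.2
        linarith
      intro b hb
      exact hcons b hb fun s hs => hΦ.diffAt (hne s hs.1)
  obtain ⟨b, hb⟩ := eventually_atTop.1 hout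
  have h1 := hb (max b t₁) (le_max_left _ _)
  have h2 := hall (max b t₁) (le_max_right _ _)
  simp only [hE] at h2
  rw [hΦ.vanishing _ h1.1, h1.2] at h2
  have h3 : ‖V'‖ ^ 2 = ‖V‖ ^ 2 := by linarith
  exact (sq_eq_sq₀ (norm_nonneg _) (norm_nonneg _)).1 h3

theorem norm_outVel {Φ : E3 → ℝ} (hΦ : IsPotential Φ) {V : E3} (hV : V ≠ 0) (ρ : E3) :
    ‖outVel Φ V ρ‖ = ‖V‖ := by
  unfold outVel
  split_ifs with h
  · exact h.choose_spec.norm_eq hΦ hV
  · rfl

/-- Conservation of the kinetic energy in a collision. -/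
theorem post_norm_sq {V' v vs : E3} (h : ‖V'‖ = ‖v - vs‖) :
    ‖(2 : ℝ)⁻¹ • (v + vs + V')‖ ^ 2 + ‖(2 : ℝ)⁻¹ • (v + vs - V')‖ ^ 2 = ‖v‖ ^ 2 + ‖vs‖ ^ 2 := by
  rw [norm_smul, norm_smul, mul_pow, mul_pow, ← mul_add]
  have h1 := parallelogram_law_with_norm ℝ (v + vs) V'
  have h2 := parallelogram_law_with_norm ℝ v vs
  rw [h] at h1
  have h3 : ‖(2 : ℝ)⁻¹‖ = 1 / 2 := by
    rw [Real.norm_of_nonneg (by norm_num)]
    norm_num
  rw [h3]
  nlinarith

/-- Gaussian profiles. -/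
def IsGaussianProfile (g : E3 → ℝ) : Prop :=
  ∃ (A c : ℝ) (b : E3), ∀ w, g w = Real.exp (-(A * ‖w‖ ^ 2 + ⟪b, w⟫ + c))

theorem IsGaussianProfile.mul_eq {g : E3 → ℝ} (hg : IsGaussianProfile g) {V' v vs : E3}
    (h : ‖V'‖ = ‖v - vs‖) :
    g ((2 : ℝ)⁻¹ • (v + vs + V')) * g ((2 : ℝ)⁻¹ • (v + vs - V')) = g v * g vs := by
  obtain ⟨A, c, b, hg⟩ := hg
  simp only [hg, ← Real.exp_add]
  congr 1
  have h1 := post_norm_sq h
  have h2 : ⟪b, (2 : ℝ)⁻¹ • (v + vs + V')⟫ + ⟪b, (2 : ℝ)⁻¹ • (v + vs - V')⟫ =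
      ⟪b, v⟫ + ⟪b, vs⟫ := by
    rw [← inner_add_right, ← inner_add_right]
    congr 1
    module
  linear_combination (-A) * h1 - h2

theorem collision_gaussian {Φ : E3 → ℝ} (hΦ : IsPotential Φ) {g : E3 → ℝ}
    (hg : IsGaussianProfile g) (v : E3) : collision Φ g v = 0 := by
  unfold collision
  have : ∀ vs : E3, ∫ ρ : (ℝ ∙ (v - vs))ᗮ in Metric.ball 0 1,
    ‖v - vs‖ * (g ((2 : ℝ)⁻¹ • (v + vs + outVel Φ (v - vs) ρ)) *
      g ((2 : ℝ)⁻¹ • (v + vs - outVel Φ (v - vs) ρ)) - g v * g vs) = 0 := by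
    intro vs
    rw [integral_eq_zero_of_ae]
    refine Eventually.of_forall fun ρ => ?_
    simp only [Pi.zero_apply]
    by_cases hV : v - vs = 0
    · rw [show ‖v - vs‖ = 0 by rw [hV, norm_zero], zero_mul]
    · rw [hg.mul_eq (norm_outVel hΦ hV _), sub_self, mul_zero]
  simp_rw [this]
  exact integral_zero _ _

theorem IsGlobalMaxwellian.profile {f₀ : Ph → ℝ} (h : IsGlobalMaxwellian f₀) (t : ℝ) (x : E3) :
    IsGaussianProfile (fun w => free f₀ t (x, w)) := by
  obtain ⟨a, b, c, k, p, q, Ω, _, hΩ, hf⟩ := h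
  refine ⟨a * t ^ 2 + b + 2 * c * t, a * ‖x‖ ^ 2 + ⟪p, x⟫ + k,
    -(2 * a * t) • x - (2 * c) • x + ContinuousLinearMap.adjoint Ω x - t • p + q, fun w => ?_⟩
  simp only [free, hf]
  congr 2
  have h1 : ‖x - t • w‖ ^ 2 = ‖x‖ ^ 2 - 2 * t * ⟪x, w⟫ + t ^ 2 * ‖w‖ ^ 2 := by
    rw [norm_sub_sq_real, inner_smul_right, norm_smul, mul_pow, Real.norm_eq_abs, sq_abs]
    ring
  have h2 : ⟪x - t • w, w⟫ = ⟪x, w⟫ - t * ‖w‖ ^ 2 := by
    rw [inner_sub_left, inner_smul_left, real_inner_self_eq_norm_sq]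
    simp
  have h3 : ⟪x - t • w, Ω w⟫ = ⟪ContinuousLinearMap.adjoint Ω x, w⟫ := by
    rw [inner_sub_left, inner_smul_left, hΩ w, ContinuousLinearMap.adjoint_inner_left]
    simp
  have h4 : ⟪p, x - t • w⟫ = ⟪p, x⟫ - t * ⟪p, w⟫ := by
    rw [inner_sub_right, inner_smul_right]
  rw [h1, h2, h3, h4]
  simp only [inner_add_left, inner_sub_left, inner_smul_left, inner_neg_left,
    RCLike.conj_to_real, neg_smul]
  ring

theorem contDiff_free {β : ℝ} {f₀ : Ph → ℝ} (h : IsDatum β f₀) :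
    ContDiff ℝ 1 (fun p : ℝ × Ph => free f₀ p.1 p.2) := by
  unfold free
  refine h.contDiff.comp ?_
  fun_prop

theorem transport_free {β T : ℝ} {f₀ : Ph → ℝ} (h : IsDatum β f₀) {t : ℝ}
    (hT : 0 < T) (ht : t ∈ Icc 0 T) (x v : E3) :
    derivWithin (fun s => free f₀ s (x, v)) (Icc 0 T) t +
      ⟪v, gradient (fun y => free f₀ t (y, v)) x⟫ = 0 := by
  have hg : Differentiable ℝ (fun y : E3 => f₀ (y, v)) := by
    have h1 : Differentiable ℝ f₀ := h.contDiff.differentiable (by norm_num)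
    fun_prop
  have hgd := (hg (x - t • v)).hasFDerivAt
  have h1 : HasDerivAt (fun s => free f₀ s (x, v))
      (fderiv ℝ (fun y : E3 => f₀ (y, v)) (x - t • v) (-v)) t := by
    have h2 : HasDerivAt (fun s : ℝ => x - s • v) (-v) t := by
      simpa using ((hasDerivAt_id t).smul_const v).const_sub x
    exact hgd.comp_hasDerivAt t h2
  have h3 : derivWithin (fun s => free f₀ s (x, v)) (Icc 0 T) t =
      fderiv ℝ (fun y : E3 => f₀ (y, v)) (x - t • v) (-v) :=
    h1.hasDerivWithinAt.derivWithin (uniqueDiffOn_Icc hT t ht)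
  have h4 : HasFDerivAt (fun y : E3 => free f₀ t (y, v))
      (fderiv ℝ (fun y : E3 => f₀ (y, v)) (x - t • v)) x := by
    have h5 : HasFDerivAt (fun y : E3 => y - t • v) (ContinuousLinearMap.id ℝ E3) x :=
      (hasFDerivAt_id x).sub_const _
    exact hgd.comp x h5
  have h6 : ⟪v, gradient (fun y => free f₀ t (y, v)) x⟫ =
      fderiv ℝ (fun y : E3 => f₀ (y, v)) (x - t • v) v := by
    rw [real_inner_comm, gradient, InnerProductSpace.toDual_symm_apply, h4.fderiv]
  rw [h3, h6, map_neg, neg_add_cancel]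

/-- The freely expanding Maxwellian is a regular solution of the Boltzmann equation. -/
theorem isRegularSolution_free {Φ : E3 → ℝ} {β T : ℝ} {f₀ : Ph → ℝ} (hΦ : IsPotential Φ)
    (hβ : 0 < β) (h : IsDatum β f₀) (hM : IsGlobalMaxwellian f₀) (hT : 0 < T) :
    IsRegularSolution Φ β f₀ T (free f₀) := by
  obtain ⟨C, hC, hb⟩ := exists_gaussian_bound h
  refine ⟨?_, fun t _ z => h.nonneg _, fun t _ => ?_, (contDiff_free h).contDiffOn, ?_, ?_⟩
  · funext z
    simp [free]
  · have hg := goodDatum_free hβ h hC hb t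
    exact ⟨hg.integrable, hg.integral_eq⟩
  · intro t ht x v
    rw [transport_free h hT ht x v, collision_gaussian hΦ (hM.profile t x) v]
  · exact ⟨C, fun t _ x v => free_bound hb t x v⟩

end Vale.Agent.P119
end

section

open MeasureTheory Filter Topology Set
open scoped ENNReal RealInnerProductSpace

namespace Vale.Agent.P119

/-- Volume of the unit disc of a plane, in the form used below. -/
theorem volume_disc_le (V : E3) (hV : V ≠ 0) :
    (volume : Measure (ℝ ∙ V)ᗮ).real (Metric.ball 0 1) ≤ 4 := by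
  have hfact : Fact (Module.finrank ℝ E3 = 2 + 1) := ⟨by simp⟩
  have hfin : Module.finrank ℝ (ℝ ∙ V)ᗮ = 2 := Submodule.finrank_orthogonal_span_singleton hV
  have hnt : Nontrivial (ℝ ∙ V)ᗮ := Module.nontrivial_of_finrank_pos (R := ℝ) (by rw [hfin]; norm_num)
  rw [measureReal_def, InnerProductSpace.volume_ball_of_dim_even (k := 1) (by rw [hfin])]
  simp only [ENNReal.ofReal_one, one_pow, one_mul, pow_one, Nat.factorial_one, Nat.cast_one,
    div_one]
  rw [ENNReal.toReal_ofReal Real.pi_pos.le]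
  linarith [Real.pi_lt_four]

/-- First moments of a Gaussian. -/
noncomputable def momInt (β : ℝ) : ℝ :=
  (∫ w : E3, Real.exp (-β * ‖w‖ ^ 2)) + ∫ w : E3, ‖w‖ * Real.exp (-β * ‖w‖ ^ 2)

theorem integrable_norm_gauss {b : ℝ} (hb : 0 < b) :
    Integrable (fun v : E3 => ‖v‖ * Real.exp (-b * ‖v‖ ^ 2)) := by
  have h1 := (integrable_gauss (b := b / 2) (by positivity)).const_mul (1 / (b / 2) + 1)
  refine h1.mono' (by fun_prop) (Eventually.of_forall fun v => ?_)
  rw [Real.norm_of_nonneg (by positivity)]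
  have h2 : Real.exp (-b * ‖v‖ ^ 2) = Real.exp (-(b / 2) * ‖v‖ ^ 2) *
      Real.exp (-(b / 2) * ‖v‖ ^ 2) := by
    rw [← Real.exp_add]
    ring_nf
  have h3 : ‖v‖ * Real.exp (-(b / 2) * ‖v‖ ^ 2) ≤ 1 / (b / 2) + 1 := by
    have h4 : ‖v‖ ≤ 1 + ‖v‖ ^ 2 := by linarith only [sq_nonneg ‖v‖, sq_nonneg (‖v‖ - 1)]
    have h5 : Real.exp (-(b / 2) * ‖v‖ ^ 2) ≤ 1 := Real.exp_le_one_iff.2 (by
      have := sq_nonneg ‖v‖
      linarith only [mul_nonneg (le_of_lt (sub_pos.2 hb)) (sub_nonneg.2 this)])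
    have h6 : ‖v‖ ^ 2 * Real.exp (-(b / 2) * ‖v‖ ^ 2) ≤ 1 / (b / 2) := by
      have h7 := Real.add_one_le_exp (b / 2 * ‖v‖ ^ 2)
      have h8 : Real.exp (-(b / 2) * ‖v‖ ^ 2) = (Real.exp (b / 2 * ‖v‖ ^ 2))⁻¹ := by
        rw [← Real.exp_neg]
        ring_nf
      rw [h8, ← div_eq_mul_inv, div_le_div_iff₀ (Real.exp_pos _) (by positivity)]
      linarith only [h7]
    calc ‖v‖ * Real.exp (-(b / 2) * ‖v‖ ^ 2)
        ≤ (1 + ‖v‖ ^ 2) * Real.exp (-(b / 2) * ‖v‖ ^ 2) :=
          mul_le_mul_of_nonneg_right h4 (Real.exp_pos _).le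
      _ ≤ _ := by linarith only [h6, h5]
  rw [h2, ← mul_assoc]
  exact mul_le_mul_of_nonneg_right h3 (Real.exp_pos _).le

theorem momInt_nonneg (β : ℝ) : 0 ≤ momInt β :=
  add_nonneg (integral_nonneg fun _ => (Real.exp_pos _).le)
    (integral_nonneg fun _ => mul_nonneg (norm_nonneg _) (Real.exp_pos _).le)

/-- Bound on the collision operator near a Gaussian profile. -/
theorem collision_bound {Φ : E3 → ℝ} (hΦ : IsPotential Φ) {β α C D : ℝ} (hβ : 0 < β)
    (hα : β ≤ α) (hC : 0 ≤ C) (hD : 0 ≤ D) {g m : E3 → ℝ} (hm : IsGaussianProfile m)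
    (hg0 : ∀ w, 0 ≤ g w) (hg : ∀ w, g w ≤ C * Real.exp (-α * ‖w‖ ^ 2))
    (hm1 : ∀ w, m w ≤ C * Real.exp (-α * ‖w‖ ^ 2))
    (hgm : ∀ w, |g w - m w| ≤ D * Real.exp (-α * ‖w‖ ^ 2)) (v : E3) :
    |collision Φ g v| ≤ 16 * momInt β * C * D * (1 + ‖v‖) * Real.exp (-α * ‖v‖ ^ 2) := by
  have hm0 : ∀ w, 0 ≤ m w := by
    obtain ⟨A, c, b, h⟩ := hm
    intro w
    rw [h]
    exact (Real.exp_pos _).le
  have hprod : ∀ w w' : E3, |g w * g w' - m w * m w'| ≤
      2 * C * D * Real.exp (-α * (‖w‖ ^ 2 + ‖w'‖ ^ 2)) := by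
    intro w w'
    have h1 : g w * g w' - m w * m w' = (g w - m w) * g w' + m w * (g w' - m w') := by ring
    rw [h1]
    have he : Real.exp (-α * (‖w‖ ^ 2 + ‖w'‖ ^ 2)) =
        Real.exp (-α * ‖w‖ ^ 2) * Real.exp (-α * ‖w'‖ ^ 2) := by
      rw [← Real.exp_add]
      ring_nf
    calc |(g w - m w) * g w' + m w * (g w' - m w')|
        ≤ |(g w - m w) * g w'| + |m w * (g w' - m w')| := abs_add_le _ _
      _ = |g w - m w| * g w' + m w * |g w' - m w'| := by
          rw [abs_mul, abs_mul, abs_of_nonneg (hg0 w'), abs_of_nonneg (hm0 w)]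
      _ ≤ (D * Real.exp (-α * ‖w‖ ^ 2)) * (C * Real.exp (-α * ‖w'‖ ^ 2)) +
          (C * Real.exp (-α * ‖w‖ ^ 2)) * (D * Real.exp (-α * ‖w'‖ ^ 2)) := by
          refine add_le_add ?_ ?_
          · exact mul_le_mul (hgm w) (hg w') (hg0 w') (by positivity)
          · exact mul_le_mul (hm1 w) (hgm w') (abs_nonneg _) (by positivity)
      _ = _ := by
          rw [he]
          ring
  have hpt : ∀ (vs : E3) (ρ : (ℝ ∙ (v - vs))ᗮ),
      ‖‖v - vs‖ * (g ((2 : ℝ)⁻¹ • (v + vs + outVel Φ (v - vs) ρ)) *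
      g ((2 : ℝ)⁻¹ • (v + vs - outVel Φ (v - vs) ρ)) - g v * g vs)‖ ≤
      4 * C * D * ‖v - vs‖ * Real.exp (-α * (‖v‖ ^ 2 + ‖vs‖ ^ 2)) := by
    intro vs ρ
    rw [norm_mul, norm_norm]
    by_cases hV : v - vs = 0
    · rw [show ‖v - vs‖ = 0 by rw [hV, norm_zero]]
      simp
    · have hn := norm_outVel hΦ hV (ρ : E3)
      have h1 := hprod ((2 : ℝ)⁻¹ • (v + vs + outVel Φ (v - vs) ρ))
        ((2 : ℝ)⁻¹ • (v + vs - outVel Φ (v - vs) ρ))
      rw [post_norm_sq hn] at h1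
      have h2 := hprod v vs
      rw [hm.mul_eq hn] at h1
      rw [Real.norm_eq_abs]
      have h3 : |g ((2 : ℝ)⁻¹ • (v + vs + outVel Φ (v - vs) ρ)) *
          g ((2 : ℝ)⁻¹ • (v + vs - outVel Φ (v - vs) ρ)) - g v * g vs| ≤
          4 * C * D * Real.exp (-α * (‖v‖ ^ 2 + ‖vs‖ ^ 2)) := by
        have h4 : g ((2 : ℝ)⁻¹ • (v + vs + outVel Φ (v - vs) ρ)) *
          g ((2 : ℝ)⁻¹ • (v + vs - outVel Φ (v - vs) ρ)) - g v * g vs =
          (g ((2 : ℝ)⁻¹ • (v + vs + outVel Φ (v - vs) ρ)) *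
          g ((2 : ℝ)⁻¹ • (v + vs - outVel Φ (v - vs) ρ)) - m v * m vs) -
          (g v * g vs - m v * m vs) := by ring
        rw [h4]
        refine (abs_sub _ _).trans ?_
        linarith only [h2, h1]
      calc _ ≤ ‖v - vs‖ * (4 * C * D * Real.exp (-α * (‖v‖ ^ 2 + ‖vs‖ ^ 2))) :=
            mul_le_mul_of_nonneg_left h3 (norm_nonneg _)
        _ = _ := by ring
  have hinner : ∀ vs : E3, ‖∫ ρ : (ℝ ∙ (v - vs))ᗮ in Metric.ball 0 1,
      ‖v - vs‖ * (g ((2 : ℝ)⁻¹ • (v + vs + outVel Φ (v - vs) ρ)) *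
      g ((2 : ℝ)⁻¹ • (v + vs - outVel Φ (v - vs) ρ)) - g v * g vs)‖ ≤
      16 * C * D * ‖v - vs‖ * Real.exp (-α * (‖v‖ ^ 2 + ‖vs‖ ^ 2)) := by
    intro vs
    by_cases hV : v - vs = 0
    · have h0 : ‖v - vs‖ = 0 := by rw [hV, norm_zero]
      have : ∀ ρ : (ℝ ∙ (v - vs))ᗮ, ‖v - vs‖ *
          (g ((2 : ℝ)⁻¹ • (v + vs + outVel Φ (v - vs) ρ)) *
          g ((2 : ℝ)⁻¹ • (v + vs - outVel Φ (v - vs) ρ)) - g v * g vs) = 0 := by
        intro ρ
        rw [h0, zero_mul]
      simp_rw [this]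
      rw [integral_zero, norm_zero, h0]
      simp
    · have h1 := norm_setIntegral_le_of_norm_le_const (μ := (volume : Measure (ℝ ∙ (v - vs))ᗮ))
        (s := Metric.ball 0 1) measure_ball_lt_top (fun ρ _ => hpt vs ρ)
      refine h1.trans ?_
      have h2 := volume_disc_le (v - vs) hV
      have h3 : 0 ≤ 4 * C * D * ‖v - vs‖ * Real.exp (-α * (‖v‖ ^ 2 + ‖vs‖ ^ 2)) := by positivity
      calc _ ≤ 4 * C * D * ‖v - vs‖ * Real.exp (-α * (‖v‖ ^ 2 + ‖vs‖ ^ 2)) * 4 :=
            mul_le_mul_of_nonneg_left h2 h3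
        _ = _ := by ring
  unfold collision
  rw [← Real.norm_eq_abs]
  have hbd : ∀ vs : E3, 16 * C * D * ‖v - vs‖ * Real.exp (-α * (‖v‖ ^ 2 + ‖vs‖ ^ 2)) ≤
      16 * C * D * Real.exp (-α * ‖v‖ ^ 2) * (‖v‖ * Real.exp (-β * ‖vs‖ ^ 2) +
        ‖vs‖ * Real.exp (-β * ‖vs‖ ^ 2)) := by
    intro vs
    have h1 : Real.exp (-α * (‖v‖ ^ 2 + ‖vs‖ ^ 2)) ≤
        Real.exp (-α * ‖v‖ ^ 2) * Real.exp (-β * ‖vs‖ ^ 2) := by
      rw [← Real.exp_add]
      apply Real.exp_le_exp.2
      linarith only [mul_nonneg (sub_nonneg.2 hα) (sq_nonneg ‖vs‖)]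
    have h2 : ‖v - vs‖ ≤ ‖v‖ + ‖vs‖ := norm_sub_le _ _
    calc 16 * C * D * ‖v - vs‖ * Real.exp (-α * (‖v‖ ^ 2 + ‖vs‖ ^ 2))
        ≤ 16 * C * D * (‖v‖ + ‖vs‖) * (Real.exp (-α * ‖v‖ ^ 2) * Real.exp (-β * ‖vs‖ ^ 2)) := by
          gcongr
      _ = _ := by ring
  have hI0 := integrable_gauss hβ
  have hI1 := integrable_norm_gauss hβ
  have hint : Integrable (fun vs : E3 => 16 * C * D * Real.exp (-α * ‖v‖ ^ 2) *
      (‖v‖ * Real.exp (-β * ‖vs‖ ^ 2) + ‖vs‖ * Real.exp (-β * ‖vs‖ ^ 2))) :=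
    ((hI0.const_mul ‖v‖).add hI1).const_mul _
  refine (norm_integral_le_of_norm_le hint
    (Eventually.of_forall fun vs => (hinner vs).trans (hbd vs))).trans ?_
  rw [integral_const_mul, integral_add (hI0.const_mul ‖v‖) hI1, integral_const_mul]
  have hG0 : 0 ≤ ∫ w : E3, Real.exp (-β * ‖w‖ ^ 2) := integral_nonneg fun v => (Real.exp_pos _).le
  have hG1 : 0 ≤ ∫ w : E3, ‖w‖ * Real.exp (-β * ‖w‖ ^ 2) :=
    integral_nonneg fun v => mul_nonneg (norm_nonneg _) (Real.exp_pos _).le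
  have h5 : ‖v‖ * (∫ w : E3, Real.exp (-β * ‖w‖ ^ 2)) +
      ∫ w : E3, ‖w‖ * Real.exp (-β * ‖w‖ ^ 2) ≤ momInt β * (1 + ‖v‖) := by
    unfold momInt
    linarith only [mul_nonneg (norm_nonneg v) hG1, hG0]
  calc 16 * C * D * Real.exp (-α * ‖v‖ ^ 2) * (‖v‖ * (∫ w : E3, Real.exp (-β * ‖w‖ ^ 2)) +
      ∫ w : E3, ‖w‖ * Real.exp (-β * ‖w‖ ^ 2))
      ≤ 16 * C * D * Real.exp (-α * ‖v‖ ^ 2) * (momInt β * (1 + ‖v‖)) :=
        mul_le_mul_of_nonneg_left h5 (by positivity)
    _ = _ := by ring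

/-- The derivative of a regular solution along characteristics. -/
theorem IsRegularSolution.hasDerivWithinAt {Φ : E3 → ℝ} {β T : ℝ} {f₀ : Ph → ℝ}
    {f : ℝ → Ph → ℝ} (hT : 0 < T) (h : IsRegularSolution Φ β f₀ T f) (x v : E3) {s : ℝ}
    (hs : s ∈ Icc 0 T) :
    HasDerivWithinAt (fun u => f u (x + u • v, v))
      (collision Φ (fun w => f s (x + s • v, w)) v) (Icc 0 T) s := by
  set F : ℝ × Ph → ℝ := fun p => f p.1 p.2 with hF
  have hd : DifferentiableWithinAt ℝ F (Icc 0 T ×ˢ univ) (s, (x + s • v, v)) :=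
    (h.contDiff.differentiableOn (by norm_num)) _ ⟨hs, mem_univ _⟩
  set L := fderivWithin ℝ F (Icc 0 T ×ˢ univ) (s, (x + s • v, v)) with hL
  have hdf : HasFDerivWithinAt F L (Icc 0 T ×ˢ univ) (s, (x + s • v, v)) := hd.hasFDerivWithinAt
  have hm1 : MapsTo (fun u : ℝ => ((u, (x + u • v, v)) : ℝ × Ph)) (Icc 0 T)
      (Icc 0 T ×ˢ univ) := fun u hu => ⟨hu, mem_univ _⟩
  have hm2 : MapsTo (fun u : ℝ => ((u, (x + s • v, v)) : ℝ × Ph)) (Icc 0 T)
      (Icc 0 T ×ˢ univ) := fun u hu => ⟨hu, mem_univ _⟩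
  have hm3 : MapsTo (fun y : E3 => ((s, (y, v)) : ℝ × Ph)) univ
      (Icc 0 T ×ˢ univ) := fun y _ => ⟨hs, mem_univ _⟩
  -- along the characteristic
  have hγ : HasDerivWithinAt (fun u : ℝ => ((u, (x + u • v, v)) : ℝ × Ph)) (1, (v, 0))
      (Icc 0 T) s := by
    have h1 : HasDerivAt (fun u : ℝ => x + u • v) v s := by
      simpa using ((hasDerivAt_id s).smul_const v).const_add x
    have h2 : HasDerivAt (fun u : ℝ => ((u, (x + u • v, v)) : ℝ × Ph)) (1, (v, 0)) s :=
      (hasDerivAt_id s).prodMk (h1.prodMk (hasDerivAt_const s v))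
    exact h2.hasDerivWithinAt
  have hchar : HasDerivWithinAt (fun u => f u (x + u • v, v)) (L (1, (v, 0))) (Icc 0 T) s := by
    have h1 : HasDerivWithinAt (F ∘ fun u : ℝ => ((u, (x + u • v, v)) : ℝ × Ph))
        (L (1, (v, 0))) (Icc 0 T) s := hdf.comp_hasDerivWithinAt s hγ hm1
    exact h1
  -- time derivative
  have hγt : HasDerivWithinAt (fun u : ℝ => ((u, (x + s • v, v)) : ℝ × Ph)) (1, (0, 0))
      (Icc 0 T) s :=
    ((hasDerivAt_id s).prodMk (hasDerivAt_const s ((x + s • v, v) : Ph))).hasDerivWithinAt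
  have ht : HasDerivWithinAt (fun u => f u (x + s • v, v)) (L (1, (0, 0))) (Icc 0 T) s := by
    have h1 : HasDerivWithinAt (F ∘ fun u : ℝ => ((u, (x + s • v, v)) : ℝ × Ph))
        (L (1, (0, 0))) (Icc 0 T) s := hdf.comp_hasDerivWithinAt s hγt hm2
    exact h1
  have ht' := ht.derivWithin (uniqueDiffOn_Icc hT s hs)
  -- space derivative
  have hγx : HasFDerivWithinAt (fun y : E3 => ((s, (y, v)) : ℝ × Ph))
      ((0 : E3 →L[ℝ] ℝ).prod ((ContinuousLinearMap.id ℝ E3).prod (0 : E3 →L[ℝ] E3))) univ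
      (x + s • v) :=
    ((hasFDerivAt_const s _).prodMk
      ((hasFDerivAt_id _).prodMk (hasFDerivAt_const v _))).hasFDerivWithinAt
  have hx : HasFDerivAt (fun y : E3 => f s (y, v))
      (L.comp ((0 : E3 →L[ℝ] ℝ).prod ((ContinuousLinearMap.id ℝ E3).prod (0 : E3 →L[ℝ] E3))))
      (x + s • v) := by
    rw [← hasFDerivWithinAt_univ]
    exact hdf.comp (x + s • v) hγx hm3
  have heq := h.equation s hs (x + s • v) v
  rw [ht', real_inner_comm, gradient, InnerProductSpace.toDual_symm_apply, hx.fderiv] at heq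
  rw [← heq]
  convert hchar using 1
  simp only [ContinuousLinearMap.comp_apply, ContinuousLinearMap.prod_apply,
    zero_apply, ContinuousLinearMap.id_apply]
  rw [← map_add]
  simp

end Vale.Agent.P119
end

section

open MeasureTheory Filter Topology Set
open scoped ENNReal RealInnerProductSpace

namespace Vale.Agent.P119

theorem le_mul_exp_of {β C a : ℝ} {v : E3} (h : Real.exp (2 * β * ‖v‖ ^ 2) * a ≤ C) :
    a ≤ C * Real.exp (-(2 * β) * ‖v‖ ^ 2) := by
  have h2 : Real.exp (-(2 * β) * ‖v‖ ^ 2) = (Real.exp (2 * β * ‖v‖ ^ 2))⁻¹ := by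
    rw [← Real.exp_neg]
    ring_nf
  rw [h2, ← div_eq_mul_inv, le_div_iff₀ (Real.exp_pos _)]
  linarith

theorem unique_step {Φ : E3 → ℝ} {β T C K κ t₀ : ℝ} {f₀ : Ph → ℝ} {f : ℝ → Ph → ℝ}
    (hΦ : IsPotential Φ) (hβ : 0 < β) (h : IsDatum β f₀) (hM : IsGlobalMaxwellian f₀)
    (hT : 0 < T) (hf : IsRegularSolution Φ β f₀ T f) (hC : 0 ≤ C)
    (hb0 : ∀ x v : E3, Real.exp (2 * β * ‖v‖ ^ 2) * f₀ (x, v) ≤ C)
    (hbf : ∀ t ∈ Icc 0 T, ∀ x v : E3, Real.exp (2 * β * ‖v‖ ^ 2) * f t (x, v) ≤ C)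
    (hK : K = 16 * momInt β * C) (hκ : κ = K + 1)
    (ht₀1 : 8 * (K + 1) * t₀ ≤ 1) (ht₀2 : (K + 1) * t₀ ≤ β) {τ : ℝ} (hτ : 0 ≤ τ)
    (heq : ∀ z, f τ z = free f₀ τ z) {s : ℝ} (hs : τ ≤ s) (hsT : s ≤ T) (hst : s ≤ τ + t₀)
    (z : Ph) : f s z = free f₀ s z := by
  have hK0 : 0 ≤ K := by
    rw [hK]
    have := momInt_nonneg β
    positivity
  have hκ0 : 0 < κ := by rw [hκ]; linarith
  -- exponents
  have hα : ∀ u, τ ≤ u → u ≤ τ + t₀ → β ≤ 2 * β - κ * (u - τ) ∧ 2 * β - κ * (u - τ) ≤ 2 * β := by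
    intro u h1 h2
    constructor
    · rw [hκ]
      linarith only [mul_nonneg (le_of_lt (sub_pos.2 hκ0)) (sub_nonneg.2 h2), mul_eq_zero_of_left (sub_eq_zero.2 hκ) (τ + t₀ - (u)), ht₀2]
    · linarith only [mul_nonneg (le_of_lt (sub_pos.2 hκ0)) (sub_nonneg.2 h1)]
  have key : ∀ n : ℕ, ∀ u, τ ≤ u → u ≤ T → u ≤ τ + t₀ → ∀ x v : E3,
      |f u (x, v) - free f₀ u (x, v)| ≤
        C / 2 ^ n * Real.exp (-(2 * β - κ * (u - τ)) * ‖v‖ ^ 2) := by
    intro n
    induction n with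
    | zero =>
      intro u h1 h2 h3 x v
      have hu : u ∈ Icc 0 T := ⟨hτ.trans h1, h2⟩
      have e1 := le_mul_exp_of (hbf u hu x v)
      have e2 := le_mul_exp_of (free_bound hb0 u x v)
      have e3 := hf.nonneg u hu (x, v)
      have e4 : 0 ≤ free f₀ u (x, v) := h.nonneg _
      have e5 : C * Real.exp (-(2 * β) * ‖v‖ ^ 2) ≤
          C * Real.exp (-(2 * β - κ * (u - τ)) * ‖v‖ ^ 2) := by
        refine mul_le_mul_of_nonneg_left (Real.exp_le_exp.2 ?_) hC
        have := (hα u h1 h3).2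
        linarith only [mul_nonneg (sub_nonneg.2 this) (sq_nonneg ‖v‖)]
      rw [pow_zero, div_one, abs_le]
      constructor <;> linarith
    | succ n ih =>
      intro s₁ h1 h2 h3 x v
      set D : ℝ := C / 2 ^ n with hD
      have hD0 : 0 ≤ D := by positivity
      set x₀ : E3 := x - s₁ • v with hx₀
      set φ : ℝ → ℝ := fun u => f u (x₀ + u • v, v) - f₀ (x₀, v) with hφ
      have hderiv : ∀ u ∈ Icc 0 T, HasDerivWithinAt φ
          (collision Φ (fun w => f u (x₀ + u • v, w)) v) (Icc 0 T) u := fun u hu =>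
        (hf.hasDerivWithinAt hT x₀ v hu).sub_const _
      have hsub : Icc τ s₁ ⊆ Icc 0 T := Icc_subset_Icc hτ h2
      have hcont : ContinuousOn φ (Icc τ s₁) := fun u hu =>
        ((hderiv u (hsub hu)).continuousWithinAt).mono hsub
      have hderiv' : ∀ u ∈ Ico τ s₁, HasDerivWithinAt φ
          (collision Φ (fun w => f u (x₀ + u • v, w)) v) (Ici u) u := by
        intro u hu
        refine (hderiv u (hsub (Ico_subset_Icc_self hu))).mono_of_mem_nhdsWithin ?_
        exact Icc_mem_nhdsGE_of_mem ⟨hτ.trans hu.1, hu.2.trans_le h2⟩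
      have hfree : ∀ u, free f₀ u (x₀ + u • v, v) = f₀ (x₀, v) := by
        intro u
        simp [free]
      have hbound : ∀ u ∈ Ico τ s₁, ‖collision Φ (fun w => f u (x₀ + u • v, w)) v‖ ≤
          K * D * (2 + (1 / (4 * κ) + 2 * (u - τ)) * (κ * ‖v‖ ^ 2)) *
            Real.exp (-(2 * β - κ * (u - τ)) * ‖v‖ ^ 2) := by
        intro u hu
        have huT : u ∈ Icc 0 T := hsub (Ico_subset_Icc_self hu)
        have hut : u ≤ τ + t₀ := hu.2.le.trans h3
        obtain ⟨ha1, ha2⟩ := hα u hu.1 hut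
        have hexp : ∀ w : E3, C * Real.exp (-(2 * β) * ‖w‖ ^ 2) ≤
            C * Real.exp (-(2 * β - κ * (u - τ)) * ‖w‖ ^ 2) := by
          intro w
          refine mul_le_mul_of_nonneg_left (Real.exp_le_exp.2 ?_) hC
          linarith only [mul_nonneg (sub_nonneg.2 ha2) (sq_nonneg ‖w‖)]
        have hc := collision_bound hΦ hβ ha1 hC hD0 (hM.profile u (x₀ + u • v))
          (g := fun w => f u (x₀ + u • v, w)) (fun w => hf.nonneg u huT _)
          (fun w => (le_mul_exp_of (hbf u huT _ w)).trans (hexp w))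
          (fun w => (le_mul_exp_of (free_bound hb0 u _ w)).trans (hexp w))
          (fun w => ih u hu.1 huT.2 hut _ w) v
        rw [Real.norm_eq_abs]
        refine hc.trans ?_
        have hpos : 0 < Real.exp (-(2 * β - κ * (u - τ)) * ‖v‖ ^ 2) := Real.exp_pos _
        refine mul_le_mul_of_nonneg_right ?_ hpos.le
        rw [← hK]
        refine mul_le_mul_of_nonneg_left ?_ (mul_nonneg hK0 hD0)
        have e1 : (1 / (4 * κ) + 2 * (u - τ)) * (κ * ‖v‖ ^ 2) =
            ‖v‖ ^ 2 / 4 + 2 * (u - τ) * κ * ‖v‖ ^ 2 := by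
          field_simp
        rw [e1]
        have e2 : 0 ≤ 2 * (u - τ) * κ * ‖v‖ ^ 2 := by
          have := hu.1
          have : 0 ≤ u - τ := by linarith
          positivity
        linarith only [sq_nonneg (‖v‖ / 2 - 1), e2]
      have hB : ∀ u, HasDerivAt (fun u => K * D * (1 / (4 * κ) + 2 * (u - τ)) *
          Real.exp (-(2 * β - κ * (u - τ)) * ‖v‖ ^ 2))
          (K * D * (2 + (1 / (4 * κ) + 2 * (u - τ)) * (κ * ‖v‖ ^ 2)) *
            Real.exp (-(2 * β - κ * (u - τ)) * ‖v‖ ^ 2)) u := by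
        intro u
        have g1 : HasDerivAt (fun u : ℝ => K * D * (1 / (4 * κ) + 2 * (u - τ)))
            (K * D * (2 * 1)) u :=
          ((((hasDerivAt_id u).sub_const τ).const_mul 2).const_add _).const_mul _
        have g2 : HasDerivAt (fun u : ℝ => -(2 * β - κ * (u - τ)) * ‖v‖ ^ 2)
            (-(-(κ * 1)) * ‖v‖ ^ 2) u :=
          ((((((hasDerivAt_id u).sub_const τ).const_mul κ).const_sub (2 * β)).neg)).mul_const _
        refine (g1.mul g2.exp).congr_deriv ?_
        ring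
      have hφτ : ‖φ τ‖ ≤ K * D * (1 / (4 * κ) + 2 * (τ - τ)) *
          Real.exp (-(2 * β - κ * (τ - τ)) * ‖v‖ ^ 2) := by
        have : φ τ = 0 := by
          simp only [hφ]
          rw [heq, hfree, sub_self]
        rw [this, norm_zero, sub_self]
        (clear * - hK0 hC hκ0; positivity)
      have hmain := image_norm_le_of_norm_deriv_right_le_deriv_boundary hcont hderiv' hφτ hB
        hbound (right_mem_Icc.2 h1)
      have hx : x₀ + s₁ • v = x := by
        simp [hx₀]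
      have hval : φ s₁ = f s₁ (x, v) - free f₀ s₁ (x, v) := by
        simp only [hφ]
        rw [hx, ← hfree s₁, hx]
      rw [hval, Real.norm_eq_abs] at hmain
      refine hmain.trans ?_
      refine mul_le_mul_of_nonneg_right ?_ (Real.exp_pos _).le
      have e3 : C / 2 ^ (n + 1) = D * (1 / 2) := by
        rw [hD, pow_succ]
        ring
      rw [e3]
      have e4 : K * (1 / (4 * κ) + 2 * (s₁ - τ)) ≤ 1 / 2 := by
        have e5 : K * (1 / (4 * κ)) ≤ 1 / 4 := by
          rw [mul_one_div, div_le_div_iff₀ (by positivity) (by norm_num)]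
          rw [hκ]
          linarith only []
        have e6 : K * (2 * (s₁ - τ)) ≤ 1 / 4 := by
          linarith only [mul_nonneg (le_of_lt (sub_pos.2 hκ0)) (sub_nonneg.2 h3), mul_eq_zero_of_left (sub_eq_zero.2 hκ) (τ + t₀ - (s₁)), mul_nonneg (mul_self_nonneg (1 : ℝ)) (sub_nonneg.2 h1), mul_nonneg (mul_self_nonneg (1 : ℝ)) (sub_nonneg.2 ht₀1)]
        linarith
      calc K * D * (1 / (4 * κ) + 2 * (s₁ - τ)) = D * (K * (1 / (4 * κ) + 2 * (s₁ - τ))) := by ring
        _ ≤ D * (1 / 2) := mul_le_mul_of_nonneg_left e4 hD0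
  -- conclude
  obtain ⟨x, v⟩ := z
  have hlim : Tendsto (fun n : ℕ => C / 2 ^ n * Real.exp (-(2 * β - κ * (s - τ)) * ‖v‖ ^ 2))
      atTop (𝓝 0) := by
    have h1 : Tendsto (fun n : ℕ => C * (1 / 2 : ℝ) ^ n) atTop (𝓝 (C * 0)) :=
      (tendsto_pow_atTop_nhds_zero_of_lt_one (by norm_num) (by norm_num)).const_mul C
    have h2 := h1.mul_const (Real.exp (-(2 * β - κ * (s - τ)) * ‖v‖ ^ 2))
    rw [mul_zero, zero_mul] at h2
    refine h2.congr fun n => ?_
    rw [one_div, inv_pow, div_eq_mul_inv]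
  have h0 : |f s (x, v) - free f₀ s (x, v)| ≤ 0 :=
    ge_of_tendsto' hlim fun n => key n s hs hsT hst x v
  have := abs_nonpos_iff.1 h0
  linarith

/-- The freely expanding Maxwellian is the only regular solution with its initial datum. -/
theorem regular_unique {Φ : E3 → ℝ} {β T : ℝ} {f₀ : Ph → ℝ} {f : ℝ → Ph → ℝ}
    (hΦ : IsPotential Φ) (hβ : 0 < β) (h : IsDatum β f₀) (hM : IsGlobalMaxwellian f₀)
    (hT : 0 < T) (hf : IsRegularSolution Φ β f₀ T f) :
    ∀ t ∈ Icc 0 T, f t = free f₀ t := by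
  obtain ⟨C₁, hC₁, hb₁⟩ := exists_gaussian_bound h
  obtain ⟨C₂, hb₂⟩ := hf.bound
  set C := max C₁ C₂ with hCdef
  have hC : 0 ≤ C := hC₁.trans (le_max_left _ _)
  have hb0 : ∀ x v : E3, Real.exp (2 * β * ‖v‖ ^ 2) * f₀ (x, v) ≤ C := fun x v =>
    (hb₁ x v).trans (le_max_left _ _)
  have hbf : ∀ t ∈ Icc 0 T, ∀ x v : E3, Real.exp (2 * β * ‖v‖ ^ 2) * f t (x, v) ≤ C :=
    fun t ht x v => (hb₂ t ht x v).trans (le_max_right _ _)
  set K := 16 * momInt β * C with hK
  have hK0 : 0 ≤ K := by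
    have := momInt_nonneg β
    positivity
  set t₀ := min (1 / (8 * (K + 1))) (β / (K + 1)) with ht₀
  have ht₀pos : 0 < t₀ := lt_min (by positivity) (by positivity)
  have h1 : 8 * (K + 1) * t₀ ≤ 1 := by
    have := min_le_left (1 / (8 * (K + 1))) (β / (K + 1))
    rw [← ht₀, le_div_iff₀ (by positivity)] at this
    linarith
  have h2 : (K + 1) * t₀ ≤ β := by
    have := min_le_right (1 / (8 * (K + 1))) (β / (K + 1))
    rw [← ht₀, le_div_iff₀ (by positivity)] at this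
    linarith
  have hn : ∀ n : ℕ, ∀ s, 0 ≤ s → s ≤ T → s ≤ n * t₀ → ∀ z, f s z = free f₀ s z := by
    intro n
    induction n with
    | zero =>
      intro s hs0 _ hs2 z
      have : s = 0 := le_antisymm (by simpa using hs2) hs0
      rw [this, hf.init]
      simp [free]
    | succ n ih =>
      intro s hs0 hsT hs2 z
      rcases le_or_gt s (n * t₀) with hle | hlt
      · exact ih s hs0 hsT hle z
      · have hnt : 0 ≤ (n : ℝ) * t₀ := by (clear * - hK0 hβ; positivity)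
        refine unique_step hΦ hβ h hM hT hf hC hb0 hbf hK rfl h1 h2 hnt
          (fun z => ih _ hnt (hlt.le.trans hsT) le_rfl z) hlt.le hsT ?_ z
        push_cast at hs2
        linarith
  intro t ht
  funext z
  obtain ⟨n, hn'⟩ := exists_nat_ge (t / t₀)
  exact hn n t ht.1 ht.2 (by rwa [div_le_iff₀ ht₀pos] at hn') z

end Vale.Agent.P119
end

section

open MeasureTheory Filter Topology Set
open scoped ENNReal RealInnerProductSpace

namespace Vale.Agent.P119

/-- Repulsive, superstable, or with stable `Φ - l y·∇Φ`. -/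
def IsTame (Φ : E3 → ℝ) : Prop :=
  (∀ y : E3, y ≠ 0 → ⟪y, gradient Φ y⟫ ≤ 0) ∨
  (∃ A : ℝ, 0 < A ∧ IsStable (fun y => Φ y - (Metric.ball (0 : E3) 1).indicator (fun _ => A) y)) ∨
  ∃ l : ℝ, 0 < l ∧ IsStable (fun y => Φ y - l * ⟪y, gradient Φ y⟫)

theorem IsStable.mono {Φ Φ' : E3 → ℝ} (h : IsStable Φ) (hle : ∀ y, y ≠ 0 → Φ y ≤ Φ' y) :
    IsStable Φ' := by
  obtain ⟨B, hB0, hB⟩ := h
  refine ⟨B, hB0, fun n x hx => (hB n x hx).trans ?_⟩
  refine Finset.sum_le_sum fun i _ => Finset.sum_le_sum fun j hj => hle _ ?_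
  have hij : i < j := Finset.mem_Ioi.1 hj
  exact sub_ne_zero.2 (fun h => hij.ne (hx h))

theorem gradient_eq_zero_of_one_lt {Φ : E3 → ℝ} (hΦ : IsPotential Φ) {y : E3} (hy : 1 < ‖y‖) :
    gradient Φ y = 0 := by
  have h1 : Φ =ᶠ[𝓝 y] fun _ => 0 := by
    have : {z : E3 | 1 < ‖z‖} ∈ 𝓝 y :=
      (isOpen_lt continuous_const continuous_norm).mem_nhds hy
    filter_upwards [this] with z hz
    exact hΦ.vanishing z (le_of_lt hz)
  rw [gradient, h1.fderiv_eq]
  simp

/-- The virial function is bounded above. -/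
theorem virial_bdd {Φ : E3 → ℝ} (hΦ : IsPotential Φ) :
    ∃ C : ℝ, 0 < C ∧ ∀ y : E3, y ≠ 0 → ⟪y, gradient Φ y⟫ ≤ C := by
  have hgc : ContinuousOn (fun y : E3 => ⟪y, gradient Φ y⟫) {0}ᶜ := by
    intro y hy
    have hy' : y ≠ 0 := hy
    have h1 : ContDiffAt ℝ 2 Φ y := by
      rcases hΦ.regular with h | h
      · exact h.contDiffAt
      · exact h.1.contDiffAt (isOpen_compl_singleton.mem_nhds hy')
    have h2 : ContinuousAt (fderiv ℝ Φ) y :=
      (h1.fderiv_right (m := 1) (by norm_num)).continuousAt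
    have h3 : ContinuousAt (gradient Φ) y :=
      ((InnerProductSpace.toDual ℝ E3).symm.continuous.continuousAt).comp h2
    exact (continuousAt_id.inner h3).continuousWithinAt
  obtain ⟨r, hr0, hr⟩ : ∃ r : ℝ, 0 < r ∧ ∃ C₁ : ℝ, ∀ y : E3, y ≠ 0 → ‖y‖ < r →
      ⟪y, gradient Φ y⟫ ≤ C₁ := by
    rcases hΦ.regular with h | h
    · have hc : Continuous (fun y : E3 => ⟪y, gradient Φ y⟫) := by
        have h2 : Continuous (fderiv ℝ Φ) := h.continuous_fderiv (by norm_num)
        have h3 : Continuous (gradient Φ) :=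
          (InnerProductSpace.toDual ℝ E3).symm.continuous.comp h2
        exact continuous_id.inner h3
      obtain ⟨C, hC⟩ := (isCompact_closedBall (0 : E3) 1).bddAbove_image hc.continuousOn
      refine ⟨1, one_pos, C, fun y _ hy => hC ⟨y, ?_, rfl⟩⟩
      rw [mem_closedBall_zero_iff]
      exact hy.le
    · have h1 := h.2.2
      rw [eventually_nhdsWithin_iff, Metric.eventually_nhds_iff] at h1
      obtain ⟨r, hr, hr2⟩ := h1
      refine ⟨r, hr, 0, fun y hy hyr => hr2 (by simpa using hyr) hy⟩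
  obtain ⟨C₁, hC₁⟩ := hr
  have hcomp : IsCompact (Metric.closedBall (0 : E3) 1 \ Metric.ball 0 r) :=
    (isCompact_closedBall _ _).diff Metric.isOpen_ball
  have hsub : Metric.closedBall (0 : E3) 1 \ Metric.ball 0 r ⊆ {0}ᶜ := by
    intro y hy h0
    have : y = 0 := h0
    exact hy.2 (by rw [this]; exact Metric.mem_ball_self hr0)
  obtain ⟨C₂, hC₂⟩ := hcomp.bddAbove_image (hgc.mono hsub)
  refine ⟨max (max C₁ C₂) 1, lt_max_of_lt_right one_pos, fun y hy => ?_⟩
  rcases lt_or_ge ‖y‖ r with h1 | h1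
  · exact (hC₁ y hy h1).trans ((le_max_left _ _).trans (le_max_left _ _))
  · rcases le_or_gt ‖y‖ 1 with h2 | h2
    · refine (hC₂ ⟨y, ⟨?_, ?_⟩, rfl⟩).trans ((le_max_right _ _).trans (le_max_left _ _))
      · rw [mem_closedBall_zero_iff]
        exact h2
      · rw [mem_ball_zero_iff]
        exact not_lt.2 h1
    · rw [gradient_eq_zero_of_one_lt hΦ h2, inner_zero_right]
      exact zero_le_one.trans (le_max_right _ _)

/-- At distance exactly one the virial vanishes as well. -/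
theorem gradient_eq_zero_of_one_le {Φ : E3 → ℝ} (hΦ : IsPotential Φ) {y : E3} (hy : 1 ≤ ‖y‖) :
    gradient Φ y = 0 := by
  rcases hy.lt_or_eq with h | h
  · exact gradient_eq_zero_of_one_lt hΦ h
  · have hy0 : y ≠ 0 := by
      intro h0
      rw [h0, norm_zero] at h
      norm_num at h
    have h1 : ContDiffAt ℝ 2 Φ y := by
      rcases hΦ.regular with h' | h'
      · exact h'.contDiffAt
      · exact h'.1.contDiffAt (isOpen_compl_singleton.mem_nhds hy0)
    have h2 : ContinuousAt (fderiv ℝ Φ) y :=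
      (h1.fderiv_right (m := 1) (by norm_num)).continuousAt
    have h3 : ContinuousAt (gradient Φ) y :=
      ((InnerProductSpace.toDual ℝ E3).symm.continuous.continuousAt).comp h2
    have h4 : Tendsto (fun n : ℕ => (1 + 1 / ((n : ℝ) + 1)) • y) atTop (𝓝 y) := by
      have h5 : Tendsto (fun n : ℕ => 1 + 1 / ((n : ℝ) + 1)) atTop (𝓝 (1 + 0)) :=
        tendsto_one_div_add_atTop_nhds_zero_nat.const_add 1
      have h6 := h5.smul_const y
      simpa using h6
    have h7 : Tendsto (fun n : ℕ => gradient Φ ((1 + 1 / ((n : ℝ) + 1)) • y)) atTop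
        (𝓝 (gradient Φ y)) := h3.tendsto.comp h4
    have h8 : ∀ n : ℕ, gradient Φ ((1 + 1 / ((n : ℝ) + 1)) • y) = 0 := by
      intro n
      apply gradient_eq_zero_of_one_lt hΦ
      rw [norm_smul, ← h, mul_one, Real.norm_of_nonneg (by positivity)]
      have : (0 : ℝ) < 1 / ((n : ℝ) + 1) := by positivity
      linarith
    simp_rw [h8] at h7
    exact tendsto_nhds_unique h7 tendsto_const_nhds |>.symm ▸ rfl

theorem IsTame.virialStable {Φ : E3 → ℝ} (hΦ : IsPotential Φ) (hst : IsStable Φ)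
    (h : IsTame Φ) : ∃ l : ℝ, 0 < l ∧ IsStable (fun y => Φ y - l * ⟪y, gradient Φ y⟫) := by
  rcases h with h | ⟨A, hA, h⟩ | h
  · refine ⟨1, one_pos, hst.mono fun y hy => ?_⟩
    have := h y hy
    linarith
  · obtain ⟨C, hC, hb⟩ := virial_bdd hΦ
    refine ⟨A / C, by positivity, h.mono fun y hy => ?_⟩
    by_cases hy1 : ‖y‖ < 1
    · rw [indicator_of_mem (mem_ball_zero_iff.2 hy1)]
      have h1 : A / C * ⟪y, gradient Φ y⟫ ≤ A / C * C :=
        mul_le_mul_of_nonneg_left (hb y hy) (by positivity)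
      rw [div_mul_cancel₀ A hC.ne'] at h1
      linarith
    · rw [indicator_of_notMem (fun h => hy1 (mem_ball_zero_iff.1 h)),
        gradient_eq_zero_of_one_le hΦ (not_lt.1 hy1), inner_zero_right]
      linarith
  · exact h

end Vale.Agent.P119
end

section

open MeasureTheory Filter Topology Set
open scoped ENNReal RealInnerProductSpace

namespace Vale.Agent.P119

theorem coeff_nonneg {B C k : ℝ} {q : E3}
    (h : ∀ v : E3, Real.exp (-(B * ‖v‖ ^ 2 + ⟪q, v⟫ + k)) ≤ C) : 0 ≤ B := by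
  by_contra hB
  push Not at hB
  obtain ⟨e, he, hqe⟩ : ∃ e : E3, ‖e‖ = 1 ∧ ⟪q, e⟫ ≤ 0 := by
    obtain ⟨e₀, he₀⟩ : ∃ e : E3, ‖e‖ = 1 := exists_norm_eq E3 zero_le_one
    rcases le_total ⟪q, e₀⟫ 0 with h1 | h1
    · exact ⟨e₀, he₀, h1⟩
    · refine ⟨-e₀, by rw [norm_neg, he₀], ?_⟩
      rw [inner_neg_right]
      linarith
  have hlim : Tendsto (fun r : ℝ => -B * r ^ 2 - k) atTop atTop := by
    have h1 : Tendsto (fun r : ℝ => -B * r ^ 2) atTop atTop :=
      (tendsto_pow_atTop (by norm_num)).const_mul_atTop (by linarith)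
    exact tendsto_atTop_add_const_right _ _ h1
  obtain ⟨r, hr1, hr2⟩ := ((hlim.eventually_gt_atTop C).and (eventually_ge_atTop 0)).exists
  have h1 := h (r • e)
  rw [norm_smul, he, mul_one, Real.norm_eq_abs, sq_abs, inner_smul_right] at h1
  have h2 : -B * r ^ 2 - k ≤ -(B * r ^ 2 + r * ⟪q, e⟫ + k) := by
    have := mul_nonpos_of_nonneg_of_nonpos hr2 hqe
    linarith
  have h3 := Real.add_one_le_exp (-(B * r ^ 2 + r * ⟪q, e⟫ + k))
  linarith

/-- Sign conditions on the coefficients of an admissible global Maxwellian. -/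
theorem coeff_bounds {β : ℝ} {f₀ : Ph → ℝ} (h : IsDatum β f₀) {a b c k : ℝ} {p q : E3}
    {Ω : E3 →L[ℝ] E3}
    (hf : ∀ x v : E3, f₀ (x, v) =
      Real.exp (-(a * ‖x‖ ^ 2 + b * ‖v‖ ^ 2 - 2 * c * ⟪x, v⟫ + ⟪x, Ω v⟫ + ⟪p, x⟫ + ⟪q, v⟫ + k))) :
    0 ≤ a ∧ 2 * β ≤ b := by
  obtain ⟨C, hC, hb⟩ := exists_gaussian_bound h
  constructor
  · refine coeff_nonneg (C := C) (k := k) (q := p) fun x => ?_
    have := hb x 0
    rw [hf] at this
    simpa using this
  · have h1 : 0 ≤ b - 2 * β := by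
      refine coeff_nonneg (C := C) (k := k) (q := q) fun v => ?_
      have := hb 0 v
      rw [hf, ← Real.exp_add] at this
      refine le_trans (le_of_eq ?_) this
      congr 1
      simp only [norm_zero, inner_zero_left, inner_zero_right]
      ring
    linarith

end Vale.Agent.P119
end

section

open MeasureTheory Filter Topology Set
open scoped ENNReal RealInnerProductSpace

namespace Vale.Agent.P119

theorem exists_good_par {β T : ℝ} {f₀ : Ph → ℝ} (hβ : 0 < β) (h : IsDatum β f₀)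
    (hM : IsGlobalMaxwellian f₀) (hT : 0 ≤ T) :
    ∃ (P : Par) (κ : ℝ), P.Good T κ ∧ GoodDatum f₀ κ ∧ ∀ t, P.ft t = free f₀ t := by
  obtain ⟨a, b, c, k, p, q, Ω, hc, hΩ, hf⟩ := hM
  obtain ⟨ha, hb⟩ := coeff_bounds h hf
  obtain ⟨C, hC, hbd⟩ := exists_gaussian_bound h
  set P : Par := ⟨a, b, c, k, p, q, Ω⟩ with hP
  have hft : ∀ t, P.ft t = free f₀ t := by
    intro t
    funext z
    simp only [Par.ft, quad, free, hP]
    rw [hf]
  have h0 : free f₀ 0 = f₀ := by
    funext z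
    simp [free]
  refine ⟨P, kap β C, ⟨ha, lt_of_lt_of_le (by positivity) hb, hc, hΩ, hT, kap_nonneg hC,
    fun t _ => ?_, fun t _ => ?_, fun t _ => ?_⟩, ?_, hft⟩
  · rw [hft]
    exact (goodDatum_free hβ h hC hbd t).integrable
  · rw [hft]
    exact (goodDatum_free hβ h hC hbd t).integral_eq
  · rw [hft]
    exact (goodDatum_free hβ h hC hbd t).ball
  · have := goodDatum_free hβ h hC hbd 0
    rwa [h0] at this

theorem goodFlow_of {Φ : E3 → ℝ} (hΦ : IsPotential Φ) {ε t : ℝ} (hε : 0 < ε) (ht : 0 ≤ t) :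
    GoodFlow Φ ε t := by
  intro N
  obtain ⟨S, h1, h2, _, h4⟩ := flow_on_excl hΦ hε ht N
  exact ⟨S, h1, h4, h2⟩

/-- Existence and uniqueness of the trajectories started on the exclusion set. -/
theorem newton_wellposed {Φ : E3 → ℝ} (hΦ : IsPotential Φ) {ε : ℝ} (hε : 0 < ε) {n : ℕ}
    {Z : Fin n → Ph} (hZ : Z ∈ excl ε n) :
    ∃! z : ℝ → Fin n → Ph, IsNewton Φ ε z ∧ z 0 = Z := by
  obtain ⟨m, hm, hΦm⟩ := hΦ.bddBelow
  obtain ⟨k, hk⟩ := exists_nat_gt (kinE Z + (n : ℝ) ^ 2 * m)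
  have hk0 : (0 : ℝ) ≤ k := Nat.cast_nonneg k
  have hks : Z ∈ shell n m k := hk
  have hT := trunc_isPotential hΦ hk0
  obtain ⟨K, M, hK, hM⟩ := gradient_lipschitz_bounded (trunc_smooth hΦ k) hT.vanishing
  obtain ⟨K', hK'⟩ := accG_lipschitz (n := n) hK ε
  obtain ⟨M', hM'⟩ := accG_bounded (n := n) hM ε
  obtain ⟨S, hS0, hS, hSc⟩ := exists_config_flow hK' hM'
  have heq := fun t i j hij => trunc_eventuallyEq hΦ hm hk0 hΦm hε (γ := fun t => S t Z) (hS Z)
    (by simpa only [hS0] using hZ) (by simpa only [hS0] using hks) t i j hij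
  refine ⟨fun t => S t Z, ⟨isNewton_of_eventuallyEq (hS Z) heq, hS0 Z⟩, fun z hz => ?_⟩
  exact newton_unique hK' (hS Z) heq hz.1 (by rw [hz.2, hS0])

theorem kinetic_limit_free {Φ : E3 → ℝ} {β T : ℝ} {f₀ : Ph → ℝ} (hΦ : IsPotential Φ)
    (hst : IsStable Φ) (htame : IsTame Φ) (hβ : 0 < β) (h : IsDatum β f₀)
    (hM : IsGlobalMaxwellian f₀) (hT : 0 < T) (s : ℕ) {f : ℝ → Ph → ℝ}
    (hf : IsRegularSolution Φ β f₀ T f) : KineticLimit Φ f₀ T f s := by
  obtain ⟨l, hl, B₂, hB₂, hs₂⟩ := htame.virialStable hΦ hst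
  obtain ⟨B₁, hB₁, hs₁⟩ := hst
  obtain ⟨P, κ, hG, hD, hft⟩ := exists_good_par hβ h hM hT.le
  have h0 : P.ft 0 = f₀ := by
    rw [hft]
    funext z
    simp [free]
  obtain ⟨C, hC, hcan⟩ := hG.canonical hΦ hl hB₁ hB₂ hs₁ hs₂ s
  have huniq := regular_unique hΦ hβ h hM hT hf
  refine kineticLimit_of_canonical (C := C) hD (fun t ht => ?_)
    (fun ε hε t ht => goodFlow_of hΦ hε.1 ht.1) hC ?_
  · exact ⟨(hf.integral_eq t ht).1, hf.nonneg t ht, (hf.integral_eq t ht).2⟩
  · intro ε hε t ht N hN a ham ha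
    have := hcan ε hε.1 t ht N hN a ham ha
    rw [h0, hft] at this
    rw [huniq t ht]
    exact this

end Vale.Agent.P119
end
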