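import Vale.Agent.P119.Stmt
import Vale.Agent.P119.Bdl.B3

section

open MeasureTheory Filter Topology Set
open scoped ENNReal RealInnerProductSpace

namespace Vale.Agent.P119.Bridge

theorem inner_gradient_eq {g : E3 → ℝ} (x v : E3) : ⟪gradient g x, v⟫ = fderiv ℝ g x v := by
  rw [gradient]
  exact InnerProductSpace.toDual_symm_apply

theorem inner_gradient_eq' {g : E3 → ℝ} (x v : E3) : ⟪v, gradient g x⟫ = fderiv ℝ g x v := by
  rw [real_inner_comm, inner_gradient_eq]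

theorem norm_gradient_eq {g : E3 → ℝ} (x : E3) : ‖gradient g x‖ = ‖fderiv ℝ g x‖ := by
  rw [gradient]
  exact LinearIsometryEquiv.norm_map _ _

theorem isPotential_of {Φ : E3 → ℝ} (h : Stmt.IsPotential Φ) : IsPotential Φ := by
  refine ⟨h.1, h.2.1, h.2.2.imp id fun h2 => ⟨h2.1, h2.2.1, h2.2.2.mono fun x hx => ?_⟩⟩
  rw [inner_gradient_eq']
  exact hx

theorem isTame_of {Φ : E3 → ℝ} (h : Stmt.IsTame Φ) : IsTame Φ := by
  rcases h with h | h | ⟨l, hl, h⟩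
  · refine Or.inl fun y hy => ?_
    rw [inner_gradient_eq']
    exact h y hy
  · exact Or.inr (Or.inl h)
  · refine Or.inr (Or.inr ⟨l, hl, ?_⟩)
    simp only [inner_gradient_eq']
    exact h

/-- The lattice `ℤ³`. -/
noncomputable def lat (k : Fin 3 → ℤ) : E3 := WithLp.toLp 2 (fun i => (k i : ℝ))

theorem gnorm_le {F : Type} [NormedAddCommGroup F] (γ : ℝ) (h : Ph → F) (g : Ph → ℝ)
    (hg : ∀ z, g z = ‖h z‖) : gnorm γ h ≤ Stmt.gnorm lat γ g := by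
  refine ENNReal.tsum_le_tsum fun k => iSup_le fun z => iSup_le fun hz => ?_
  have hz' : z.1 ∈ Metric.closedBall (lat k) 1 := by
    rw [Metric.mem_closedBall, dist_eq_norm]
    exact hz
  refine le_trans (le_of_eq ?_) (le_iSup_of_le (⟨z.1, hz'⟩ : Metric.closedBall (lat k) 1)
    (le_iSup (fun v : E3 => ENNReal.ofReal (Real.exp (γ * ‖v‖ ^ 2) * |g (z.1, v)|)) z.2))
  rw [hg, abs_norm]

theorem isDatum_of {γ : ℝ} {f₀ : Ph → ℝ} (h : Stmt.IsDatum lat γ f₀) : IsDatum (γ / 2) f₀ := by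
  have h2 : 2 * (γ / 2) = γ := by ring
  obtain ⟨h1, ⟨hn, hi, hi1⟩, hg1, hg2⟩ := h
  refine ⟨h1, hn, hi, hi1, ?_, ?_⟩
  · rw [h2]
    refine lt_of_le_of_lt (gnorm_le γ f₀ f₀ fun z => ?_) hg1
    rw [Real.norm_eq_abs, abs_of_nonneg (hn z)]
  · rw [h2]
    refine lt_of_le_of_lt (gnorm_le γ _ _ fun z => ?_) hg2
    rw [norm_gradient_eq]

theorem isGlobalMaxwellian_of {f₀ : Ph → ℝ} (h : Stmt.IsGlobalMaxwellian f₀) :
    IsGlobalMaxwellian f₀ := by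
  obtain ⟨a, b, c, k, p, q, Ω, hc, hΩ, hf⟩ := h
  refine ⟨a, b, c / 2, k, p, q, Ω, by positivity, hΩ, fun x v => ?_⟩
  rw [hf]
  congr 1
  ring

theorem isNewton_iff {Φ : E3 → ℝ} {ε : ℝ} {N : ℕ} {Z : Fin N → Ph} {z : ℝ → Fin N → Ph} :
    Stmt.IsNewton (gradient Φ) ε Z z ↔ IsNewton Φ ε z ∧ z 0 = Z :=
  ⟨fun h => ⟨h.2, h.1⟩, fun h => ⟨h.2, h.1⟩⟩

theorem existsUnique {Φ : E3 → ℝ} (hΦ : IsPotential Φ) {ε : ℝ} (hε : 0 < ε) {N : ℕ}
    {Z : Fin N → Ph} (hZ : Z ∈ excl ε N) :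
    ∃! z : ℝ → Fin N → Ph, Stmt.IsNewton (gradient Φ) ε Z z := by
  simp only [isNewton_iff]
  exact newton_wellposed hΦ hε hZ

theorem epsilon_eq_flow {Φ : E3 → ℝ} (hΦ : IsPotential Φ) {ε : ℝ} (hε : 0 < ε) (t : ℝ) {N : ℕ}
    {Z : Fin N → Ph} (hZ : Z ∈ excl ε N) :
    Classical.epsilon (Stmt.IsNewton (gradient Φ) ε Z) t = flow Φ ε t Z := by
  obtain ⟨z, hz, hu⟩ := existsUnique hΦ hε hZ
  have h1 : Classical.epsilon (Stmt.IsNewton (gradient Φ) ε Z) = z :=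
    hu _ (Classical.epsilon_spec ⟨z, hz⟩)
  have h2 : ∃ z : ℝ → Fin N → Ph, IsNewton Φ ε z ∧ z 0 = Z := ⟨z, isNewton_iff.1 hz⟩
  have h3 : h2.choose = z := hu _ (isNewton_iff.2 h2.choose_spec)
  rw [h1, flow, dif_pos h2, h3]

theorem outVel_eq (Φ : E3 → ℝ) (V ρ : E3) : Stmt.outVel (gradient Φ) V ρ = outVel Φ V ρ := rfl

theorem finrank_orthogonal {V : E3} (hV : V ≠ 0) : Module.finrank ℝ (ℝ ∙ V)ᗮ = 2 := by
  have : Fact (Module.finrank ℝ E3 = 2 + 1) := ⟨by simp⟩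
  exact Submodule.finrank_orthogonal_span_singleton hV

theorem discIntegral_eq {V : E3} (hV : V ≠ 0) (F : E3 → ℝ) :
    ∫ ρ in {ρ : E3 | ‖ρ‖ < 1 ∧ ⟪ρ, V⟫ = 0}, F ρ ∂μHE[2] =
      ∫ ρ : (ℝ ∙ V)ᗮ in Metric.ball 0 1, F ρ := by
  have h1 : (volume : Measure (ℝ ∙ V)ᗮ) = μHE[2] := by
    rw [← finrank_orthogonal hV, InnerProductSpace.euclideanHausdorffMeasure_eq_volume]
  have hemb : MeasurableEmbedding (Subtype.val : (ℝ ∙ V)ᗮ → E3) :=
    MeasurableEmbedding.subtype_coe (Submodule.isClosed_orthogonal _).measurableSet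
  have h2 : Metric.ball (0 : (ℝ ∙ V)ᗮ) 1 = Subtype.val ⁻¹' Metric.ball (0 : E3) 1 := by
    ext x
    simp
  have h3 : {ρ : E3 | ‖ρ‖ < 1 ∧ ⟪ρ, V⟫ = 0} =
      Metric.ball (0 : E3) 1 ∩ range (Subtype.val : (ℝ ∙ V)ᗮ → E3) := by
    ext x
    simp [Submodule.mem_orthogonal_singleton_iff_inner_left]
  have h4 : Isometry (Subtype.val : (ℝ ∙ V)ᗮ → E3) := isometry_subtype_coe
  rw [h1, h2, ← hemb.setIntegral_map, h4.map_euclideanHausdorffMeasure,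
    Measure.restrict_restrict Metric.isOpen_ball.measurableSet, h3]

theorem collision_eq (Φ : E3 → ℝ) (h : E3 → ℝ) (v : E3) :
    Stmt.collision (gradient Φ) h v = collision Φ h v := by
  unfold Stmt.collision collision
  refine integral_congr_ae (Eventually.of_forall fun vs => ?_)
  by_cases hv : v - vs = 0
  · simp [hv]
  · exact discIntegral_eq hv fun ρ => ‖v - vs‖ * (h ((2 : ℝ)⁻¹ • (v + vs + outVel Φ (v - vs) ρ)) *
      h ((2 : ℝ)⁻¹ • (v + vs - outVel Φ (v - vs) ρ)) - h v * h vs)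

theorem isRegularSolution_iff {Φ : E3 → ℝ} {γ : ℝ} {f₀ : Ph → ℝ} {T : ℝ} {f : ℝ → Ph → ℝ} :
    Stmt.IsRegularSolution (gradient Φ) γ f₀ T f ↔ IsRegularSolution Φ (γ / 2) f₀ T f := by
  have h2 : 2 * (γ / 2) = γ := by ring
  constructor
  · rintro ⟨h0, h1, h3, h4⟩
    refine ⟨h0, fun t ht => (h3 t ht).1.1, fun t ht => (h3 t ht).1.2, h1, fun t ht x v => ?_, ?_⟩
    · rw [inner_gradient_eq', ← collision_eq]
      exact (h3 t ht).2 x v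
    · rw [h2]
      exact h4
  · rintro ⟨h0, h1, h3, h4, h5, h6⟩
    refine ⟨h0, h4, fun t ht => ⟨⟨h1 t ht, h3 t ht⟩, fun x v => ?_⟩, ?_⟩
    · rw [← inner_gradient_eq', collision_eq]
      exact h5 t ht x v
    · rw [h2] at h6
      exact h6

theorem gcSum_eq {f₀ : Ph → ℝ} {ε : ℝ} (g : (N : ℕ) → (Fin N → Ph) → ℝ) :
    Stmt.gcSum (fun N Z => Stmt.weight f₀ ε (ε ^ 2)⁻¹ N Z * g N Z) =
      ∑' N : ℕ, mu ε ^ N / (N.factorial : ℝ) * ∫ Z : Fin N → Ph, wt f₀ ε Z * g N Z := by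
  refine tsum_congr fun N => ?_
  rw [← integral_const_mul]
  refine integral_congr_ae (Eventually.of_forall fun Z => ?_)
  simp only [Stmt.weight, wt, mu]
  rw [mul_assoc]
  rfl

theorem gcSum_weight {f₀ : Ph → ℝ} {ε : ℝ} :
    Stmt.gcSum (Stmt.weight f₀ ε (ε ^ 2)⁻¹) = partitionFn f₀ ε := by
  have := gcSum_eq (f₀ := f₀) (ε := ε) (fun _ _ => 1)
  simp only [mul_one] at this
  exact this

theorem isMarginal_of {Φ : E3 → ℝ} (hΦ : IsPotential Φ) {f₀ : Ph → ℝ} {ε t : ℝ} (hε : 0 < ε)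
    {s : ℕ} {F : (Fin s → Ph) → ℝ} (h : IsMarginal Φ f₀ ε t s F) :
    Stmt.IsMarginal (ε ^ 2)⁻¹ (Stmt.weight f₀ ε (ε ^ 2)⁻¹)
      (fun _ Z => Classical.epsilon (Stmt.IsNewton (gradient Φ) ε Z) t) s F := by
  refine ⟨h.1, fun a ham ha => ?_⟩
  have h1 := gcSum_eq (f₀ := f₀) (ε := ε) (fun (N : ℕ) (Z : Fin N → Ph) =>
    ∑ σ : Fin s ↪ Fin N, a (fun k => Classical.epsilon (Stmt.IsNewton (gradient Φ) ε Z) t (σ k)))
  beta_reduce
  rw [h.2 a ham ha, gcSum_weight, h1, expect, div_eq_inv_mul]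
  change ((ε ^ 2)⁻¹ ^ s)⁻¹ * _ = _
  congr 2
  refine tsum_congr fun N => ?_
  congr 1
  refine integral_congr_ae (Eventually.of_forall fun Z => ?_)
  by_cases hZ : Z ∈ excl ε N
  · simp only [epsilon_eq_flow hΦ hε t hZ]
  · simp [wt, Set.indicator_of_notMem hZ]

theorem kineticLimit_of {Φ : E3 → ℝ} (hΦ : IsPotential Φ) {f₀ : Ph → ℝ} {T : ℝ}
    {f : ℝ → Ph → ℝ} {s : ℕ} (h : KineticLimit Φ f₀ T f s) :
    Stmt.KineticLimit (gradient Φ) f₀ T f s := by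
  classical
  obtain ⟨h1, h2⟩ := h
  set F : ℝ → ℝ → (Fin s → Ph) → ℝ := fun ε t =>
    if h : ε ∈ Ioo (0 : ℝ) 1 ∧ t ∈ Icc 0 T then (h1 ε h.1 t h.2).choose else 0 with hF
  have hFm : ∀ ε ∈ Ioo (0 : ℝ) 1, ∀ t ∈ Icc 0 T, IsMarginal Φ f₀ ε t s (F ε t) := by
    intro ε hε t ht
    have : F ε t = (h1 ε hε t ht).choose := dif_pos ⟨hε, ht⟩
    rw [this]
    exact (h1 ε hε t ht).choose_spec
  exact ⟨F, fun ε hε t ht => isMarginal_of hΦ hε.1 (hFm ε hε t ht), h2 F hFm⟩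

theorem main_holds : Stmt.Main lat := by
  intro Φ γ T f₀ h1 h2 h3 hγ hT h4 h5
  have hΦ := isPotential_of h1
  have hβ : 0 < γ / 2 := by positivity
  have hf₀ := isDatum_of h4
  have hM := isGlobalMaxwellian_of h5
  exact ⟨fun ε hε N Z hZ => existsUnique hΦ hε.1 hZ,
    ⟨_, isRegularSolution_iff.2 (isRegularSolution_free hΦ hβ hf₀ hM hT)⟩,
    fun f hf s => kineticLimit_of hΦ
      (kinetic_limit_free hΦ h2 (isTame_of h3) hβ hf₀ hM hT s (isRegularSolution_iff.1 hf))⟩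

end Vale.Agent.P119.Bridge
end
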